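import Vale.Agent.P262.H837.ThrB

/-!
# P262, block THR (sharp throughput), part C: weights, Hoelder, the bound in one label direction
-/

set_option linter.all false

open MeasureTheory ProbabilityTheory Set
open scoped ENNReal RealInnerProductSpace Pointwise

namespace Vale.Agent.P262.H837

open Vale.Agent.P262.H395

variable {E : Type*} [NormedAddCommGroup E] [InnerProductSpace ℝ E] [FiniteDimensional ℝ E]
  [MeasurableSpace E] [BorelSpace E]

lemma measurable_Dm (W : Submodule ℝ E) {K : Set E} (hK : MeasurableSet K) (e : E) (η : ℝ)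
    {n : E → ℕ} (hn : Measurable n) (m : ℕ) : Measurable (Dm W K e η n m) :=
  measurable_fib (measurable_one.indicator (measurableSet_Uset hK e η hn m))

lemma measurable_Nm (W : Submodule ℝ E) {K : Set E} (hK : IsCompact K) (e : E) (η : ℝ)
    {n : E → ℕ} (hn : Measurable n) (m : ℕ) : Measurable (Nm W K e η n m) :=
  measurable_fib (measurable_one.indicator (measurableSet_Tset hK e η hn m))

lemma Nm_le_one (W : Submodule ℝ E) (K : Set E) (e : E) {η : ℝ} (hη : 0 ≤ η) (n : E → ℕ)
    (m : ℕ) (x : E) : Nm W K e η n m x ≤ 1 :=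
  (Nm_le_Dm W K e hη n le_rfl x).trans (Dm_le_one W K e η n m x)

/-- **line lemma**, arbitrary weight `g`: pushing `K` by `n η` along the label direction `e`
raises the `g`-weighted `s`-th power of the dead mass by at most the shifted-weight defect times
the powers of the shadow masses. -/
theorem dir_bound {W0 W : Submodule ℝ E} {K : Set E} (hKc : IsCompact K)
    (hK : Convex ℝ K) {e : E} (he : e ∈ W) (he0 : e ∈ W0ᗮ) {η : ℝ} (hη : 0 ≤ η) {n : E → ℕ}
    (hnm : Measurable n) (hn : ∀ x, n (x + η • e) = n x) {s : ℝ} (h0 : 0 ≤ s) (h1 : s ≤ 1)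
    {g : E → ℝ≥0∞} (hg : Measurable g) {x0 : E} (hfin : fib W0 g x0 ≠ ⊤) (m : ℕ) :
    fib W0 (fun x => g x * Dm W K e η n m x ^ s) x0
      ≤ fib W0 (fun x => g x * fib W (Kᶜ.indicator 1) x ^ s) x0
        + ∑ j ∈ Finset.range m, fib W0 (fun x =>
            (g (x - η • e) * dens (η • e) x - g x) * Nm W K e η n j x ^ s) x0 := by
  induction m with
  | zero =>
    rw [Finset.sum_range_zero, add_zero]
    have : Dm W K e η n 0 = fib W (Kᶜ.indicator 1) := by
      unfold Dm
      rw [Uset_zero]
    rw [this]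
  | succ m ih =>
    have hNf : fib W0 (fun x => g x * Nm W K e η n m x ^ s) x0 ≠ ⊤ := by
      refine ne_top_of_le_ne_top hfin (fib_mono (fun x => ?_) x0)
      calc g x * Nm W K e η n m x ^ s ≤ g x * 1 :=
            mul_le_mul_right (ENNReal.rpow_le_one (Nm_le_one W K e hη n m x) h0) _
        _ = g x := mul_one _
    have hstep := core (W0 := W0) (h := η • e) (W0ᗮ.smul_mem η he0) hg
      (P := fun x => Dm W K e η n m x ^ s) (Q := fun x => Dm W K e η n (m + 1) x ^ s)
      (N := fun x => Nm W K e η n m x ^ s)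
      ((measurable_Dm W hKc.measurableSet e η hnm m).pow_const s)
      ((measurable_Dm W hKc.measurableSet e η hnm (m + 1)).pow_const s)
      ((measurable_Nm W hKc e η hnm m).pow_const s)
      (fun x => step_pow hKc hK he hη hnm hn h0 h1 m x) hNf
    rw [Finset.sum_range_succ, ← add_assoc]
    exact hstep.trans (add_le_add_left ih _)

/-- Hoelder for the fibre averages -/
lemma fib_holder {W0 : Submodule ℝ E} {th s : ℝ} (hth : 0 < th) (hs : 0 < s) (hsum : th + s = 1)
    {X Y : E → ℝ≥0∞} (hX : Measurable X) (hY : Measurable Y) (x0 : E) :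
    fib W0 (fun x => X x * Y x ^ s) x0
      ≤ fib W0 (fun x => X x ^ (1 / th)) x0 ^ th * fib W0 Y x0 ^ s := by
  have hpq : (1 / th).HolderConjugate (1 / s) := by
    rw [Real.holderConjugate_iff]
    constructor
    · rw [lt_div_iff₀ hth]; linarith
    · rw [one_div, one_div, inv_inv, inv_inv]; exact hsum
  unfold fib
  have mX : Measurable fun z => X (mix W0 x0 z) := hX.comp (measurable_mix_right W0 x0)
  have mY : Measurable fun z => Y (mix W0 x0 z) ^ s := (hY.comp (measurable_mix_right W0 x0)).pow_const s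
  have h := ENNReal.lintegral_mul_le_Lp_mul_Lq (stdGaussian E) hpq mX.aemeasurable mY.aemeasurable
  simp only [Pi.mul_apply] at h
  refine h.trans (le_of_eq ?_)
  have e1 : ∀ z, (Y (mix W0 x0 z) ^ s) ^ (1 / s) = Y (mix W0 x0 z) := by
    intro z
    rw [← ENNReal.rpow_mul, mul_one_div_cancel hs.ne', ENNReal.rpow_one]
  simp_rw [e1]
  rw [one_div_one_div, one_div_one_div]

/-- the push weight: how much a weight can grow when shifted back by `η e` -/
noncomputable def pw (e : E) (η : ℝ) (x : E) : ℝ≥0∞ :=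
  ENNReal.ofReal (η * |⟪e, x⟫| * Real.exp (η * |⟪e, x⟫|))

lemma measurable_pw (e : E) (η : ℝ) : Measurable (pw e η) := by
  unfold pw
  fun_prop

/-- a cap with growth exponent `p` along `e` -/
def Grow (A : E → ℝ≥0∞) (e : E) (p : ℝ) : Prop :=
  ∀ x (t : ℝ), 0 ≤ t → A (x - t • e) ≤ ENNReal.ofReal (Real.exp (p * max 0 (t ^ 2 - 2 * t * ⟪e, x⟫))) * A x

lemma weight_defect {A : E → ℝ≥0∞} {e : E} (he : ‖e‖ = 1) {p th : ℝ} (hp : 0 ≤ p) (hth : 0 ≤ th)
    (hpth : 2 * p * th ≤ 1) (hA : Grow A e p) {η : ℝ} (hη : 0 ≤ η) (x : E) :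
    A (x - η • e) ^ th * dens (η • e) x ≤ A x ^ th + pw e η x * A x ^ th := by
  set y := ⟪e, x⟫ with hy
  have hd : dens (η • e) x = ENNReal.ofReal (Real.exp (η * y - η ^ 2 / 2)) := by
    unfold dens
    rw [real_inner_smul_left, norm_smul, he, Real.norm_eq_abs, abs_of_nonneg hη, mul_one]
  have h1 : A (x - η • e) ^ th
      ≤ ENNReal.ofReal (Real.exp (th * (p * max 0 (η ^ 2 - 2 * η * y)))) * A x ^ th := by
    refine (ENNReal.rpow_le_rpow (hA x η hη) hth).trans ?_
    rw [ENNReal.mul_rpow_of_nonneg _ _ hth, ENNReal.ofReal_rpow_of_nonneg (Real.exp_pos _).le hth,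
      ← Real.exp_mul]
    rw [mul_comm (p * _) th]
  rw [hd]
  calc A (x - η • e) ^ th * ENNReal.ofReal (Real.exp (η * y - η ^ 2 / 2))
      ≤ ENNReal.ofReal (Real.exp (th * (p * max 0 (η ^ 2 - 2 * η * y)))) * A x ^ th
          * ENNReal.ofReal (Real.exp (η * y - η ^ 2 / 2)) := mul_le_mul_left h1 _
    _ = ENNReal.ofReal (Real.exp (th * (p * max 0 (η ^ 2 - 2 * η * y)) + (η * y - η ^ 2 / 2)))
          * A x ^ th := by
        rw [Real.exp_add, ENNReal.ofReal_mul (Real.exp_pos _).le]
        ring
    _ ≤ ENNReal.ofReal (1 + η * |y| * Real.exp (η * |y|)) * A x ^ th := by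
        apply mul_le_mul_left
        apply ENNReal.ofReal_le_ofReal
        have hya : η * y ≤ η * |y| := mul_le_mul_of_nonneg_left (le_abs_self y) hη
        have hyn : 0 ≤ η * |y| := mul_nonneg hη (abs_nonneg y)
        have key : th * (p * max 0 (η ^ 2 - 2 * η * y)) + (η * y - η ^ 2 / 2) ≤ η * |y| := by
          rcases le_total (η ^ 2 - 2 * η * y) 0 with h | h
          · rw [max_eq_left h]
            nlinarith [sq_nonneg η]
          · rw [max_eq_right h]
            have : th * (p * (η ^ 2 - 2 * η * y)) ≤ (η ^ 2 - 2 * η * y) / 2 := by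
              nlinarith
            linarith
        have h2 : Real.exp (th * (p * max 0 (η ^ 2 - 2 * η * y)) + (η * y - η ^ 2 / 2))
            ≤ Real.exp (η * |y|) := Real.exp_le_exp.mpr key
        have h3 : Real.exp (η * |y|) ≤ 1 + η * |y| * Real.exp (η * |y|) := by
          have h4 : 1 - η * |y| ≤ Real.exp (-(η * |y|)) := by
            have := Real.add_one_le_exp (-(η * |y|))
            linarith
          have h5 : (1 - η * |y|) * Real.exp (η * |y|) ≤ 1 := by
            calc (1 - η * |y|) * Real.exp (η * |y|)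
                ≤ Real.exp (-(η * |y|)) * Real.exp (η * |y|) :=
                  mul_le_mul_of_nonneg_right h4 (Real.exp_pos _).le
              _ = 1 := by rw [← Real.exp_add]; simp
          linarith
        exact h2.trans h3
    _ = A x ^ th + pw e η x * A x ^ th := by
        rw [ENNReal.ofReal_add zero_le_one (by positivity), ENNReal.ofReal_one, add_mul, one_mul]
        rfl

end Vale.Agent.P262.H837
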