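import Vale.Agent.P262.H837.ThrA

/-!
# P262, block THR (sharp throughput), part B: shadows and pushes in one label direction
-/

set_option linter.all false

open MeasureTheory ProbabilityTheory Set
open scoped ENNReal RealInnerProductSpace Pointwise

namespace Vale.Agent.P262.H837

open Vale.Agent.P262.H395

variable {E : Type*} [NormedAddCommGroup E] [InnerProductSpace ℝ E] [FiniteDimensional ℝ E]
  [MeasurableSpace E] [BorelSpace E]

/-- the shadow of `K` in direction `e`: the half line `x + t e`, `t ≥ 0`, misses `K` -/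
def shd (K : Set E) (e : E) : Set E := {x | ∀ t : ℝ, 0 ≤ t → x + t • e ∉ K}

lemma shd_subset (K : Set E) (e : E) : shd K e ⊆ Kᶜ := fun x hx => by
  have := hx 0 le_rfl
  rwa [zero_smul, add_zero] at this

lemma shd_add {K : Set E} {e x : E} (hx : x ∈ shd K e) {t : ℝ} (ht : 0 ≤ t) :
    x + t • e ∈ shd K e := by
  intro r hr
  rw [add_assoc, ← add_smul]
  exact hx _ (add_nonneg ht hr)

lemma mem_shd_of_leave {K : Set E} (hK : Convex ℝ K) {e x : E} {t : ℝ} (ht : 0 ≤ t)
    (hx : x ∈ K) (hxt : x + t • e ∉ K) : x + t • e ∈ shd K e := by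
  intro r hr hc
  apply hxt
  rcases eq_or_lt_of_le (add_nonneg ht hr) with h0 | h0
  · have h1 : t = 0 := by linarith
    rw [h1, zero_smul, add_zero]; exact hx
  · have key : x + t • e = (r / (t + r)) • x + (t / (t + r)) • (x + t • e + r • e) := by
      rw [add_assoc x, ← add_smul, smul_add, ← add_assoc, ← add_smul, smul_smul]
      have e1 : r / (t + r) + t / (t + r) = 1 := by
        rw [← add_div, div_eq_one_iff_eq h0.ne']; ring
      have e2 : t / (t + r) * (t + r) = t := by
        field_simp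
      rw [e1, e2, one_smul]
    rw [key]
    exact hK hx hc (by positivity) (by positivity) (by
      rw [← add_div, div_eq_one_iff_eq h0.ne']; ring)

lemma measurableSet_shd {K : Set E} (hK : IsCompact K) (e : E) : MeasurableSet (shd K e) := by
  have h1 : (shd K e)ᶜ = K + (fun t : ℝ => (-t) • e) '' Ici (0 : ℝ) := by
    ext x
    simp only [shd, mem_compl_iff, mem_setOf_eq, not_forall, not_not, Set.mem_add, mem_image,
      mem_Ici]
    constructor
    · rintro ⟨t, ht, hx⟩
      refine ⟨x + t • e, hx, (-t) • e, ⟨t, ht, rfl⟩, ?_⟩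
      rw [neg_smul]; abel
    · rintro ⟨y, hy, z, ⟨t, ht, rfl⟩, rfl⟩
      refine ⟨t, ht, ?_⟩
      rw [neg_smul, add_assoc, neg_add_cancel, add_zero]
      exact hy
  have h2 : IsClosed ((fun t : ℝ => (-t) • e) '' Ici (0 : ℝ)) := by
    by_cases he : e = 0
    · have : ((fun t : ℝ => (-t) • e) '' Ici (0 : ℝ)) = {0} := by
        ext z
        simp only [mem_image, mem_Ici, he, smul_zero, mem_singleton_iff]
        constructor
        · rintro ⟨t, _, h⟩; exact h.symm
        · rintro rfl; exact ⟨0, le_rfl, rfl⟩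
      rw [this]; exact isClosed_singleton
    · have h3 : Topology.IsClosedEmbedding fun t : ℝ => t • (-e) :=
        isClosedEmbedding_smul_left (neg_ne_zero.mpr he)
      have h4 : (fun t : ℝ => (-t) • e) = fun t : ℝ => t • (-e) := by
        funext t; rw [smul_neg, neg_smul]
      rw [h4]
      exact h3.isClosedMap _ isClosed_Ici
  have h3 : IsClosed ((shd K e)ᶜ) := by
    rw [h1]
    exact h2.add_left_of_isCompact hK
  have h4 := h3.measurableSet.compl
  rwa [compl_compl] at h4

/-- `x` leaves `K` within `min (n x) m` steps of size `η` in direction `e` -/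
def Uset (K : Set E) (e : E) (η : ℝ) (n : E → ℕ) (m : ℕ) : Set E :=
  {x | ∃ j : ℕ, j ≤ m ∧ j ≤ n x ∧ x + ((j : ℝ) * η) • e ∉ K}

/-- after `m < n x` steps `x` is in the shadow -/
def Tset (K : Set E) (e : E) (η : ℝ) (n : E → ℕ) (m : ℕ) : Set E :=
  {x | m < n x ∧ x + ((m : ℝ) * η) • e ∈ shd K e}

lemma Uset_zero (K : Set E) (e : E) (η : ℝ) (n : E → ℕ) : Uset K e η n 0 = Kᶜ := by
  ext x
  constructor
  · rintro ⟨j, hj, _, hx⟩
    have : j = 0 := Nat.le_zero.mp hj
    subst this
    simpa using hx
  · intro hx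
    exact ⟨0, le_rfl, Nat.zero_le _, by simpa using hx⟩

lemma Uset_mono (K : Set E) (e : E) (η : ℝ) (n : E → ℕ) {m m' : ℕ} (h : m ≤ m') :
    Uset K e η n m ⊆ Uset K e η n m' := fun x ⟨j, hj, hn, hx⟩ => ⟨j, hj.trans h, hn, hx⟩

lemma measurableSet_Uset {K : Set E} (hK : MeasurableSet K) (e : E) (η : ℝ) {n : E → ℕ}
    (hn : Measurable n) (m : ℕ) : MeasurableSet (Uset K e η n m) := by
  have : Uset K e η n m = ⋃ j : ℕ, ({x | j ≤ m} ∩ ({x | j ≤ n x} ∩
      {x | x + ((j : ℝ) * η) • e ∉ K})) := by
    ext x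
    simp only [Uset, mem_setOf_eq, mem_iUnion, mem_inter_iff]
  rw [this]
  refine MeasurableSet.iUnion fun j => (MeasurableSet.const _).inter ((hn measurableSet_Ici).inter ?_)
  exact (measurable_id.add_const _) hK.compl

lemma measurableSet_Tset {K : Set E} (hK : IsCompact K) (e : E) (η : ℝ) {n : E → ℕ}
    (hn : Measurable n) (m : ℕ) : MeasurableSet (Tset K e η n m) := by
  refine (hn measurableSet_Ioi).inter ?_
  exact (measurable_id.add_const _) (measurableSet_shd hK e)

lemma Tset_subset (K : Set E) (e : E) {η : ℝ} (hη : 0 ≤ η) (n : E → ℕ) {m m' : ℕ} (h : m ≤ m') :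
    Tset K e η n m ⊆ Uset K e η n m' := fun x ⟨hn, hx⟩ => ⟨m, h, hn.le, shd_subset K e hx⟩

/-- the one step inequality for indicators -/
lemma step_ind {K : Set E} (hK : Convex ℝ K) {e : E} {η : ℝ} (hη : 0 ≤ η) {n : E → ℕ}
    (hn : ∀ x, n (x + η • e) = n x) (m : ℕ) (x : E) :
    (Tset K e η n m).indicator (1 : E → ℝ≥0∞) x
      + (Uset K e η n (m + 1) \ Uset K e η n m).indicator 1 x
      ≤ (Tset K e η n m).indicator 1 (x + η • e) := by
  by_cases h1 : x ∈ Tset K e η n m
  · have h2 : x ∉ Uset K e η n (m + 1) \ Uset K e η n m := fun h =>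
      h.2 (Tset_subset K e hη n le_rfl h1)
    have h3 : x + η • e ∈ Tset K e η n m := by
      refine ⟨by rw [hn]; exact h1.1, ?_⟩
      rw [add_right_comm]
      exact shd_add h1.2 hη
    rw [indicator_of_mem h1, indicator_of_notMem h2, indicator_of_mem h3, add_zero]
    simp
  · rw [indicator_of_notMem h1, zero_add]
    by_cases h2 : x ∈ Uset K e η n (m + 1) \ Uset K e η n m
    · obtain ⟨⟨j, hj, hjn, hx⟩, hnot⟩ := h2
      have hj' : j = m + 1 := by
        by_contra hc
        exact hnot ⟨j, by omega, hjn, hx⟩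
      subst hj'
      have hin : x + ((m : ℝ) * η) • e ∈ K := by
        by_contra hc
        exact hnot ⟨m, le_rfl, by omega, hc⟩
      have e1 : x + (((m + 1 : ℕ) : ℝ) * η) • e = x + ((m : ℝ) * η) • e + η • e := by
        rw [add_assoc, ← add_smul]
        congr 2
        push_cast
        ring
      have h3 : x + η • e ∈ Tset K e η n m := by
        refine ⟨by rw [hn]; omega, ?_⟩
        rw [add_right_comm]
        apply mem_shd_of_leave hK hη hin
        rw [← e1]; exact hx
      rw [indicator_of_mem h3]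
      refine (indicator_le_self' (fun _ _ => zero_le) x).trans ?_
      simp
    · rw [indicator_of_notMem h2]
      exact zero_le

/-- mass of the points leaving within `m` steps -/
noncomputable def Dm (W : Submodule ℝ E) (K : Set E) (e : E) (η : ℝ) (n : E → ℕ) (m : ℕ) :
    E → ℝ≥0∞ := fib W ((Uset K e η n m).indicator 1)

/-- mass of the shadow after `m` steps -/
noncomputable def Nm (W : Submodule ℝ E) (K : Set E) (e : E) (η : ℝ) (n : E → ℕ) (m : ℕ) :
    E → ℝ≥0∞ := fib W ((Tset K e η n m).indicator 1)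

lemma Dm_le_one (W : Submodule ℝ E) (K : Set E) (e : E) (η : ℝ) (n : E → ℕ) (m : ℕ) (x : E) :
    Dm W K e η n m x ≤ 1 := fib_le_one (fun y => by
      by_cases h : y ∈ Uset K e η n m
      · rw [indicator_of_mem h]; simp
      · rw [indicator_of_notMem h]; exact zero_le) x

lemma Nm_le_Dm (W : Submodule ℝ E) (K : Set E) (e : E) {η : ℝ} (hη : 0 ≤ η) (n : E → ℕ)
    {m m' : ℕ} (h : m ≤ m') (x : E) : Nm W K e η n m x ≤ Dm W K e η n m' x := by
  apply fib_mono
  intro y
  exact indicator_le_indicator_of_subset (Tset_subset K e hη n h) (fun _ => zero_le) y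

lemma Nm_le (W : Submodule ℝ E) (K : Set E) (e : E) (η : ℝ) (n : E → ℕ) (m : ℕ) (x : E) :
    Nm W K e η n m x ≤ fib W ({y | m < n y}.indicator 1) x := by
  apply fib_mono
  intro y
  exact indicator_le_indicator_of_subset (fun z hz => hz.1) (fun _ => zero_le) y

/-- the one step inequality for the powers of the masses -/
lemma step_pow {W : Submodule ℝ E} {K : Set E} (hKc : IsCompact K) (hK : Convex ℝ K) {e : E}
    (he : e ∈ W) {η : ℝ} (hη : 0 ≤ η) {n : E → ℕ} (hnm : Measurable n)
    (hn : ∀ x, n (x + η • e) = n x) {s : ℝ} (h0 : 0 ≤ s) (h1 : s ≤ 1) (m : ℕ) (x : E) :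
    Dm W K e η n (m + 1) x ^ s + Nm W K e η n m x ^ s
      ≤ Dm W K e η n m x ^ s + Nm W K e η n m (x + η • e) ^ s := by
  have hU : ∀ m, MeasurableSet (Uset K e η n m) := fun m =>
    measurableSet_Uset hKc.measurableSet e η hnm m
  have hT := measurableSet_Tset hKc e η hnm m
  set Δ : Set E := Uset K e η n (m + 1) \ Uset K e η n m with hΔ
  have hΔm : MeasurableSet Δ := (hU _).diff (hU _)
  have e1 : Dm W K e η n (m + 1) x = Dm W K e η n m x + fib W (Δ.indicator 1) x := by
    unfold Dm
    rw [← fib_add (measurable_one.indicator (hU m))]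
    congr 1
    funext y
    by_cases hy : y ∈ Uset K e η n m
    · have hy' := Uset_mono K e η n (Nat.le_succ m) hy
      have hy2 : y ∉ Δ := fun h => h.2 hy
      rw [indicator_of_mem hy, indicator_of_mem hy', indicator_of_notMem hy2, add_zero]
    · by_cases hy' : y ∈ Uset K e η n (m + 1)
      · have hy2 : y ∈ Δ := ⟨hy', hy⟩
        rw [indicator_of_notMem hy, indicator_of_mem hy', indicator_of_mem hy2, zero_add]
      · have hy2 : y ∉ Δ := fun h => hy' h.1
        rw [indicator_of_notMem hy, indicator_of_notMem hy', indicator_of_notMem hy2, zero_add]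
  have e2 : Nm W K e η n m x + fib W (Δ.indicator 1) x ≤ Nm W K e η n m (x + η • e) := by
    unfold Nm
    rw [fib_add_label _ (W.smul_mem η he), ← fib_add (measurable_one.indicator hT)]
    apply fib_mono
    intro y
    exact step_ind hK hη hn m y
  have hΔ1 : fib W (Δ.indicator 1) x ≠ ⊤ := by
    have : fib W (Δ.indicator 1) x ≤ 1 := fib_le_one (fun y => by
      by_cases h : y ∈ Δ
      · rw [indicator_of_mem h]; simp
      · rw [indicator_of_notMem h]; exact zero_le) x
    exact ne_top_of_le_ne_top ENNReal.one_ne_top this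
  have hD : Dm W K e η n m x ≠ ⊤ :=
    ne_top_of_le_ne_top ENNReal.one_ne_top (Dm_le_one W K e η n m x)
  rw [e1]
  refine (four_pt h0 h1 (Nm_le_Dm W K e hη n le_rfl x) hD hΔ1).trans ?_
  exact add_le_add_right (ENNReal.rpow_le_rpow e2 h0) _

end Vale.Agent.P262.H837
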