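import Vale.Agent.P262.H837.ThrH

/-!
# P262, block THR (sharp throughput), part I: two bodies, the quotient form, the functional Psi
-/

set_option linter.all false

open MeasureTheory ProbabilityTheory Set
open scoped ENNReal RealInnerProductSpace Pointwise

namespace Vale.Agent.P262.H837

open Vale.Agent.P262.H395 Vale.Agent.P262.H118

/-- the quotient form of an increment of the power `s` -/
lemma quot_le {th s : ℝ} (hth : 0 < th) (hs : 0 < s) (hsum : th + s = 1) {D D' : ℝ≥0∞}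
    (h : D ≤ D') (hD' : D' ≠ ⊤) :
    (D' - D) * (D' ^ th)⁻¹ ≤ ENNReal.ofReal (1 / s) * (D' ^ s - D ^ s) := by
  have hD : D ≠ ⊤ := ne_top_of_le_ne_top hD' h
  rcases eq_or_ne D' 0 with h0 | h0
  · have h1 : D = 0 := le_antisymm (h.trans h0.le) zero_le
    rw [h0, h1]
    simp
  lift D to NNReal using hD
  lift D' to NNReal using hD'
  have h0' : D' ≠ 0 := by
    intro hc
    apply h0
    rw [hc]; rfl
  have hle : (D : ℝ) ≤ D' := by exact_mod_cast h
  have hpos : (0 : ℝ) < D' := by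
    have : (0 : NNReal) < D' := pos_iff_ne_zero.mpr h0'
    exact_mod_cast this
  have hdn : (0 : ℝ) ≤ D := D.2
  -- the real inequality
  have key : ((D' : ℝ) - D) * ((D' : ℝ) ^ th)⁻¹ ≤ 1 / s * ((D' : ℝ) ^ s - (D : ℝ) ^ s) := by
    set r : ℝ := (D : ℝ) / D' with hr
    have hr0 : 0 ≤ r := div_nonneg hdn hpos.le
    have hr1 : r ≤ 1 := (div_le_one hpos).2 hle
    have e1 : (D : ℝ) = r * D' := by
      rw [hr]; field_simp
    have e2 : ((D' : ℝ) ^ th)⁻¹ = (D' : ℝ) ^ s / D' := by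
      have : (D' : ℝ) ^ th * (D' : ℝ) ^ s = D' := by
        rw [← Real.rpow_add hpos, hsum, Real.rpow_one]
      have hp1 : (0 : ℝ) < (D' : ℝ) ^ th := Real.rpow_pos_of_pos hpos _
      field_simp
      linarith
    have hb := _root_.rpow_one_add_le_one_add_mul_self (s := r - 1) (by linarith) hs.le
      (by linarith : s ≤ 1)
    have e3 : 1 + (r - 1) = r := by ring
    rw [e3] at hb
    have hps : (0 : ℝ) < (D' : ℝ) ^ s := Real.rpow_pos_of_pos hpos _
    have e4 : (D : ℝ) ^ s = r ^ s * (D' : ℝ) ^ s := by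
      rw [e1, Real.mul_rpow hr0 hpos.le]
    rw [e4, e2, e1]
    have e5 : ((D' : ℝ) - r * D') * ((D' : ℝ) ^ s / D') = (1 - r) * (D' : ℝ) ^ s := by
      field_simp
    have e6 : 1 / s * ((D' : ℝ) ^ s - r ^ s * (D' : ℝ) ^ s)
        = (1 / s * (1 - r ^ s)) * (D' : ℝ) ^ s := by ring
    rw [e5, e6]
    apply mul_le_mul_of_nonneg_right _ hps.le
    have h3 : s * (1 - r) ≤ 1 - r ^ s := by linarith
    calc 1 - r = 1 / s * (s * (1 - r)) := by field_simp
      _ ≤ 1 / s * (1 - r ^ s) := mul_le_mul_of_nonneg_left h3 (by positivity)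
  have c1 : ((D' : ℝ≥0∞) - D) = ENNReal.ofReal ((D' : ℝ) - D) := by
    rw [ENNReal.ofReal_sub _ hdn, ENNReal.ofReal_coe_nnreal, ENNReal.ofReal_coe_nnreal]
  have c2 : (((D' : ℝ≥0∞)) ^ th)⁻¹ = ENNReal.ofReal (((D' : ℝ) ^ th)⁻¹) := by
    rw [ENNReal.ofReal_inv_of_pos (Real.rpow_pos_of_pos hpos _),
      ← ENNReal.ofReal_rpow_of_nonneg hpos.le hth.le, ENNReal.ofReal_coe_nnreal]
  have c3 : ((D' : ℝ≥0∞)) ^ s - (D : ℝ≥0∞) ^ s
      = ENNReal.ofReal ((D' : ℝ) ^ s - (D : ℝ) ^ s) := by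
    rw [ENNReal.ofReal_sub _ (Real.rpow_nonneg hdn _), ← ENNReal.ofReal_rpow_of_nonneg hpos.le hs.le,
      ← ENNReal.ofReal_rpow_of_nonneg hdn hs.le, ENNReal.ofReal_coe_nnreal,
      ENNReal.ofReal_coe_nnreal]
  rw [c1, c2, c3, ← ENNReal.ofReal_mul (by linarith), ← ENNReal.ofReal_mul (by positivity)]
  exact ENNReal.ofReal_le_ofReal key

/-! ### the functional `Psi` -/

lemma pdf_shift' {m : ℕ} {x : ℝ} (hx : (m : ℝ) ≤ x) :
    gaussianPDF 0 1 (x + 1) ≤ ENNReal.ofReal (Real.exp (-((m : ℝ) + 1 / 2))) *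
      gaussianPDF 0 1 x := by
  unfold gaussianPDF
  rw [← ENNReal.ofReal_mul (Real.exp_pos _).le]
  apply ENNReal.ofReal_le_ofReal
  unfold gaussianPDFReal
  have h1 : Real.exp (-(x + 1 - 0) ^ 2 / (2 * ((1 : NNReal) : ℝ)))
      ≤ Real.exp (-((m : ℝ) + 1 / 2)) * Real.exp (-(x - 0) ^ 2 / (2 * ((1 : NNReal) : ℝ))) := by
    rw [← Real.exp_add]
    apply Real.exp_le_exp.mpr
    push_cast
    nlinarith
  calc (Real.sqrt (2 * Real.pi * ((1 : NNReal) : ℝ)))⁻¹
        * Real.exp (-(x + 1 - 0) ^ 2 / (2 * ((1 : NNReal) : ℝ)))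
      ≤ (Real.sqrt (2 * Real.pi * ((1 : NNReal) : ℝ)))⁻¹
        * (Real.exp (-((m : ℝ) + 1 / 2)) * Real.exp (-(x - 0) ^ 2 / (2 * ((1 : NNReal) : ℝ)))) :=
        mul_le_mul_of_nonneg_left h1 (by positivity)
    _ = _ := by ring

lemma tail_right' (m : ℕ) : gaussianReal 0 1 (Ioi ((m : ℝ) + 1))
    ≤ ENNReal.ofReal (Real.exp (-((m : ℝ) + 1 / 2))) * gaussianReal 0 1 (Ioi (m : ℝ)) := by
  rw [gaussianReal_apply 0 one_ne_zero, gaussianReal_apply 0 one_ne_zero,
    ← lintegral_indicator measurableSet_Ioi, ← lintegral_indicator measurableSet_Ioi,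
    ← lintegral_const_mul _ ((measurable_gaussianPDF 0 1).indicator measurableSet_Ioi),
    ← lintegral_add_right_eq_self _ (1 : ℝ)]
  apply lintegral_mono
  intro x
  by_cases h : (m : ℝ) < x
  · have h1 : x + 1 ∈ Ioi ((m : ℝ) + 1) := by
      show (m : ℝ) + 1 < x + 1
      linarith
    simp only [indicator_of_mem h1, indicator_of_mem (show x ∈ Ioi (m : ℝ) from h)]
    exact pdf_shift' h.le
  · have h1 : x + 1 ∉ Ioi ((m : ℝ) + 1) := by
      intro h2
      have : (m : ℝ) + 1 < x + 1 := h2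
      exact h (by linarith)
    simp only [indicator_of_notMem h1]
    exact zero_le

lemma tail_left' (m : ℕ) : gaussianReal 0 1 (Iio (-((m : ℝ) + 1)))
    ≤ ENNReal.ofReal (Real.exp (-((m : ℝ) + 1 / 2))) * gaussianReal 0 1 (Iio (-(m : ℝ))) := by
  rw [gaussianReal_apply 0 one_ne_zero, gaussianReal_apply 0 one_ne_zero,
    ← lintegral_indicator measurableSet_Iio, ← lintegral_indicator measurableSet_Iio,
    ← lintegral_const_mul _ ((measurable_gaussianPDF 0 1).indicator measurableSet_Iio),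
    ← lintegral_add_right_eq_self _ (-1 : ℝ)]
  apply lintegral_mono
  intro x
  by_cases h : x < -(m : ℝ)
  · have h1 : x + -1 ∈ Iio (-((m : ℝ) + 1)) := by
      show x + -1 < -((m : ℝ) + 1)
      linarith
    simp only [indicator_of_mem h1, indicator_of_mem (show x ∈ Iio (-(m : ℝ)) from h)]
    have h2 : x + -1 = -(-x + 1) := by ring
    rw [h2, pdf_neg]
    refine (pdf_shift' (m := m) (x := -x) ?_).trans ?_
    · linarith
    · rw [pdf_neg]
  · have h1 : x + -1 ∉ Iio (-((m : ℝ) + 1)) := by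
      intro h2
      have : x + -1 < -((m : ℝ) + 1) := h2
      exact h (by linarith)
    simp only [indicator_of_notMem h1]
    exact zero_le

lemma pg_succ' (m : ℕ) : pg (m + 1) ≤ ENNReal.ofReal (Real.exp (-((m : ℝ) + 1 / 2))) * pg m := by
  rw [pg_eq, pg_eq, mul_add]
  have e : ((m + 1 : ℕ) : ℝ) = (m : ℝ) + 1 := by push_cast; ring
  rw [e]
  exact add_le_add (tail_right' m) (tail_left' m)

/-- Gaussian tails at the integers -/
lemma pg_le_exp (m : ℕ) : pg m ≤ ENNReal.ofReal (Real.exp (-((m : ℝ) ^ 2 / 2))) := by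
  induction m with
  | zero => simp [pg_zero]
  | succ m ih =>
    refine (pg_succ' m).trans ((mul_le_mul_right ih _).trans ?_)
    rw [← ENNReal.ofReal_mul (Real.exp_pos _).le, ← Real.exp_add]
    apply ENNReal.ofReal_le_ofReal
    apply Real.exp_le_exp.mpr
    push_cast
    nlinarith

/-- increments of `y^(2s) (1 - log y)` -/
lemma pow_log_mono {s : ℝ} (hs : 0 < s) {y Y : ℝ} (hy : 0 < y) (hyY : y ≤ Y) (hY : Y ≤ 1) :
    y ^ s * Real.sqrt (1 - Real.log y)
      ≤ Real.sqrt (max 1 (1 / (2 * s))) * (Y ^ s * Real.sqrt (1 - Real.log Y)) := by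
  have hY0 : 0 < Y := hy.trans_le hyY
  set r := y / Y with hr
  have hr0 : 0 < r := div_pos hy hY0
  have hr1 : r ≤ 1 := (div_le_one hY0).2 hyY
  have e1 : y = r * Y := by rw [hr]; field_simp
  have hlr : Real.log r ≤ 0 := Real.log_nonpos hr0.le hr1
  have hlY : Real.log Y ≤ 0 := Real.log_nonpos hY0.le hY
  have e2 : Real.log y = Real.log r + Real.log Y := by
    rw [e1, Real.log_mul hr0.ne' hY0.ne']
  set c := max 1 (1 / (2 * s)) with hc
  have hc1 : 1 ≤ c := le_max_left _ _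
  have hc2 : 1 / (2 * s) ≤ c := le_max_right _ _
  -- r^(2s) (1 - log r) ≤ c
  have h1 : r ^ (2 * s) * (1 - Real.log r) ≤ c := by
    have hrp : 0 < r ^ (2 * s) := Real.rpow_pos_of_pos hr0 _
    have hrp1 : r ^ (2 * s) ≤ 1 := Real.rpow_le_one hr0.le hr1 (by positivity)
    have h2 : -(2 * s * Real.log r) ≤ (r ^ (2 * s))⁻¹ - 1 := by
      have h3 := Real.add_one_le_exp (-(2 * s * Real.log r))
      have h4 : Real.exp (-(2 * s * Real.log r)) = (r ^ (2 * s))⁻¹ := by
        rw [Real.exp_neg, Real.rpow_def_of_pos hr0, mul_comm (Real.log r)]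
      rw [h4] at h3
      linarith
    have h5 : -(Real.log r) ≤ 1 / (2 * s) * ((r ^ (2 * s))⁻¹ - 1) := by
      have : -(Real.log r) = 1 / (2 * s) * (-(2 * s * Real.log r)) := by
        field_simp
      rw [this]
      exact mul_le_mul_of_nonneg_left h2 (by positivity)
    have h6 : r ^ (2 * s) * (1 - Real.log r)
        ≤ r ^ (2 * s) * (1 + 1 / (2 * s) * ((r ^ (2 * s))⁻¹ - 1)) :=
      mul_le_mul_of_nonneg_left (by linarith) hrp.le
    have h7 : r ^ (2 * s) * (1 + 1 / (2 * s) * ((r ^ (2 * s))⁻¹ - 1))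
        = r ^ (2 * s) + 1 / (2 * s) * (1 - r ^ (2 * s)) := by
      field_simp
    rw [h7] at h6
    refine h6.trans ?_
    have h8 : 1 / (2 * s) * (1 - r ^ (2 * s)) ≤ c * (1 - r ^ (2 * s)) :=
      mul_le_mul_of_nonneg_right hc2 (by linarith)
    nlinarith
  have h3 : 1 - Real.log y ≤ (1 - Real.log r) * (1 - Real.log Y) := by
    rw [e2]
    nlinarith [mul_nonneg_of_nonpos_of_nonpos hlr hlY]
  have h4 : y ^ s * Real.sqrt (1 - Real.log y)
      ≤ Y ^ s * (r ^ s * Real.sqrt (1 - Real.log r)) * Real.sqrt (1 - Real.log Y) := by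
    calc y ^ s * Real.sqrt (1 - Real.log y)
        ≤ y ^ s * Real.sqrt ((1 - Real.log r) * (1 - Real.log Y)) :=
          mul_le_mul_of_nonneg_left (Real.sqrt_le_sqrt h3) (Real.rpow_nonneg hy.le _)
      _ = _ := by
          rw [Real.sqrt_mul (by linarith), e1, Real.mul_rpow hr0.le hY0.le]
          ring
  have h5 : r ^ s * Real.sqrt (1 - Real.log r) ≤ Real.sqrt c := by
    apply Real.le_sqrt_of_sq_le
    rw [mul_pow, Real.sq_sqrt (by linarith), ← Real.rpow_natCast, ← Real.rpow_mul hr0.le]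
    have : s * ((2 : ℕ) : ℝ) = 2 * s := by push_cast; ring
    rw [this]
    exact h1
  calc y ^ s * Real.sqrt (1 - Real.log y)
      ≤ Y ^ s * (r ^ s * Real.sqrt (1 - Real.log r)) * Real.sqrt (1 - Real.log Y) := h4
    _ ≤ Y ^ s * Real.sqrt c * Real.sqrt (1 - Real.log Y) := by
        apply mul_le_mul_of_nonneg_right _ (Real.sqrt_nonneg _)
        exact mul_le_mul_of_nonneg_left h5 (Real.rpow_nonneg hY0.le _)
    _ = _ := by ring

/-- the layer sum at one mass -/
lemma Psi_le_self {s : ℝ} (hs : 0 < s) (hs1 : s ≤ 1) {D : ℝ} (hD : 0 < D) (hD1 : D ≤ 1) :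
    Psi s (2 * ENNReal.ofReal D)
      ≤ ENNReal.ofReal ((7 + 2 / s) * (D ^ s * Real.sqrt (1 - Real.log D))) := by
  have hlog : Real.log D ≤ 0 := Real.log_nonpos hD.le hD1
  set L : ℝ := Real.sqrt (1 - Real.log D) with hL
  have hL1 : 1 ≤ L := by
    rw [hL]
    apply Real.le_sqrt_of_sq_le
    linarith
  have hL2 : L ^ 2 = 1 - Real.log D := by
    rw [hL]; exact Real.sq_sqrt (by linarith)
  set N : ℕ := ⌈2 * L⌉₊ with hN
  have hN1 : 2 * L ≤ N := Nat.le_ceil _
  have hN2 : (N : ℝ) ≤ 3 * L := by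
    have := (Nat.ceil_lt_add_one (by linarith : 0 ≤ 2 * L)).le
    linarith
  have hDs : (0 : ℝ) < D ^ s := Real.rpow_pos_of_pos hD _
  unfold Psi
  rw [← ENNReal.summable.sum_add_tsum_nat_add' (k := N)]
  have e2D : (2 : ℝ≥0∞) * ENNReal.ofReal D = ENNReal.ofReal (2 * D) := by
    rw [ENNReal.ofReal_mul (by norm_num)]
    norm_num
  have h1 : ∑ i ∈ Finset.range N, min (2 * ENNReal.ofReal D) (pg i) ^ s
      ≤ ENNReal.ofReal (3 * L * (2 * D ^ s)) := by
    calc ∑ i ∈ Finset.range N, min (2 * ENNReal.ofReal D) (pg i) ^ s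
        ≤ ∑ i ∈ Finset.range N, ENNReal.ofReal (2 * D ^ s) := by
          refine Finset.sum_le_sum fun i _ => ?_
          refine (ENNReal.rpow_le_rpow (min_le_left _ _) hs.le).trans ?_
          rw [e2D, ENNReal.ofReal_rpow_of_nonneg (by linarith) hs.le]
          apply ENNReal.ofReal_le_ofReal
          rw [Real.mul_rpow (by norm_num) hD.le]
          apply mul_le_mul_of_nonneg_right _ hDs.le
          calc (2 : ℝ) ^ s ≤ 2 ^ (1 : ℝ) := Real.rpow_le_rpow_of_exponent_le (by norm_num) hs1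
            _ = 2 := Real.rpow_one 2
      _ = ENNReal.ofReal (N * (2 * D ^ s)) := by
          rw [Finset.sum_const, Finset.card_range, nsmul_eq_mul,
            ENNReal.ofReal_mul (Nat.cast_nonneg N), ENNReal.ofReal_natCast]
      _ ≤ _ := by
          apply ENNReal.ofReal_le_ofReal
          exact mul_le_mul_of_nonneg_right hN2 (by positivity)
  -- the tail
  set q : ℝ := Real.exp (-(s / 2)) with hq
  have hq0 : 0 < q := Real.exp_pos _
  have hq1 : q < 1 := by
    rw [hq, Real.exp_lt_one_iff]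
    linarith
  have h2 : ∑' i : ℕ, min (2 * ENNReal.ofReal D) (pg (i + N)) ^ s
      ≤ ENNReal.ofReal (D ^ s * (1 - q)⁻¹) := by
    calc ∑' i : ℕ, min (2 * ENNReal.ofReal D) (pg (i + N)) ^ s
        ≤ ∑' i : ℕ, ENNReal.ofReal (D ^ s) * ENNReal.ofReal q ^ i := by
          refine ENNReal.tsum_le_tsum fun i => ?_
          refine (ENNReal.rpow_le_rpow ((min_le_right _ _).trans (pg_le_exp (i + N))) hs.le).trans ?_
          rw [ENNReal.ofReal_rpow_of_nonneg (Real.exp_pos _).le hs.le, ← ENNReal.ofReal_pow hq0.le,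
            ← ENNReal.ofReal_mul hDs.le]
          apply ENNReal.ofReal_le_ofReal
          rw [← Real.exp_mul, hq, ← Real.exp_nat_mul, Real.rpow_def_of_pos hD, ← Real.exp_add]
          apply Real.exp_le_exp.mpr
          push_cast
          have hi : (0 : ℝ) ≤ i := Nat.cast_nonneg i
          have hii : (i : ℝ) ≤ (i : ℝ) ^ 2 := by
            rcases Nat.eq_zero_or_pos i with h0 | h0
            · rw [h0]; norm_num
            · have : (1 : ℝ) ≤ i := by exact_mod_cast h0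
              nlinarith
          have hN0 : (0 : ℝ) ≤ N := Nat.cast_nonneg N
          have hNN : 4 * (1 - Real.log D) ≤ (N : ℝ) ^ 2 := by
            rw [← hL2]
            nlinarith
          have h5 : (i : ℝ) + 2 * (1 - Real.log D) * 2 ≤ ((i : ℝ) + N) ^ 2 := by
            nlinarith [mul_nonneg hi hN0]
          have h6 : -(((i : ℝ) + N) ^ 2 / 2) ≤ Real.log D - i / 2 := by
            nlinarith
          calc -(((i : ℝ) + N) ^ 2 / 2) * s ≤ (Real.log D - i / 2) * s :=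
                mul_le_mul_of_nonneg_right h6 hs.le
            _ = Real.log D * s + i * -(s / 2) := by ring
      _ = ENNReal.ofReal (D ^ s) * (1 - ENNReal.ofReal q)⁻¹ := by
          rw [ENNReal.tsum_mul_left, ENNReal.tsum_geometric]
      _ = _ := by
          rw [← ENNReal.ofReal_one, ← ENNReal.ofReal_sub _ hq0.le,
            ← ENNReal.ofReal_inv_of_pos (by linarith), ← ENNReal.ofReal_mul hDs.le]
  refine (add_le_add h1 h2).trans ?_
  have hq2 : (1 - q)⁻¹ ≤ 1 + 2 / s := by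
    have h3 : 1 + s / 2 ≤ Real.exp (s / 2) := by
      have := Real.add_one_le_exp (s / 2)
      linarith
    have h4 : q * Real.exp (s / 2) = 1 := by
      rw [hq, ← Real.exp_add]
      simp
    have h5 : q * (1 + s / 2) ≤ 1 := by
      calc q * (1 + s / 2) ≤ q * Real.exp (s / 2) := mul_le_mul_of_nonneg_left h3 hq0.le
        _ = 1 := h4
    have h6 : 1 ≤ (1 + 2 / s) * (1 - q) := by
      have e : (1 + 2 / s) * (1 - q) = (1 + s / 2) * (1 - q) * (2 / s) := by
        field_simp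
        ring
      rw [e]
      have h7 : s / 2 ≤ (1 + s / 2) * (1 - q) := by nlinarith
      calc (1 : ℝ) = s / 2 * (2 / s) := by field_simp
        _ ≤ _ := mul_le_mul_of_nonneg_right h7 (by positivity)
    rw [inv_le_comm₀ (by linarith) (by positivity), inv_le_comm₀ (by positivity) (by linarith)]
    rw [inv_eq_one_div, div_le_iff₀ (by linarith)]
    exact h6
  rw [← ENNReal.ofReal_add (by positivity) (by
    apply mul_nonneg hDs.le
    exact inv_nonneg.mpr (by linarith))]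
  apply ENNReal.ofReal_le_ofReal
  have h8 : D ^ s * (1 - q)⁻¹ ≤ (1 + 2 / s) * (D ^ s * L) := by
    have h9 : D ^ s * (1 - q)⁻¹ ≤ D ^ s * (1 + 2 / s) := mul_le_mul_of_nonneg_left hq2 hDs.le
    have h10 : D ^ s ≤ D ^ s * L := by nlinarith
    have h11 : 0 ≤ 1 + 2 / s := by positivity
    calc D ^ s * (1 - q)⁻¹ ≤ (1 + 2 / s) * D ^ s := by linarith
      _ ≤ _ := mul_le_mul_of_nonneg_left h10 h11
  nlinarith

/-- **the layer sum**: `Psi s (2 D) ≤ C Y^s sqrt (1 - log Y)` for `D ≤ Y ≤ 1` -/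
theorem Psi_le {s : ℝ} (hs : 0 < s) (hs1 : s ≤ 1) {D Y : ℝ≥0∞} (hDY : D ≤ Y) (hY : Y ≤ 1) :
    Psi s (2 * D) ≤ ENNReal.ofReal ((7 + 2 / s) * Real.sqrt (max 1 (1 / (2 * s))))
      * (Y ^ s * ENNReal.ofReal (Real.sqrt (1 - Real.log Y.toReal))) := by
  rcases eq_or_ne D 0 with h0 | h0
  · have : Psi s (2 * D) = 0 := by
      unfold Psi
      rw [ENNReal.tsum_eq_zero]
      intro m
      rw [h0, mul_zero, min_eq_left zero_le, ENNReal.zero_rpow_of_pos hs]
    rw [this]
    exact zero_le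
  have hDt : D ≠ ⊤ := ne_top_of_le_ne_top ENNReal.one_ne_top (hDY.trans hY)
  have hYt : Y ≠ ⊤ := ne_top_of_le_ne_top ENNReal.one_ne_top hY
  have hD0 : 0 < D.toReal := ENNReal.toReal_pos h0 hDt
  have hDY' : D.toReal ≤ Y.toReal := ENNReal.toReal_mono hYt hDY
  have hY1 : Y.toReal ≤ 1 := by
    have := ENNReal.toReal_mono ENNReal.one_ne_top hY
    simpa using this
  have h1 := Psi_le_self hs hs1 hD0 (hDY'.trans hY1)
  rw [ENNReal.ofReal_toReal hDt] at h1
  refine h1.trans ?_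
  have h2 := pow_log_mono hs hD0 hDY' hY1
  have e : Y ^ s = ENNReal.ofReal (Y.toReal ^ s) := by
    rw [← ENNReal.ofReal_rpow_of_nonneg ENNReal.toReal_nonneg hs.le, ENNReal.ofReal_toReal hYt]
  rw [e, ← ENNReal.ofReal_mul (Real.rpow_nonneg ENNReal.toReal_nonneg _),
    ← ENNReal.ofReal_mul (by positivity)]
  apply ENNReal.ofReal_le_ofReal
  calc (7 + 2 / s) * (D.toReal ^ s * Real.sqrt (1 - Real.log D.toReal))
      ≤ (7 + 2 / s) * (Real.sqrt (max 1 (1 / (2 * s)))
        * (Y.toReal ^ s * Real.sqrt (1 - Real.log Y.toReal))) :=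
        mul_le_mul_of_nonneg_left h2 (by positivity)
    _ = _ := by ring

end Vale.Agent.P262.H837
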