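import Vale.Agent.P262.H711.Star

/-!
# P262, milestone 2, THR: algebra of the averages `tau` of payoffs
-/

set_option linter.all false

open MeasureTheory ProbabilityTheory Set
open scoped ENNReal RealInnerProductSpace
open Vale.Agent.P262.H395 (fib mix Inv)
open Vale.Agent.P262.H395.Tree (InvN)
open Vale.Agent.P262.H711 (Fam tau measurable_tau)

namespace Vale.Agent.P262.H837

variable {E : Type*} [NormedAddCommGroup E] [InnerProductSpace ℝ E] [FiniteDimensional ℝ E]
  [MeasurableSpace E] [BorelSpace E] {ι : Type*} {F : Fam E ι} {Ok : ι → Prop} {N : ℕ}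

lemma tau_succ_of_leaf {g : ι → E → ℝ≥0∞} {n : ℕ} {r : ι} (h : F.L r) (x : E) :
    tau F g (n + 1) r x = 0 := by simp [tau, h]

lemma tau_succ_of_not {g : ι → E → ℝ≥0∞} {n : ℕ} {r : ι} (h : ¬ F.L r) (x : E) :
    tau F g (n + 1) r x =
      fib (F.W r) (fun y => F.wt (F.kl r x) r y * tau F g n (F.ch (F.kl r x) r) y) x := by
  simp [tau, h]

/-- monotonicity, only the reached nodes matter -/
theorem tau_mono_of {g g' : ι → E → ℝ≥0∞} {Q : ℕ → ι → Prop}
    (hQ : ∀ k r x, Q (k + 1) r → ¬ F.L r → Q k (F.ch (F.kl r x) r))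
    (h : ∀ r, Q 0 r → ∀ x, g r x ≤ g' r x) :
    ∀ n r, Q n r → ∀ x, tau F g n r x ≤ tau F g' n r x
  | 0, r, hr, x => h r hr x
  | n + 1, r, hr, x => by
    by_cases hL : F.L r
    · rw [tau_succ_of_leaf hL, tau_succ_of_leaf hL]
    · rw [tau_succ_of_not hL, tau_succ_of_not hL]
      apply H395.fib_mono
      intro y
      exact mul_le_mul_right (tau_mono_of hQ h n _ (hQ n r x hr hL) y) _

theorem tau_mono {g g' : ι → E → ℝ≥0∞} (h : ∀ r x, g r x ≤ g' r x) (n : ℕ) (r : ι) (x : E) :
    tau F g n r x ≤ tau F g' n r x :=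
  tau_mono_of (Q := fun _ _ => True) (fun _ _ _ _ _ => trivial) (fun r _ => h r) n r trivial x

theorem tau_add (hF : F.Str Ok N) {g g' : ι → E → ℝ≥0∞} (hg : ∀ r, Measurable (g r)) :
    ∀ n r x, tau F (fun r x => g r x + g' r x) n r x = tau F g n r x + tau F g' n r x
  | 0, r, x => rfl
  | n + 1, r, x => by
    by_cases hL : F.L r
    · rw [tau_succ_of_leaf hL, tau_succ_of_leaf hL, tau_succ_of_leaf hL, add_zero]
    · rw [tau_succ_of_not hL, tau_succ_of_not hL, tau_succ_of_not hL,
        ← H395.fib_add (f := fun y => F.wt (F.kl r x) r y * tau F g n (F.ch (F.kl r x) r) y)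
          ((hF.wt_meas _ _).mul (measurable_tau hF hg _ _))]
      congr 1
      funext y
      rw [tau_add hF hg n, mul_add]

theorem tau_mul (hF : F.Str Ok N) (c : ℝ≥0∞) {g : ι → E → ℝ≥0∞} (hg : ∀ r, Measurable (g r)) :
    ∀ n r x, tau F (fun r x => c * g r x) n r x = c * tau F g n r x
  | 0, r, x => rfl
  | n + 1, r, x => by
    by_cases hL : F.L r
    · rw [tau_succ_of_leaf hL, tau_succ_of_leaf hL, mul_zero]
    · rw [tau_succ_of_not hL, tau_succ_of_not hL,
        ← H395.fib_mul (g := fun _ => c)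
          (f := fun y => F.wt (F.kl r x) r y * tau F g n (F.ch (F.kl r x) r) y)
          (H395.inv_const _ _) ((hF.wt_meas _ _).mul (measurable_tau hF hg _ _))]
      congr 1
      funext y
      rw [tau_mul hF c hg n]
      ring

theorem tau_finset (hF : F.Str Ok N) {κ : Type*} (J : Finset κ) {g : κ → ι → E → ℝ≥0∞}
    (hg : ∀ k r, Measurable (g k r)) (n : ℕ) (r : ι) (x : E) :
    tau F (fun r x => ∑ k ∈ J, g k r x) n r x = ∑ k ∈ J, tau F (g k) n r x := by
  classical
  induction J using Finset.induction_on with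
  | empty =>
    simp only [Finset.sum_empty]
    have : ∀ n r x, tau F (fun _ _ => (0 : ℝ≥0∞)) n r x = 0 := by
      intro n
      induction n with
      | zero => intro r x; rfl
      | succ n ih =>
        intro r x
        by_cases hL : F.L r
        · exact tau_succ_of_leaf hL x
        · rw [tau_succ_of_not hL]
          simp only [ih, mul_zero]
          exact H395.fib_const _ 0 x
    exact this n r x
  | insert a J ha ih =>
    simp only [Finset.sum_insert ha]
    rw [tau_add hF (hg a), ih]

theorem tau_tsum (hF : F.Str Ok N) {g : ℕ → ι → E → ℝ≥0∞} (hg : ∀ k r, Measurable (g k r)) :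
    ∀ n r x, tau F (fun r x => ∑' k, g k r x) n r x = ∑' k, tau F (g k) n r x
  | 0, r, x => rfl
  | n + 1, r, x => by
    by_cases hL : F.L r
    · rw [tau_succ_of_leaf hL]
      have : ∀ k, tau F (g k) (n + 1) r x = 0 := fun k => tau_succ_of_leaf hL x
      simp only [this, tsum_zero]
    · rw [tau_succ_of_not hL]
      simp_rw [tau_succ_of_not hL]
      have e1 : (fun y => F.wt (F.kl r x) r y *
          tau F (fun r x => ∑' k, g k r x) n (F.ch (F.kl r x) r) y)
          = fun y => ∑' k, F.wt (F.kl r x) r y * tau F (g k) n (F.ch (F.kl r x) r) y := by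
        funext y
        rw [tau_tsum hF hg n, ENNReal.tsum_mul_left]
      rw [e1]
      unfold Vale.Agent.P262.H395.fib
      exact lintegral_tsum fun k => (((hF.wt_meas _ _).mul
        (measurable_tau hF (hg k) _ _)).comp (H395.measurable_mix_right _ _)).aemeasurable

/-- **freezing**: a parameter of the payoff which is a label function of the starting node may be
replaced by its value -/
theorem tau_freeze {T : Type*} {u : E → T} {G : T → ι → E → ℝ≥0∞} {P : ι → Prop}
    (hP : ∀ r x, P r → ¬ F.L r → P (F.ch (F.kl r x) r))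
    (hu : ∀ r, P r → ∀ x, ∀ w ∈ (F.W r)ᗮ, u (x + w) = u x) :
    ∀ n r, P r → ∀ x, tau F (fun r y => G (u y) r y) n r x = tau F (G (u x)) n r x
  | 0, r, hr, x => rfl
  | n + 1, r, hr, x => by
    by_cases hL : F.L r
    · rw [tau_succ_of_leaf hL, tau_succ_of_leaf hL]
    · rw [tau_succ_of_not hL, tau_succ_of_not hL]
      unfold Vale.Agent.P262.H395.fib
      apply lintegral_congr
      intro z
      simp only
      have h0 := tau_freeze (G := G) hP hu n _ (hP r x hr hL) (mix (F.W r) x z)
      rw [h0]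
      have h1 : mix (F.W r) x z - x ∈ (F.W r)ᗮ := by
        rw [← Submodule.starProjection_apply_eq_zero_iff, map_sub, H395.starProjection_mix,
          sub_self]
      have h2 := hu r hr x _ h1
      rw [add_sub_cancel] at h2
      rw [h2]

/-- the payoff only matters at the reached nodes -/
theorem tau_congr_of {g g' : ι → E → ℝ≥0∞} {Q : ℕ → ι → Prop}
    (hQ : ∀ k r x, Q (k + 1) r → ¬ F.L r → Q k (F.ch (F.kl r x) r))
    (h : ∀ r, Q 0 r → ∀ x, g r x = g' r x) (n : ℕ) (r : ι) (hr : Q n r) (x : E) :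
    tau F g n r x = tau F g' n r x :=
  le_antisymm (tau_mono_of hQ (fun r hr x => (h r hr x).le) n r hr x)
    (tau_mono_of hQ (fun r hr x => (h r hr x).ge) n r hr x)

/-- composition -/
theorem tau_comp {g : ι → E → ℝ≥0∞} (a b : ℕ) : ∀ r x,
    tau F g (a + b) r x = tau F (tau F g b) a r x := by
  induction a with
  | zero => intro r x; rw [Nat.zero_add]; rfl
  | succ a ih =>
    intro r x
    rw [show a + 1 + b = (a + b) + 1 by omega]
    by_cases hL : F.L r
    · rw [tau_succ_of_leaf hL, tau_succ_of_leaf hL]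
    · rw [tau_succ_of_not hL, tau_succ_of_not hL]
      simp only [ih]

end Vale.Agent.P262.H837
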