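import Vale.Agent.P262.H118.RotB
import Vale.Agent.P262.H148.Fam
import Vale.Agent.P262.H837.Tau
import Vale.Agent.P262.M2.Unfold

/-!
# P262, milestone 2, THR: the three kinds of payoffs of a rotation

The payoff of the throughput is split into the directions of the displacement: `θ` (layers of
`|⟪b, ·⟫|`), own directions of `b` at the levels below the rotating node, fibre direction.
-/

set_option linter.all false

open MeasureTheory ProbabilityTheory Set
open scoped ENNReal RealInnerProductSpace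
open Vale.Agent.P262.H118 (ly0 lyd ly1 nv sg la measurableSet_la measurableSet_lyd nv_mem)
open Vale.Agent.P262.H395 (fib mix Inv inv_fib measurable_fib fib_mono)
open Vale.Agent.P262.H711 (tau measurable_tau)

namespace Vale.Agent.P262.H837

variable {E : Type*} [NormedAddCommGroup E] [InnerProductSpace ℝ E] [FiniteDimensional ℝ E]
  [MeasurableSpace E] [BorelSpace E]

/-- average over the fibre of a set which depends on the label -/
lemma measurable_fib_var {W : Submodule ℝ E} {B : Set (E × E)} (hB : MeasurableSet B) :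
    Measurable fun y => fib W ({z : E | (y, z) ∈ B}.indicator (1 : E → ℝ≥0∞)) y := by
  unfold Vale.Agent.P262.H395.fib
  have h1 : Measurable fun p : E × E => (p.1, mix W p.1 p.2) := by
    unfold Vale.Agent.P262.H395.mix
    have h2 : Continuous fun p : E × E => (p.1, W.starProjection p.1 +
        (p.2 - W.starProjection p.2)) := by fun_prop
    exact h2.measurable
  have h3 : Measurable fun p : E × E => (B.indicator (1 : E × E → ℝ≥0∞)) (p.1, mix W p.1 p.2) :=
    (measurable_one.indicator hB).comp h1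
  exact h3.lintegral_prod_right'

end Vale.Agent.P262.H837

namespace Vale.Agent.P262.M2.Sys

variable {E : Type*} [NormedAddCommGroup E] [InnerProductSpace ℝ E] [FiniteDimensional ℝ E]
  [MeasurableSpace E] [BorelSpace E] (S : Sys E)

/-- direction `θ`, one layer -/
noncomputable def gTa (m : ℕ) (q : List ℕ) (θ bq : E) (o : Bool) (ε : ℝ) (a : ℕ)
    (r : List ℕ) (y : E) : ℝ≥0∞ :=
  S.mu q (lyd (S.bd q m o) (S.bd q m (!o)) (la bq a) (ε • θ) (4 * S.mv.ph m * 2 ^ a)) r m y /
    S.Dc r m y ^ S.th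

/-- own direction of `b` at the level `i + 1` below `q` -/
noncomputable def gOw (m : ℕ) (q : List ℕ) (θ : E) (b : List ℕ → E) (o : Bool) (ε : ℝ) (i : ℕ)
    (r : List ℕ) (y : E) : ℝ≥0∞ :=
  S.mu (sf1 q r i) (lyd (S.bd (sf1 q r i) m o) (S.bd (sf1 q r i) m (!o)) univ
    (ε • nv (S.bo m b (sf1 q r i))) (S.stb m i θ y)) r m y / S.Dc r m y ^ S.th

/-- fibre direction of `b` -/
noncomputable def gFi (m : ℕ) (θ : E) (b : List ℕ → E) (o : Bool) (ε : ℝ)
    (r : List ℕ) (y : E) : ℝ≥0∞ :=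
  fib (S.W r m) ((lyd (S.bd r m o) (S.bd r m (!o)) univ (ε • S.bf m b r)
    (S.stf m θ y)).indicator 1) y / S.Dc r m y ^ S.th

variable {S}
variable {m : ℕ} {q : List ℕ} {θ : E} {b : List ℕ → E}

lemma gTa_meas (bq : E) (o : Bool) (ε : ℝ) (a : ℕ) (r : List ℕ) :
    Measurable (S.gTa m q θ bq o ε a r) :=
  (mu_meas (measurableSet_lyd (measurableSet_bd _ _ _) (measurableSet_bd _ _ _)
    (measurableSet_la _ _) _ _)).div ((S.Dc_meas r m).pow_const _)

/-- step sets which depend on the label -/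
lemma measurableSet_var {K K1 : Set E} (hK : MeasurableSet K) (hK1 : MeasurableSet K1) (e : E)
    {st : E → ℝ} (hst : Measurable st) {t : E → E} (ht : Measurable t) :
    MeasurableSet {p : E × E | t p.2 ∈ lyd K K1 univ e (st p.1)} := by
  have h1 : {p : E × E | t p.2 ∈ lyd K K1 univ e (st p.1)} =
      ((fun p : E × E => t p.2) ⁻¹' K) ∩ (((fun p : E × E => t p.2) ⁻¹' K1)ᶜ ∩
        ((fun p : E × E => t p.2 + st p.1 • e) ⁻¹' K)ᶜ) := by
    ext p
    simp only [lyd, mem_setOf_eq, mem_inter_iff, mem_compl_iff, mem_preimage, mem_univ, true_and]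
  have h2 : Measurable fun p : E × E => t p.2 := ht.comp measurable_snd
  have h3 : Measurable fun p : E × E => t p.2 + st p.1 • e :=
    h2.add ((hst.comp measurable_fst).smul_const e)
  rw [h1]
  exact (h2 hK).inter ((h2 hK1).compl.inter (h3 hK).compl)

lemma stb_meas (i : ℕ) (θ : E) : Measurable (S.stb m i θ) := by
  unfold stb
  have h : Continuous fun x : E => (2:ℝ) ^ (i + 3) * (S.mv.ph m * (1 + |⟪θ, x⟫|)) := by fun_prop
  exact h.measurable

lemma stf_meas (θ : E) : Measurable (S.stf m θ) := by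
  unfold stf
  have h : Continuous fun x : E => 4 * S.mv.ph m * (1 + |⟪θ, x⟫|) := by fun_prop
  exact h.measurable

lemma gOw_meas (o : Bool) (ε : ℝ) (i : ℕ) (r : List ℕ) :
    Measurable (S.gOw m q θ b o ε i r) := by
  refine Measurable.div ?_ ((S.Dc_meas r m).pow_const _)
  unfold mu
  exact H837.measurable_fib_var (measurableSet_var (measurableSet_bd _ _ _)
    (measurableSet_bd _ _ _) _ (stb_meas i θ) (S.tr (sf1 q r i) r m).continuous.measurable)

lemma gFi_meas (o : Bool) (ε : ℝ) (r : List ℕ) : Measurable (S.gFi m θ b o ε r) := by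
  refine Measurable.div ?_ ((S.Dc_meas r m).pow_const _)
  exact H837.measurable_fib_var (measurableSet_var (t := id) (measurableSet_bd _ _ _)
    (measurableSet_bd _ _ _) _ (stf_meas θ) measurable_id)

/-- **split of the payoff** -/
theorem pay_le_split (H : S.RotB m q θ b) (hm : S.mv.IsRot m) (hq : S.mv.jj m = q) {n : ℕ}
    {r : List ℕ} (hr : q <:+ r) (hn : r.length = q.length + n) (y : E) :
    S.pay m r y ≤ ∑ o : Bool, ∑ ε ∈ sg, ((∑' a : ℕ, S.gTa m q θ (b q) o ε a r y) +
      (∑ i ∈ Finset.range n, S.gOw m q θ b o ε i r y) + S.gFi m θ b o ε r y) := by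
  unfold pay gTa gOw gFi
  have h := H.split hm hq hr y
  have e : r.length - q.length = n := by omega
  rw [e] at h
  refine (ENNReal.div_le_div_right h _).trans (le_of_eq ?_)
  simp only [div_eq_mul_inv, Finset.sum_mul, add_mul, ENNReal.tsum_mul_right]

/-- **split of the average**, start node `r0` at or below `q` -/
theorem tau_pay_le' (H : S.RotB m q θ b) (hmT : S.mv.tm m < S.T) (hm : S.mv.IsRot m)
    (hq : S.mv.jj m = q) {r0 : List ℕ} (hr0 : q <:+ r0) {n N : ℕ}
    (hN : r0.length + n = q.length + N) (y : E) :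
    tau (S.fam m) (S.pay m) n r0 y ≤ ∑ o : Bool, ∑ ε ∈ sg,
      ((∑' a : ℕ, tau (S.fam m) (S.gTa m q θ (b q) o ε a) n r0 y) +
      (∑ i ∈ Finset.range N, tau (S.fam m) (S.gOw m q θ b o ε i) n r0 y) +
        tau (S.fam m) (S.gFi m θ b o ε) n r0 y) := by
  have hF := S.fam_str hmT q
  have h1 := H837.tau_mono_of (F := S.fam m) (g := S.pay m)
    (g' := fun r y => ∑ o : Bool, ∑ ε ∈ sg, ((∑' a : ℕ, S.gTa m q θ (b q) o ε a r y) +
      (∑ i ∈ Finset.range N, S.gOw m q θ b o ε i r y) + S.gFi m θ b o ε r y))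
    (Q := fun k r => q <:+ r ∧ r.length + k = q.length + N)
    (fun k r x hr _ => ⟨hr.1.trans (List.suffix_cons _ _), by
      have := hr.2
      show (S.kl r m x :: r).length + k = _
      rw [List.length_cons]; omega⟩)
    (fun r hr x => pay_le_split H hm hq hr.1 (by have := hr.2; omega) x) n r0
    ⟨hr0, hN⟩ y
  refine h1.trans (le_of_eq ?_)
  have m1 : ∀ o ε r, Measurable fun y => ∑' a : ℕ, S.gTa m q θ (b q) o ε a r y :=
    fun o ε r => Measurable.ennreal_tsum fun a => gTa_meas _ o ε a r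
  have m2 : ∀ o ε r, Measurable fun y => ∑ i ∈ Finset.range N, S.gOw m q θ b o ε i r y :=
    fun o ε r => Finset.measurable_sum _ fun i _ => gOw_meas o ε i r
  have m3 : ∀ o ε r, Measurable fun y => S.gFi m θ b o ε r y := fun o ε r => gFi_meas o ε r
  have m4 : ∀ (o : Bool) (ε : ℝ) r, Measurable fun y => ((∑' a : ℕ, S.gTa m q θ (b q) o ε a r y) +
      (∑ i ∈ Finset.range N, S.gOw m q θ b o ε i r y) + S.gFi m θ b o ε r y) :=
    fun o ε r => ((m1 o ε r).add (m2 o ε r)).add (m3 o ε r)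
  rw [H837.tau_finset hF Finset.univ (g := fun (o : Bool) r y => ∑ ε ∈ sg,
    ((∑' a : ℕ, S.gTa m q θ (b q) o ε a r y) +
      (∑ i ∈ Finset.range N, S.gOw m q θ b o ε i r y) + S.gFi m θ b o ε r y))
    (fun o r => Finset.measurable_sum _ fun ε _ => m4 o ε r)]
  refine Finset.sum_congr rfl fun o _ => ?_
  rw [H837.tau_finset hF sg (g := fun (ε : ℝ) r y => ((∑' a : ℕ, S.gTa m q θ (b q) o ε a r y) +
      (∑ i ∈ Finset.range N, S.gOw m q θ b o ε i r y) + S.gFi m θ b o ε r y))
    (fun ε r => m4 o ε r)]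
  refine Finset.sum_congr rfl fun ε _ => ?_
  rw [H837.tau_add hF (g := fun r y => (∑' a : ℕ, S.gTa m q θ (b q) o ε a r y) +
      (∑ i ∈ Finset.range N, S.gOw m q θ b o ε i r y)) (g' := fun r y => S.gFi m θ b o ε r y)
      (fun r => (m1 o ε r).add (m2 o ε r)),
    H837.tau_add hF (g := fun r y => ∑' a : ℕ, S.gTa m q θ (b q) o ε a r y)
      (g' := fun r y => ∑ i ∈ Finset.range N, S.gOw m q θ b o ε i r y) (m1 o ε),
    H837.tau_tsum hF (g := fun a => S.gTa m q θ (b q) o ε a) (fun a r => gTa_meas _ o ε a r),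
    H837.tau_finset hF (Finset.range N) (g := fun i => S.gOw m q θ b o ε i)
      (fun i r => gOw_meas o ε i r)]

/-- **split of the average**, start node `q` -/
theorem tau_pay_le (H : S.RotB m q θ b) (hmT : S.mv.tm m < S.T) (hm : S.mv.IsRot m)
    (hq : S.mv.jj m = q) (n : ℕ) (y : E) :
    tau (S.fam m) (S.pay m) n q y ≤ ∑ o : Bool, ∑ ε ∈ sg,
      ((∑' a : ℕ, tau (S.fam m) (S.gTa m q θ (b q) o ε a) n q y) +
      (∑ i ∈ Finset.range n, tau (S.fam m) (S.gOw m q θ b o ε i) n q y) +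
        tau (S.fam m) (S.gFi m θ b o ε) n q y) :=
  tau_pay_le' H hmT hm hq (List.suffix_refl _) rfl y

/-- **split of the line** -/
theorem line_split (H : S.RotB m q θ b) (hmT : S.mv.tm m < S.T) (hm : S.mv.IsRot m)
    (hq : S.mv.jj m = q) (n : ℕ) (p : List ℕ) (x : E) :
    fib (S.W p m) (fun y => S.cw q m y * tau (S.fam m) (S.pay m) n q y) x ≤
    ∑ o : Bool, ∑ ε ∈ sg,
      ((∑' a : ℕ, fib (S.W p m) (fun y => S.cw q m y *
          tau (S.fam m) (S.gTa m q θ (b q) o ε a) n q y) x) +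
      (∑ i ∈ Finset.range n, fib (S.W p m) (fun y => S.cw q m y *
          tau (S.fam m) (S.gOw m q θ b o ε i) n q y) x) +
        fib (S.W p m) (fun y => S.cw q m y * tau (S.fam m) (S.gFi m θ b o ε) n q y) x) := by
  have hF := S.fam_str hmT q
  have h1 : fib (S.W p m) (fun y => S.cw q m y * tau (S.fam m) (S.pay m) n q y) x ≤
      fib (S.W p m) (fun y => ∑ o : Bool, ∑ ε ∈ sg,
      ((∑' a : ℕ, S.cw q m y * tau (S.fam m) (S.gTa m q θ (b q) o ε a) n q y) +
      (∑ i ∈ Finset.range n, S.cw q m y * tau (S.fam m) (S.gOw m q θ b o ε i) n q y) +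
        S.cw q m y * tau (S.fam m) (S.gFi m θ b o ε) n q y)) x := by
    refine fib_mono (fun y => ?_) x
    refine (mul_le_mul_right (tau_pay_le H hmT hm hq n y) _).trans (le_of_eq ?_)
    simp only [Finset.mul_sum, mul_add, ENNReal.tsum_mul_left]
  refine h1.trans (le_of_eq ?_)
  have t1 : ∀ o ε a, Measurable fun y => S.cw q m y *
      tau (S.fam m) (S.gTa m q θ (b q) o ε a) n q y := fun o ε a =>
    (S.cw_meas q m).mul (measurable_tau hF (fun r => gTa_meas _ o ε a r) n q)
  have t2 : ∀ o ε i, Measurable fun y => S.cw q m y *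
      tau (S.fam m) (S.gOw m q θ b o ε i) n q y := fun o ε i =>
    (S.cw_meas q m).mul (measurable_tau hF (fun r => gOw_meas o ε i r) n q)
  have t3 : ∀ o ε, Measurable fun y => S.cw q m y *
      tau (S.fam m) (S.gFi m θ b o ε) n q y := fun o ε =>
    (S.cw_meas q m).mul (measurable_tau hF (fun r => gFi_meas o ε r) n q)
  have m1 : ∀ o ε, Measurable fun y => ∑' a : ℕ, S.cw q m y *
      tau (S.fam m) (S.gTa m q θ (b q) o ε a) n q y :=
    fun o ε => Measurable.ennreal_tsum fun a => t1 o ε a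
  have m2 : ∀ o ε, Measurable fun y => ∑ i ∈ Finset.range n, S.cw q m y *
      tau (S.fam m) (S.gOw m q θ b o ε i) n q y :=
    fun o ε => Finset.measurable_sum _ fun i _ => t2 o ε i
  have m4 : ∀ (o : Bool) (ε : ℝ), Measurable fun y =>
      ((∑' a : ℕ, S.cw q m y * tau (S.fam m) (S.gTa m q θ (b q) o ε a) n q y) +
      (∑ i ∈ Finset.range n, S.cw q m y * tau (S.fam m) (S.gOw m q θ b o ε i) n q y) +
        S.cw q m y * tau (S.fam m) (S.gFi m θ b o ε) n q y) :=
    fun o ε => ((m1 o ε).add (m2 o ε)).add (t3 o ε)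
  rw [H118.fib_sum_L Finset.univ (f := fun (o : Bool) y => ∑ ε ∈ sg,
      ((∑' a : ℕ, S.cw q m y * tau (S.fam m) (S.gTa m q θ (b q) o ε a) n q y) +
      (∑ i ∈ Finset.range n, S.cw q m y * tau (S.fam m) (S.gOw m q θ b o ε i) n q y) +
        S.cw q m y * tau (S.fam m) (S.gFi m θ b o ε) n q y))
    (fun o => Finset.measurable_sum _ fun ε _ => m4 o ε) x]
  refine Finset.sum_congr rfl fun o _ => ?_
  rw [H118.fib_sum_L sg (f := fun (ε : ℝ) y =>
      ((∑' a : ℕ, S.cw q m y * tau (S.fam m) (S.gTa m q θ (b q) o ε a) n q y) +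
      (∑ i ∈ Finset.range n, S.cw q m y * tau (S.fam m) (S.gOw m q θ b o ε i) n q y) +
        S.cw q m y * tau (S.fam m) (S.gFi m θ b o ε) n q y)) (fun ε => m4 o ε) x]
  refine Finset.sum_congr rfl fun ε _ => ?_
  rw [H395.fib_add (f := fun y =>
      (∑' a : ℕ, S.cw q m y * tau (S.fam m) (S.gTa m q θ (b q) o ε a) n q y) +
      (∑ i ∈ Finset.range n, S.cw q m y * tau (S.fam m) (S.gOw m q θ b o ε i) n q y))
      ((m1 o ε).add (m2 o ε)),
    H395.fib_add (f := fun y =>
      (∑' a : ℕ, S.cw q m y * tau (S.fam m) (S.gTa m q θ (b q) o ε a) n q y)) (m1 o ε),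
    H118.fib_tsum_L (f := fun a y => S.cw q m y *
      tau (S.fam m) (S.gTa m q θ (b q) o ε a) n q y) (t1 o ε),
    H118.fib_sum_L (Finset.range n) (f := fun i y => S.cw q m y *
      tau (S.fam m) (S.gOw m q θ b o ε i) n q y) (t2 o ε)]

end Vale.Agent.P262.M2.Sys
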