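import Vale.Agent.P262.H837.AsmB
import Vale.Agent.P262.H941.BeSys
import Vale.Agent.P262.H606.FibT

/-!
# P262, milestone 2, THR: the pointwise line of the throughput, parent of class `≥ 1`
-/

set_option linter.all false

open MeasureTheory ProbabilityTheory Set
open scoped ENNReal RealInnerProductSpace
open Vale.Agent.P262.H118 (ly0 lyd ly1 nv sg la la_add measurableSet_la measurableSet_lyd nv_mem
  mem_sg)
open Vale.Agent.P262.H395 (fib mix Inv inv_fib measurable_fib fib_mono fib_tower)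
open Vale.Agent.P262.H711 (tau measurable_tau)

namespace Vale.Agent.P262.M2.Sys

variable {E : Type*} [NormedAddCommGroup E] [InnerProductSpace ℝ E] [FiniteDimensional ℝ E]
  [MeasurableSpace E] [BorelSpace E] (S : Sys E)

/-- loss per level -/
noncomputable def K0 : ℝ := 3072 * S.kap ^ (1 / 2 : ℝ)

lemma K0_eq : S.K0 = 12 * S.kq := by unfold K0 kq; ring

lemma K0_nonneg : 0 ≤ S.K0 := by
  rw [K0_eq]
  have := S.kq_nonneg
  positivity

/-- bound of the own directions -/
def OwB (CO : ℝ) (m c : ℕ) (p : List ℕ) : Prop :=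
  ∀ (θ : E) (b : List ℕ → E), S.RotB m (c :: p) θ b → ∀ (o : Bool), ∀ ε ∈ sg, ∀ n, ∀ i < n,
    ∀ x, S.kl p m x = c →
      fib (S.W p m) (fun y => S.cw (c :: p) m y *
        tau (S.fam m) (S.gOw m (c :: p) θ b o ε i) n (c :: p) y) x ≤
      ENNReal.ofReal (CO * S.mv.ph m) * 2 ^ i * ENNReal.ofReal (S.K0 ^ (S.od p c m + n)) *
        S.Dk c p m x ^ (1 / 2 : ℝ)

/-- bound of the fibre direction -/
def FiB (CF : ℝ) (m c : ℕ) (p : List ℕ) : Prop :=
  ∀ (θ : E) (b : List ℕ → E), S.RotB m (c :: p) θ b → ∀ (o : Bool), ∀ ε ∈ sg, ∀ n,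
    ∀ x, S.kl p m x = c →
      fib (S.W p m) (fun y => S.cw (c :: p) m y *
        tau (S.fam m) (S.gFi m θ b o ε) n (c :: p) y) x ≤
      ENNReal.ofReal (CF * S.mv.ph m) * ENNReal.ofReal (S.K0 ^ (S.od p c m + n)) *
        (2 ^ c * S.Dk c p m x ^ (1 / 2 : ℝ))

variable {S}

/-- at a counted label the functional `Dk` is the maximal deficit of the block -/
lemma Dk_eq_Db {m : ℕ} (hm : S.mv.tm m < S.T) {p : List ℕ} {x : E} (h : x ∈ S.om p m) {c : ℕ}
    (hc : S.kl p m x = c) : S.Dk c p m x = S.Db p m x := by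
  subst hc
  unfold Dk
  exact max_eq_left (A_le_Db_of_om hm h)

lemma card_sg : (sg : Finset ℝ).card = 2 := by
  unfold H118.sg
  rw [Finset.card_insert_of_notMem, Finset.card_singleton]
  rw [Finset.mem_singleton]
  norm_num

/-- **the pointwise line** -/
theorem line_of (hth : S.th = 1 / 2) (hk : S.kq ≤ 1) {CO CF : ℝ} (hCO : 0 ≤ CO) (hCF : 0 ≤ CF)
    {m : ℕ} (hm : m < S.mT) (hrot : S.mv.IsRot m) {c : ℕ} {p : List ℕ}
    (hj : S.mv.jj m = c :: p) (hc0 : c ≠ 0) (hO : S.OwB CO m c p) (hF : S.FiB CF m c p) :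
    Line (S := S) (fun c r => S.cw (c :: r) m) (4 * (44800 + CO + CF)) (2 * S.K0) m c p := by
  intro n _ x _ _ hom hc
  have hmT := tm_lt_mT hm
  have hph := S.mv.ph_nonneg m
  have hK0 := S.K0_nonneg
  have hkq := S.kq_nonneg
  obtain ⟨θ, b, H⟩ := rot_coh hrot
  rw [hj] at H
  set D := S.Dk c p m x ^ (1 / 2 : ℝ) with hD
  set N := S.od p c m + n with hN
  -- the right side
  have e1 : S.psi p m x = D := by
    unfold psi
    rw [if_neg (by omega), hD, Dk_eq_Db hmT hom hc, hth]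
    norm_num
  have e2 : S.s2 p m x = 2 ^ c := by unfold s2; rw [hc]
  have e3 : S.kr m + n = N := by
    rw [hN]
    unfold kr
    rw [hj]
    rfl
  rw [e1, e2, e3]
  -- the left side
  have h0 : fib (S.W p m) (fun y => S.cw (c :: p) m y *
      S.tauT (fun c r => S.cw (c :: r) m) (S.pay m) m n (c :: p) y) x =
      fib (S.W p m) (fun y => S.cw (c :: p) m y * tau (S.fam m) (S.pay m) n (c :: p) y) x := rfl
  rw [h0]
  refine (line_split H hmT hrot hj n p x).trans ?_
  have hT : ∀ o : Bool, ∀ ε ∈ sg, ∑' a : ℕ, fib (S.W p m) (fun y => S.cw (c :: p) m y *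
      tau (S.fam m) (S.gTa m (c :: p) θ (b (c :: p)) o ε a) n (c :: p) y) x ≤
      ENNReal.ofReal (44800 * S.mv.ph m) * ENNReal.ofReal ((2 * S.K0) ^ N) * (2 ^ c * D) := by
    intro o ε hε
    refine (theta_line H hmT hrot hth hk hj n hc o hε).trans ?_
    gcongr
    have e4 : (12 * ENNReal.ofReal S.kq) ^ n = ENNReal.ofReal (S.K0 ^ n) := by
      rw [K0_eq, ENNReal.ofReal_pow (by positivity), ENNReal.ofReal_mul (by norm_num)]
      norm_num
    rw [e4, ← ENNReal.ofReal_mul (by positivity)]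
    refine ENNReal.ofReal_le_ofReal ?_
    rw [hN, pow_add, mul_comm]
    have h5 : S.kq ^ (Module.finrank ℝ (S.W (c :: p) m) - Module.finrank ℝ (S.W p m)) ≤
        (2 * S.K0) ^ S.od p c m := by
      show S.kq ^ S.od p c m ≤ _
      refine pow_le_pow_left₀ hkq ?_ _
      rw [K0_eq]; linarith
    have h6 : S.K0 ^ n ≤ (2 * S.K0) ^ n := pow_le_pow_left₀ hK0 (by linarith) _
    gcongr
  have hOs : ∀ o : Bool, ∀ ε ∈ sg, ∑ i ∈ Finset.range n, fib (S.W p m) (fun y =>
      S.cw (c :: p) m y * tau (S.fam m) (S.gOw m (c :: p) θ b o ε i) n (c :: p) y) x ≤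
      ENNReal.ofReal (CO * S.mv.ph m) * ENNReal.ofReal ((2 * S.K0) ^ N) * (2 ^ c * D) := by
    intro o ε hε
    have h7 : ∀ i ∈ Finset.range n, fib (S.W p m) (fun y =>
        S.cw (c :: p) m y * tau (S.fam m) (S.gOw m (c :: p) θ b o ε i) n (c :: p) y) x ≤
        ENNReal.ofReal (CO * S.mv.ph m) * ENNReal.ofReal (S.K0 ^ N) * D * 2 ^ i := by
      intro i hi
      refine (hO θ b H o ε hε n i (Finset.mem_range.1 hi) x hc).trans (le_of_eq ?_)
      ring
    refine (Finset.sum_le_sum h7).trans ?_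
    rw [← Finset.mul_sum]
    have h8 : ∑ i ∈ Finset.range n, (2 : ℝ≥0∞) ^ i ≤ 2 ^ n := by
      have h9 : ∀ k : ℕ, ∑ i ∈ Finset.range k, (2 : ℝ≥0∞) ^ i ≤ 2 ^ k := by
        intro k
        induction k with
        | zero => simp
        | succ k ih =>
          rw [Finset.sum_range_succ, pow_succ, mul_two]
          gcongr
      exact h9 n
    have h10 : ENNReal.ofReal (S.K0 ^ N) * 2 ^ n ≤ ENNReal.ofReal ((2 * S.K0) ^ N) := by
      rw [mul_pow, ENNReal.ofReal_mul (by positivity), mul_comm]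
      gcongr
      rw [ENNReal.ofReal_pow (by norm_num)]
      norm_num
      exact pow_le_pow_right₀ (by norm_num) (by omega)
    have h11 : D ≤ 2 ^ c * D := by
      calc D = 1 * D := (one_mul _).symm
        _ ≤ 2 ^ c * D := by
          gcongr
          exact one_le_pow₀ (by norm_num)
    calc ENNReal.ofReal (CO * S.mv.ph m) * ENNReal.ofReal (S.K0 ^ N) * D *
          ∑ i ∈ Finset.range n, (2 : ℝ≥0∞) ^ i
        ≤ ENNReal.ofReal (CO * S.mv.ph m) * ENNReal.ofReal (S.K0 ^ N) * D * 2 ^ n := by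
          gcongr
      _ = ENNReal.ofReal (CO * S.mv.ph m) * (ENNReal.ofReal (S.K0 ^ N) * 2 ^ n) * D := by ring
      _ ≤ _ := by gcongr
  have hFs : ∀ o : Bool, ∀ ε ∈ sg, fib (S.W p m) (fun y => S.cw (c :: p) m y *
      tau (S.fam m) (S.gFi m θ b o ε) n (c :: p) y) x ≤
      ENNReal.ofReal (CF * S.mv.ph m) * ENNReal.ofReal ((2 * S.K0) ^ N) * (2 ^ c * D) := by
    intro o ε hε
    refine (hF θ b H o ε hε n x hc).trans ?_
    gcongr
    linarith
  have hall : ∀ o : Bool, ∀ ε ∈ sg,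
      ((∑' a : ℕ, fib (S.W p m) (fun y => S.cw (c :: p) m y *
          tau (S.fam m) (S.gTa m (c :: p) θ (b (c :: p)) o ε a) n (c :: p) y) x) +
      (∑ i ∈ Finset.range n, fib (S.W p m) (fun y => S.cw (c :: p) m y *
          tau (S.fam m) (S.gOw m (c :: p) θ b o ε i) n (c :: p) y) x) +
        fib (S.W p m) (fun y => S.cw (c :: p) m y *
          tau (S.fam m) (S.gFi m θ b o ε) n (c :: p) y) x) ≤
      ENNReal.ofReal ((44800 + CO + CF) * S.mv.ph m) *
        ENNReal.ofReal ((2 * S.K0) ^ N) * (2 ^ c * D) := by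
    intro o ε hε
    refine (add_le_add (add_le_add (hT o ε hε) (hOs o ε hε)) (hFs o ε hε)).trans (le_of_eq ?_)
    have e5 : ENNReal.ofReal ((44800 + CO + CF) * S.mv.ph m) = ENNReal.ofReal (44800 * S.mv.ph m) +
        ENNReal.ofReal (CO * S.mv.ph m) + ENNReal.ofReal (CF * S.mv.ph m) := by
      rw [← ENNReal.ofReal_add (by positivity) (by positivity),
        ← ENNReal.ofReal_add (by positivity) (by positivity)]
      congr 1
      ring
    rw [e5]
    ring
  calc ∑ o : Bool, ∑ ε ∈ sg,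
      ((∑' a : ℕ, fib (S.W p m) (fun y => S.cw (c :: p) m y *
          tau (S.fam m) (S.gTa m (c :: p) θ (b (c :: p)) o ε a) n (c :: p) y) x) +
      (∑ i ∈ Finset.range n, fib (S.W p m) (fun y => S.cw (c :: p) m y *
          tau (S.fam m) (S.gOw m (c :: p) θ b o ε i) n (c :: p) y) x) +
        fib (S.W p m) (fun y => S.cw (c :: p) m y *
          tau (S.fam m) (S.gFi m θ b o ε) n (c :: p) y) x)
      ≤ ∑ o : Bool, ∑ ε ∈ sg, ENNReal.ofReal ((44800 + CO + CF) * S.mv.ph m) *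
        ENNReal.ofReal ((2 * S.K0) ^ N) * (2 ^ c * D) :=
        Finset.sum_le_sum fun o _ => Finset.sum_le_sum fun ε hε => hall o ε hε
    _ = 4 * (ENNReal.ofReal ((44800 + CO + CF) * S.mv.ph m) *
        ENNReal.ofReal ((2 * S.K0) ^ N) * (2 ^ c * D)) := by
        rw [Finset.sum_const, Finset.sum_const, card_sg, Finset.card_univ, Fintype.card_bool]
        simp only [nsmul_eq_mul]
        push_cast
        ring
    _ = ENNReal.ofReal (4 * (44800 + CO + CF) * S.mv.ph m * (2 * S.K0) ^ N) * (D * 2 ^ c) := by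
        rw [ENNReal.ofReal_mul (p := 4 * (44800 + CO + CF) * S.mv.ph m)
          (q := (2 * S.K0) ^ N) (by positivity),
          show 4 * (44800 + CO + CF) * S.mv.ph m = 4 * ((44800 + CO + CF) * S.mv.ph m) by ring,
          ENNReal.ofReal_mul (p := 4) (by norm_num)]
        norm_num
        ring

/-- own directions: 941 -/
theorem owB (hth : S.th = 1 / 2) (hk : S.kq ≤ 1) {m : ℕ} (hm : m < S.mT) (hrot : S.mv.IsRot m)
    {c : ℕ} {p : List ℕ} (hj : S.mv.jj m = c :: p) : S.OwB 1920 m c p := by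
  intro θ b H o ε hε n i hi x hc
  exact own_dir (tm_lt_mT hm) hrot hth hk hj H hc H.not_leaf o hε hi

/-- fibre direction: 606 -/
theorem fiB (hth : S.th = 1 / 2) (hk : S.kq ≤ 1) {m : ℕ} (hm : m < S.mT) (hrot : S.mv.IsRot m)
    {c : ℕ} {p : List ℕ} (hj : S.mv.jj m = c :: p) : S.FiB 1320 m c p := by
  intro θ b H o ε hε n x hc
  refine (fib_term H (tm_lt_mT hm) hrot hth hk H.not_leaf o hε n
    (g := S.gFi m θ b o ε) (fun r y _ _ => le_of_eq rfl) hc).trans ?_
  have hkap := S.hkap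
  refine mul_le_mul' (mul_le_mul' le_rfl (ENNReal.ofReal_le_ofReal ?_)) le_rfl
  unfold K0
  gcongr
  norm_num

/-- **(THR), parent of class `≥ 1`**, from the two hypotheses on the numbers -/
theorem thrp (hth : S.th = 1 / 2) (hk : S.kq ≤ 1) : S.THRp 192160 (2 * S.K0) := by
  have h := THRp_of_line (S := S) (CT := 4 * (44800 + 1920 + 1320)) (lam := 2 * S.K0)
    (wt := fun m c r => S.cw (c :: r) m)
    (fun m _ c r y => S.As_child_le_cw c r m y) (fun m c r => S.cw_meas (c :: r) m)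
    fun m hm hrot c p hj hc0 => line_of hth hk (by norm_num) (by norm_num) hm hrot hj hc0
      (owB hth hk hm hrot hj) (fiB hth hk hm hrot hj)
  norm_num at h
  exact h

end Vale.Agent.P262.M2.Sys
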