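import Vale.Agent.P262.H837.ThrG

/-!
# P262, block THR (sharp throughput), part H: the rotation theorem, one class
-/

set_option linter.all false

open MeasureTheory ProbabilityTheory Set
open scoped ENNReal RealInnerProductSpace Pointwise

namespace Vale.Agent.P262.H837

open Vale.Agent.P262.H395 Vale.Agent.P262.H118

variable {E : Type*} [NormedAddCommGroup E] [InnerProductSpace ℝ E] [FiniteDimensional ℝ E]
  [MeasurableSpace E] [BorelSpace E]

lemma coef_bound {φ X Y R : ℝ} (hφR : |φ| * R ≤ 1) (hX : |X| ≤ R) :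
    |(Real.cos φ - 1) * X - Real.sin φ * Y| ≤ |φ| * (|Y| + 1) ∧
    |Real.sin φ * Y + (Real.cos φ - 1) * X| ≤ |φ| * (|Y| + 1) := by
  have h1 : |Real.cos φ - 1| ≤ φ ^ 2 / 2 := by
    rw [abs_sub_comm, abs_of_nonneg (by linarith [Real.cos_le_one φ])]
    have := Real.one_sub_sq_div_two_le_cos (x := φ)
    linarith
  have h2 : |Real.sin φ| ≤ |φ| := Real.abs_sin_le_abs
  have h3 : |(Real.cos φ - 1) * X| ≤ |φ| := by
    rw [abs_mul]
    have h4 : φ ^ 2 = |φ| * |φ| := by rw [← sq, sq_abs]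
    have h5 : 0 ≤ |φ| := abs_nonneg φ
    calc |Real.cos φ - 1| * |X| ≤ (φ ^ 2 / 2) * R :=
          mul_le_mul h1 hX (abs_nonneg _) (by positivity)
      _ = (|φ| / 2) * (|φ| * R) := by rw [h4]; ring
      _ ≤ (|φ| / 2) * 1 := mul_le_mul_of_nonneg_left hφR (by positivity)
      _ ≤ |φ| := by linarith
  have h4 : |Real.sin φ * Y| ≤ |φ| * |Y| := by
    rw [abs_mul]
    exact mul_le_mul_of_nonneg_right h2 (abs_nonneg _)
  constructor
  · calc |(Real.cos φ - 1) * X - Real.sin φ * Y| ≤ |(Real.cos φ - 1) * X| + |Real.sin φ * Y| :=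
          abs_sub _ _
      _ ≤ |φ| + |φ| * |Y| := add_le_add h3 h4
      _ = _ := by ring
  · calc |Real.sin φ * Y + (Real.cos φ - 1) * X| ≤ |Real.sin φ * Y| + |(Real.cos φ - 1) * X| :=
          abs_add_le _ _
      _ ≤ |φ| * |Y| + |φ| := add_le_add h4 h3
      _ = _ := by ring

/-- the points leaving `K` under a small plane rotation leave it along one of the directions -/
lemma rot_leave {K : Set E} (hK : Convex ℝ K) {R : ℝ} (hR : 0 ≤ R) (hKR : ∀ x ∈ K, ‖x‖ ≤ R)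
    {θ b : E} (hON : ON θ b) {r : ℕ} {β : Fin r → E} {f : E} {c : ℝ} (hc : |c| ≤ 1)
    (hb : b = ∑ i, β i + c • f) {φ : ℝ} (hφR : |φ| * R ≤ 1) {x : E} (hx : x ∈ K)
    (hrx : rotL θ b φ x ∉ K) :
    (∃ σ : Bool, x + ((nc b x : ℝ) * (((r : ℝ) + 2) * |φ|)) • (sg σ • θ) ∉ K)
    ∨ (∃ i, ∃ σ : Bool, x + ((nc θ x : ℝ) * (((r : ℝ) + 2) * |φ|)) • (sg σ • β i) ∉ K)
    ∨ ∃ σ : Bool, x + ((((r : ℝ) + 2) * |φ|) * (|⟪θ, x⟫| + 1)) • (sg σ • f) ∉ K := by
  set k : ℝ := (r : ℝ) + 2 with hk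
  have hk0 : 0 < k := by positivity
  set cθ : ℝ := (Real.cos φ - 1) * ⟪θ, x⟫ - Real.sin φ * ⟪b, x⟫ with hcθ
  set cb : ℝ := Real.sin φ * ⟪θ, x⟫ + (Real.cos φ - 1) * ⟪b, x⟫ with hcb
  have hXθ : |⟪θ, x⟫| ≤ R := by
    have h4 : |⟪θ, x⟫| ≤ ‖θ‖ * ‖x‖ := abs_real_inner_le_norm θ x
    rw [hON.hp, one_mul] at h4
    exact h4.trans (hKR x hx)
  have hXb : |⟪b, x⟫| ≤ R := by
    have h4 : |⟪b, x⟫| ≤ ‖b‖ * ‖x‖ := abs_real_inner_le_norm b x
    rw [hON.hq, one_mul] at h4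
    exact h4.trans (hKR x hx)
  have bθ : |cθ| ≤ |φ| * (|⟪b, x⟫| + 1) := (coef_bound hφR hXθ).1
  have bb : |cb| ≤ |φ| * (|⟪θ, x⟫| + 1) := (coef_bound hφR hXb).2
  have hφ0 : 0 ≤ |φ| := abs_nonneg φ
  have tθ : |k * cθ| ≤ (nc b x : ℝ) * (k * |φ|) := by
    rw [abs_mul, abs_of_pos hk0]
    calc k * |cθ| ≤ k * (|φ| * (|⟪b, x⟫| + 1)) := mul_le_mul_of_nonneg_left bθ hk0.le
      _ ≤ k * (|φ| * nc b x) := by
          apply mul_le_mul_of_nonneg_left _ hk0.le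
          exact mul_le_mul_of_nonneg_left (one_add_le_nc b x) hφ0
      _ = _ := by ring
  have tb : |k * cb| ≤ (nc θ x : ℝ) * (k * |φ|) := by
    rw [abs_mul, abs_of_pos hk0]
    calc k * |cb| ≤ k * (|φ| * (|⟪θ, x⟫| + 1)) := mul_le_mul_of_nonneg_left bb hk0.le
      _ ≤ k * (|φ| * nc θ x) := by
          apply mul_le_mul_of_nonneg_left _ hk0.le
          exact mul_le_mul_of_nonneg_left (one_add_le_nc θ x) hφ0
      _ = _ := by ring
  have tf : |k * cb * c| ≤ (k * |φ|) * (|⟪θ, x⟫| + 1) := by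
    rw [abs_mul, abs_mul, abs_of_pos hk0]
    calc k * |cb| * |c| ≤ k * |cb| * 1 := mul_le_mul_of_nonneg_left hc (by positivity)
      _ ≤ k * (|φ| * (|⟪θ, x⟫| + 1)) := by
          rw [mul_one]; exact mul_le_mul_of_nonneg_left bb hk0.le
      _ = _ := by ring
  by_contra hcon
  push Not at hcon
  obtain ⟨h1, h2, h3⟩ := hcon
  apply hrx
  let z : Option (Option (Fin r)) → E
    | none => x + (k * cb * c) • f
    | some none => x + (k * cθ) • θ
    | some (some i) => x + (k * cb) • β i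
  have hz : ∀ i ∈ (Finset.univ : Finset (Option (Option (Fin r)))), z i ∈ K := by
    intro i _
    match i with
    | none =>
      by_contra h
      obtain ⟨σ, hσ⟩ := leave_push hK hx tf h
      exact hσ (h3 σ)
    | some none =>
      by_contra h
      obtain ⟨σ, hσ⟩ := leave_push hK hx tθ h
      exact hσ (h1 σ)
    | some (some i) =>
      by_contra h
      obtain ⟨σ, hσ⟩ := leave_push hK hx tb h
      exact hσ (h2 i σ)
  have hsum : ∑ i ∈ (Finset.univ : Finset (Option (Option (Fin r)))), (1 / k : ℝ) = 1 := by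
    rw [Finset.sum_const, Finset.card_univ, Fintype.card_option, Fintype.card_option,
      Fintype.card_fin, nsmul_eq_mul]
    push_cast
    rw [hk]
    field_simp
    ring
  have hmem := hK.sum_mem (t := Finset.univ) (w := fun _ : Option (Option (Fin r)) => (1 / k : ℝ))
    (fun _ _ => by positivity) hsum hz
  have e : ∑ i : Option (Option (Fin r)), (1 / k : ℝ) • z i = rotL θ b φ x := by
    rw [Fintype.sum_option, Fintype.sum_option]
    show (1 / k : ℝ) • (x + (k * cb * c) • f) + ((1 / k : ℝ) • (x + (k * cθ) • θ)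
      + ∑ i : Fin r, (1 / k : ℝ) • (x + (k * cb) • β i)) = rotL θ b φ x
    have e1 : ∀ v : E, ∀ t : ℝ, (1 / k : ℝ) • (x + (k * t) • v) = (1 / k : ℝ) • x + t • v := by
      intro v t
      rw [smul_add, smul_smul]
      congr 2
      field_simp
    rw [mul_assoc k cb c, e1, e1]
    simp_rw [e1]
    rw [Finset.sum_add_distrib, Finset.sum_const, Finset.card_univ, Fintype.card_fin,
      ← Finset.smul_sum]
    rw [rotL_apply]
    have e2 : b - c • f = ∑ i, β i := by rw [hb]; abel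
    rw [← e2]
    have e3 : (r : ℝ) * (1 / k) + 2 * (1 / k) = 1 := by
      rw [← add_mul, ← hk]
      field_simp
    have e4 : (r • ((1 / k : ℝ) • x)) = ((r : ℝ) * (1 / k)) • x := by
      rw [← Nat.cast_smul_eq_nsmul ℝ, smul_smul]
    rw [e4]
    have e5 : x = ((r : ℝ) * (1 / k) + 2 * (1 / k)) • x := by rw [e3, one_smul]
    have e6 : (1 / k : ℝ) • x + (cb * c) • f + ((1 / k : ℝ) • x + cθ • θ
        + (((r : ℝ) * (1 / k)) • x + cb • (b - c • f)))
        = ((r : ℝ) * (1 / k) + 2 * (1 / k)) • x + cθ • θ + cb • b := by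
      module
    rw [e6, ← e5]
  rw [e] at hmem
  exact hmem

/-- **THR for one class (one plane rotation)**: the dead mass of `K ∩ ρ⁻¹ K`, `ρ` the rotation by
`φ` in the plane `(θ, b)`, against the dead mass of `K`, in the weighted `s`-th power form at the
labels of `W`, averaged over the fibre of a label of `W0`. -/
theorem thr_rot {W0 W : Submodule ℝ E} (hW : W0 ≤ W) {K : Set E} (hKc : IsCompact K)
    (hK : Convex ℝ K) {R : ℝ} (hR : 0 ≤ R) (hKR : ∀ x ∈ K, ‖x‖ ≤ R)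
    {θ b : E} (hON : ON θ b) (hθW : θ ∈ W) (hθ0 : θ ∈ W0ᗮ) (hb0 : b ∈ W0ᗮ)
    {r : ℕ} {β : Fin r → E} (hβ : ∀ i, β i ∈ W) (hβ0 : ∀ i, β i ∈ W0ᗮ) (hβn : ∀ i, ‖β i‖ ≤ 1)
    (hβθ : ∀ i, ⟪θ, β i⟫ = 0) {f : E} (hf : f ∈ Wᗮ) (hfn : ‖f‖ = 1) {c : ℝ} (hc : |c| ≤ 1)
    (hb : b = ∑ i, β i + c • f) {φ : ℝ}
    (hφ : 5 * (((r : ℝ) + 2) * |φ|) * (R + 4) ^ 2 ≤ 1)
    {th s p : ℝ} (hth : 0 < th) (hs : 0 < s) (hsum : th + s = 1) (hp : 0 ≤ p)
    (hpth : 2 * p * th ≤ 1) {A : E → ℝ≥0∞} (hA : Measurable A)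
    (hg1 : ∀ t : ℝ, GrowV A (t • θ) p) (hg2 : ∀ i (t : ℝ), GrowV A (t • β i) p)
    {x0 : E} {Λ : ℝ≥0∞} (hfin : fib W0 (fun x => A x ^ th) x0 ≠ ⊤)
    (hΛ1 : fib W0 (fun x => ew θ x ^ (1 / th) * A x) x0 ≤ Λ)
    (hΛ2 : ∀ i, fib W0 (fun x => ew (β i) x ^ (1 / th) * A x) x0 ≤ Λ) :
    fib W0 (fun x => A x ^ th * fib W ((K ∩ (rotL θ b φ) ⁻¹' K)ᶜ.indicator 1) x ^ s) x0
      ≤ fib W0 (fun x => A x ^ th * fib W (Kᶜ.indicator 1) x ^ s) x0
        + ENNReal.ofReal (10 * ((r : ℝ) + 2) ^ 2 * |φ|)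
          * (Λ ^ th * Psi s (2 * fib W0 (Kᶜ.indicator 1) x0)) := by
  classical
  set k : ℝ := (r : ℝ) + 2 with hk
  have hk0 : 0 < k := by positivity
  have hk2 : 2 ≤ k := by
    have : (0 : ℝ) ≤ r := Nat.cast_nonneg r
    linarith
  set η : ℝ := k * |φ| with hη
  have hη0 : 0 ≤ η := by positivity
  have hηR : 5 * η * (R + 4) ^ 2 ≤ 1 := hφ
  have hη1 : η ≤ 1 := by nlinarith
  have hφR : |φ| * R ≤ 1 := by
    have h1 : |φ| ≤ η := by
      rw [hη]; nlinarith [abs_nonneg φ]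
    have h2 : |φ| * R ≤ η * R := mul_le_mul_of_nonneg_right h1 hR
    nlinarith
  set M : ℕ := ⌈R⌉₊ + 2 with hM
  have hMR : ∀ j : ℕ, j < M → (j : ℝ) ≤ R + 2 := by
    intro j hj
    have h1 : j ≤ ⌈R⌉₊ + 1 := by omega
    have h2 : (j : ℝ) ≤ (⌈R⌉₊ : ℝ) + 1 := by exact_mod_cast h1
    have h3 := (Nat.ceil_lt_add_one hR).le
    linarith
  have hncM : ∀ u : E, ‖u‖ ≤ 1 → ∀ x ∈ K, nc u x ≤ M := by
    intro u hu x hx
    have h4 : |⟪u, x⟫| ≤ ‖u‖ * ‖x‖ := abs_real_inner_le_norm u x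
    have h5 : |⟪u, x⟫| ≤ R := by
      have := hKR x hx
      nlinarith [norm_nonneg x, norm_nonneg u]
    have h6 : ⌈|⟪u, x⟫|⌉₊ ≤ ⌈R⌉₊ := Nat.ceil_le_ceil h5
    unfold nc
    omega
  -- directions
  let d : Bool × Option (Fin r) → E := fun q => match q.2 with
    | none => sg q.1 • θ
    | some i => sg q.1 • β i
  let n : Bool × Option (Fin r) → E → ℕ := fun q => match q.2 with
    | none => nc b
    | some _ => nc θ
  let ω : Bool × Option (Fin r) → E → ℝ≥0∞ := fun q => pv (η • d q)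
  set G : Set E := {x | x ∈ K ∧ rotL θ b φ x ∉ K} with hG
  have hrm : Measurable fun x : E => rotL θ b φ x := (rotE hON φ).continuous.measurable
  have hGm : MeasurableSet G := hKc.measurableSet.inter (hrm hKc.measurableSet.compl)
  have hGK : (K ∩ (rotL θ b φ) ⁻¹' K)ᶜ = Kᶜ ∪ G := by
    ext x
    simp only [mem_compl_iff, mem_inter_iff, mem_preimage, mem_union, hG, mem_setOf_eq]
    tauto
  have hsgW : ∀ (σ : Bool) {V : Submodule ℝ E} {v : E}, v ∈ V → sg σ • v ∈ V := fun σ V v hv =>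
    V.smul_mem _ hv
  have hdW : ∀ q, d q ∈ W := by
    rintro ⟨σ, (_ | i)⟩
    · exact hsgW σ hθW
    · exact hsgW σ (hβ i)
  have hd0 : ∀ q, d q ∈ W0ᗮ := by
    rintro ⟨σ, (_ | i)⟩
    · exact hsgW σ hθ0
    · exact hsgW σ (hβ0 i)
  have hdn : ∀ q, ‖d q‖ ≤ 1 := by
    rintro ⟨σ, (_ | i)⟩
    · show ‖sg σ • θ‖ ≤ 1
      rw [norm_smul, Real.norm_eq_abs, abs_sg, one_mul, hON.hp]
    · show ‖sg σ • β i‖ ≤ 1
      rw [norm_smul, Real.norm_eq_abs, abs_sg, one_mul]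
      exact hβn i
  have hnm : ∀ q, Measurable (n q) := by
    rintro ⟨σ, (_ | i)⟩
    · exact measurable_nc b
    · exact measurable_nc θ
  have hn : ∀ q x, n q (x + η • d q) = n q x := by
    rintro ⟨σ, (_ | i)⟩ x
    · show nc b (x + η • (sg σ • θ)) = nc b x
      unfold nc
      rw [inner_add_right, inner_smul_right, inner_smul_right, hON.qp]
      simp
    · show nc θ (x + η • (sg σ • β i)) = nc θ x
      unfold nc
      rw [inner_add_right, inner_smul_right, inner_smul_right, hβθ i]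
      simp
  have hdef : ∀ q x, A (x - η • d q) ^ th * dens (η • d q) x ≤ A x ^ th + ω q x * A x ^ th := by
    rintro ⟨σ, (_ | i)⟩ x
    · apply defectV hp hth.le hpth
      show GrowV A (η • (sg σ • θ)) p
      rw [smul_smul]
      exact hg1 _
    · apply defectV hp hth.le hpth
      show GrowV A (η • (sg σ • β i)) p
      rw [smul_smul]
      exact hg2 i _
  -- fibre directions
  let fσ : Bool → E := fun σ => sg σ • f
  let a : Bool → E → ℝ := fun _ x => η * (min |⟪θ, x⟫| R + 1)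
  have hfW : ∀ σ, fσ σ ∈ Wᗮ := fun σ => hsgW σ hf
  have hfσn : ∀ σ, ‖fσ σ‖ = 1 := fun σ => by
    show ‖sg σ • f‖ = 1
    rw [norm_smul, Real.norm_eq_abs, abs_sg, one_mul, hfn]
  have ham : ∀ σ, Measurable (a σ) := fun σ => by
    show Measurable fun x : E => η * (min |⟪θ, x⟫| R + 1)
    fun_prop
  have hmin0 : ∀ x : E, 0 ≤ min |⟪θ, x⟫| R := fun x => le_min (abs_nonneg _) hR
  have ha : ∀ σ x, 0 ≤ a σ x := fun σ x => by
    have := hmin0 x
    show 0 ≤ η * (min |⟪θ, x⟫| R + 1)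
    positivity
  have haR : ∀ σ x, a σ x * (R + 2) ≤ 1 := fun σ x => by
    show η * (min |⟪θ, x⟫| R + 1) * (R + 2) ≤ 1
    have h1 : min |⟪θ, x⟫| R ≤ R := min_le_right _ _
    have h2 : η * (min |⟪θ, x⟫| R + 1) ≤ η * (R + 1) :=
      mul_le_mul_of_nonneg_left (by linarith) hη0
    nlinarith
  have hainv : ∀ σ x, ∀ w ∈ Wᗮ, a σ (x + w) = a σ x := fun σ x w hw => by
    show η * (min |⟪θ, x + w⟫| R + 1) = η * (min |⟪θ, x⟫| R + 1)
    rw [inner_add_right, (Submodule.mem_orthogonal W w).mp hw θ hθW, add_zero]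
  have hleave : ∀ x ∈ G, x ∉ K ∨ (∃ q, ∃ j : ℕ, j ≤ M ∧ j ≤ n q x
      ∧ x + ((j : ℝ) * η) • d q ∉ K) ∨ ∃ σ, x ∈ K ∧ x + a σ x • fσ σ ∉ K := by
    rintro x ⟨hx, hrx⟩
    rcases rot_leave hK hR hKR hON hc hb hφR hx hrx with ⟨σ, h⟩ | ⟨i, σ, h⟩ | ⟨σ, h⟩
    · exact Or.inr (Or.inl ⟨(σ, none), nc b x, hncM b hON.hq.le x hx, le_rfl, h⟩)
    · exact Or.inr (Or.inl ⟨(σ, some i), nc θ x, hncM θ hON.hp.le x hx, le_rfl, h⟩)
    · refine Or.inr (Or.inr ⟨σ, hx, ?_⟩)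
      have h1 : |⟪θ, x⟫| ≤ R := by
        have h4 : |⟪θ, x⟫| ≤ ‖θ‖ * ‖x‖ := abs_real_inner_le_norm θ x
        rw [hON.hp, one_mul] at h4
        exact h4.trans (hKR x hx)
      show x + (η * (min |⟪θ, x⟫| R + 1)) • (sg σ • f) ∉ K
      rw [min_eq_left h1]
      exact h
  have hmain := thr_abs hW hKc hK hR hKR (d := d) hdW hd0 hη0 hnm hn hfW hfσn ham ha haR hainv
    hth hs hsum hA (ω := ω) (fun q => measurable_pv _) hdef hGm (M := M) hleave hfin
  rw [hGK]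
  refine hmain.trans (add_le_add_right ?_ _)
  set D0 : ℝ≥0∞ := fib W0 (Kᶜ.indicator 1) x0 with hD0
  set Y : ℝ≥0∞ := Λ ^ th * Psi s (2 * D0) with hY
  have hηt : ENNReal.ofReal η ≠ ⊤ := ENNReal.ofReal_ne_top
  -- label directions
  have hlab : ∀ q, ∑ j ∈ Finset.range M, fib W0 (fun x => ω q x ^ (1 / th) * A x) x0 ^ th
      * fib W0 ((Tset K (d q) η (n q) j).indicator 1) x0 ^ s ≤ ENNReal.ofReal η * (2 * Y) := by
    intro q
    rw [← Finset.mul_sum]
    have h1 : fib W0 (fun x => ω q x ^ (1 / th) * A x) x0 ^ th ≤ ENNReal.ofReal η * Λ ^ th := by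
      obtain ⟨σ, (_ | i)⟩ := q
      · apply mom_le hth hηt _ hA hΛ1
        intro x
        show pv (η • (sg σ • θ)) x ≤ _
        rw [smul_smul]
        exact pv_le_ew hη0 hη1 (by rw [abs_mul, abs_sg, mul_one, abs_of_nonneg hη0]) x
      · apply mom_le hth hηt _ hA (hΛ2 i)
        intro x
        show pv (η • (sg σ • β i)) x ≤ _
        rw [smul_smul]
        exact pv_le_ew hη0 hη1 (by rw [abs_mul, abs_sg, mul_one, abs_of_nonneg hη0]) x
    have h2 : ∑ j ∈ Finset.range M, fib W0 ((Tset K (d q) η (n q) j).indicator 1) x0 ^ s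
        ≤ 2 * Psi s (2 * D0) := by
      apply sum_pg_le hs
      · intro j
        have h3 : ∀ y, (Tset K (d q) η (n q) j).indicator (1 : E → ℝ≥0∞) y
            ≤ ({y | j < n q y}).indicator 1 y := fun y =>
          indicator_le_indicator_of_subset (fun z hz => hz.1) (fun _ => zero_le) y
        refine (fib_mono h3 x0).trans ?_
        obtain ⟨σ, (_ | i)⟩ := q
        · exact fib_nc hb0 hON.hq j x0
        · exact fib_nc hθ0 hON.hp j x0
      · intro j hj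
        apply tset_mass hKc hK hR hKR (hd0 q) hθ0 hON.hp hη0 (hnm q) j
        have h4 := hMR j hj
        have h5 := hdn q
        have h6 : (j : ℝ) * η * ‖d q‖ ≤ (R + 2) * η := by
          have h7 : 0 ≤ (j : ℝ) * η := by positivity
          calc (j : ℝ) * η * ‖d q‖ ≤ (j : ℝ) * η * 1 := mul_le_mul_of_nonneg_left h5 h7
            _ ≤ (R + 2) * η := by rw [mul_one]; exact mul_le_mul_of_nonneg_right h4 hη0
        calc 5 * ((j : ℝ) * η * ‖d q‖) * (R + 4) ≤ 5 * ((R + 2) * η) * (R + 4) := by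
              apply mul_le_mul_of_nonneg_right _ (by linarith)
              linarith
          _ ≤ 5 * η * (R + 4) ^ 2 := by nlinarith
          _ ≤ 1 := hηR
    calc fib W0 (fun x => ω q x ^ (1 / th) * A x) x0 ^ th
          * ∑ j ∈ Finset.range M, fib W0 ((Tset K (d q) η (n q) j).indicator 1) x0 ^ s
        ≤ (ENNReal.ofReal η * Λ ^ th) * (2 * Psi s (2 * D0)) := mul_le_mul' h1 h2
      _ = ENNReal.ofReal η * (2 * Y) := by rw [hY]; ring
  -- fibre directions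
  have hfib : ∀ σ : Bool, fib W0 (fun x => ENNReal.ofReal (5 * a σ x) ^ (1 / th) * A x) x0 ^ th
      * Psi s D0 ≤ ENNReal.ofReal η * (5 * Y) := by
    intro σ
    have h1 : fib W0 (fun x => ENNReal.ofReal (5 * a σ x) ^ (1 / th) * A x) x0 ^ th
        ≤ ENNReal.ofReal (5 * η) * Λ ^ th := by
      apply mom_le hth ENNReal.ofReal_ne_top _ hA hΛ1
      intro x
      unfold ew
      rw [← ENNReal.ofReal_mul (by positivity)]
      apply ENNReal.ofReal_le_ofReal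
      show 5 * (η * (min |⟪θ, x⟫| R + 1)) ≤ 5 * η * ((1 + |⟪θ, x⟫|) * Real.exp |⟪θ, x⟫|)
      have h2 : min |⟪θ, x⟫| R ≤ |⟪θ, x⟫| := min_le_left _ _
      have h3 : 1 ≤ Real.exp |⟪θ, x⟫| := Real.one_le_exp (abs_nonneg _)
      have h4 : min |⟪θ, x⟫| R + 1 ≤ (1 + |⟪θ, x⟫|) * Real.exp |⟪θ, x⟫| := by
        nlinarith [abs_nonneg ⟪θ, x⟫]
      calc 5 * (η * (min |⟪θ, x⟫| R + 1)) = 5 * η * (min |⟪θ, x⟫| R + 1) := by ring
        _ ≤ _ := mul_le_mul_of_nonneg_left h4 (by positivity)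
    have h2 : Psi s D0 ≤ Psi s (2 * D0) := Psi_mono hs.le (by
      rw [two_mul]; exact le_self_add)
    calc fib W0 (fun x => ENNReal.ofReal (5 * a σ x) ^ (1 / th) * A x) x0 ^ th * Psi s D0
        ≤ (ENNReal.ofReal (5 * η) * Λ ^ th) * Psi s (2 * D0) := mul_le_mul' h1 h2
      _ = ENNReal.ofReal η * (5 * Y) := by
          rw [hY, ENNReal.ofReal_mul (by norm_num)]
          norm_num
          ring
  have h1 : (∑ q, ∑ j ∈ Finset.range M, fib W0 (fun x => ω q x ^ (1 / th) * A x) x0 ^ th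
      * fib W0 ((Tset K (d q) η (n q) j).indicator 1) x0 ^ s)
      ≤ ((2 * (r + 1) : ℕ) : ℝ≥0∞) * (ENNReal.ofReal η * (2 * Y)) := by
    refine (Finset.sum_le_sum fun q _ => hlab q).trans ?_
    rw [Finset.sum_const, Finset.card_univ, Fintype.card_prod, Fintype.card_bool,
      Fintype.card_option, Fintype.card_fin, nsmul_eq_mul]
  have h2 : (∑ σ : Bool, fib W0 (fun x => ENNReal.ofReal (5 * a σ x) ^ (1 / th) * A x) x0 ^ th
      * Psi s D0) ≤ 2 * (ENNReal.ofReal η * (5 * Y)) := by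
    refine (Finset.sum_le_sum fun σ _ => hfib σ).trans ?_
    rw [Finset.sum_const, Finset.card_univ, Fintype.card_bool, nsmul_eq_mul]
    norm_num
  refine (add_le_add h1 h2).trans ?_
  have e1 : ((2 * (r + 1) : ℕ) : ℝ≥0∞) * (ENNReal.ofReal η * (2 * Y))
      + 2 * (ENNReal.ofReal η * (5 * Y))
      = ENNReal.ofReal ((4 * ((r : ℝ) + 1) + 10) * η) * Y := by
    have e2 : ((2 * (r + 1) : ℕ) : ℝ≥0∞) = ENNReal.ofReal (2 * ((r : ℝ) + 1)) := by
      rw [← ENNReal.ofReal_natCast]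
      push_cast
      rfl
    have e3 : ENNReal.ofReal ((4 * ((r : ℝ) + 1) + 10) * η)
        = (ENNReal.ofReal (2 * ((r : ℝ) + 1)) * 2 + 10) * ENNReal.ofReal η := by
      rw [ENNReal.ofReal_mul (by positivity), ENNReal.ofReal_add (by positivity) (by norm_num)]
      have e4 : 4 * ((r : ℝ) + 1) = 2 * ((r : ℝ) + 1) * 2 := by ring
      rw [e4, ENNReal.ofReal_mul (by positivity)]
      norm_num
    rw [e2, e3]
    ring
  rw [e1]
  apply mul_le_mul_left
  apply ENNReal.ofReal_le_ofReal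
  rw [hη]
  have h3 : (4 * ((r : ℝ) + 1) + 10) * k ≤ 10 * k ^ 2 := by
    have : 4 * ((r : ℝ) + 1) + 10 ≤ 10 * k := by rw [hk]; linarith [Nat.cast_nonneg (α := ℝ) r]
    nlinarith
  calc (4 * ((r : ℝ) + 1) + 10) * (k * |φ|) = ((4 * ((r : ℝ) + 1) + 10) * k) * |φ| := by ring
    _ ≤ 10 * k ^ 2 * |φ| := mul_le_mul_of_nonneg_right h3 (abs_nonneg _)

end Vale.Agent.P262.H837
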