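import Vale.Agent.P262.H837.ThrC

/-!
# P262, block THR (sharp throughput), part D: the fibre direction
-/

set_option linter.all false

open MeasureTheory ProbabilityTheory Set
open scoped ENNReal RealInnerProductSpace Pointwise

namespace Vale.Agent.P262.H837

open Vale.Agent.P262.H395

/-- two-sided Gaussian tails at the integers -/
noncomputable def pg (m : ℕ) : ℝ≥0∞ := gaussianReal 0 1 {y : ℝ | (m : ℝ) < |y|}

lemma pg_zero : pg 0 = 1 := by
  unfold pg
  haveI : NullSingletonClass (gaussianReal 0 1) := nullSingletonClass_gaussianReal one_ne_zero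
  have h1 : {y : ℝ | ((0 : ℕ) : ℝ) < |y|} = {0}ᶜ := by
    ext y
    simp
  rw [h1, prob_compl_eq_one_iff (measurableSet_singleton 0)]
  exact measure_singleton 0

/-- the layer-cake functional: `D` times the square root of `log (1/D)` for `s = 1` -/
noncomputable def Psi (s : ℝ) (D : ℝ≥0∞) : ℝ≥0∞ := ∑' m : ℕ, min D (pg m) ^ s

lemma gauss_slab {R a : ℝ} (hR : 0 ≤ R) (ha : 0 ≤ a) :
    gaussianReal 0 1 (Ioc (R + 1) (R + 1 + a)) ≤ ENNReal.ofReal a * gaussianReal 0 1 (Ioc R (R + 1)) := by
  have hanti : ∀ x y : ℝ, 0 ≤ x → x ≤ y → gaussianPDF 0 1 y ≤ gaussianPDF 0 1 x := by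
    intro x y hx hxy
    unfold gaussianPDF
    apply ENNReal.ofReal_le_ofReal
    unfold gaussianPDFReal
    apply mul_le_mul_of_nonneg_left _ (by positivity)
    apply Real.exp_le_exp.mpr
    apply div_le_div_of_nonneg_right _ (by positivity)
    nlinarith
  rw [gaussianReal_apply 0 one_ne_zero, gaussianReal_apply 0 one_ne_zero]
  have h1 : ∫⁻ x in Ioc (R + 1) (R + 1 + a), gaussianPDF 0 1 x
      ≤ ∫⁻ x in Ioc (R + 1) (R + 1 + a), gaussianPDF 0 1 (R + 1) := by
    apply setLIntegral_mono measurable_const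
    intro x hx
    exact hanti _ _ (by linarith) hx.1.le
  have h2 : ∫⁻ x in Ioc R (R + 1), gaussianPDF 0 1 (R + 1)
      ≤ ∫⁻ x in Ioc R (R + 1), gaussianPDF 0 1 x := by
    apply setLIntegral_mono (measurable_gaussianPDF 0 1)
    intro x hx
    exact hanti _ _ (by linarith [hx.1]) hx.2
  rw [setLIntegral_const, Real.volume_Ioc] at h1 h2
  have e1 : R + 1 + a - (R + 1) = a := by ring
  have e2 : R + 1 - R = 1 := by ring
  rw [e1] at h1
  rw [e2, ENNReal.ofReal_one, mul_one] at h2
  refine h1.trans ?_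
  rw [mul_comm]
  exact mul_le_mul_right h2 _

variable {E : Type*} [NormedAddCommGroup E] [InnerProductSpace ℝ E] [FiniteDimensional ℝ E]
  [MeasurableSpace E] [BorelSpace E]

lemma inner_mix_perp {W : Submodule ℝ E} {f : E} (hf : f ∈ Wᗮ) (x z : E) :
    ⟪f, mix W x z⟫ = ⟪f, z⟫ := by
  have hp : W.starProjection f = 0 := proj_eq_zero hf
  have h2 : ∀ y, ⟪f, W.starProjection y⟫ = 0 := fun y => by
    rw [← Submodule.inner_starProjection_left_eq_right, hp, inner_zero_left]
  unfold mix
  rw [inner_add_right, inner_sub_right, h2, h2]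
  ring

/-- the law of a fibre coordinate -/
lemma fib_inner {W : Submodule ℝ E} {f : E} (hf : f ∈ Wᗮ) (hn : ‖f‖ = 1) {S : Set ℝ}
    (hS : MeasurableSet S) (x : E) :
    fib W ({y : E | ⟪f, y⟫ ∈ S}.indicator 1) x = gaussianReal 0 1 S := by
  unfold fib
  have e1 : ∀ z, ({y : E | ⟪f, y⟫ ∈ S}.indicator (1 : E → ℝ≥0∞)) (mix W x z)
      = ({z : E | ⟪f, z⟫ ∈ S}.indicator (1 : E → ℝ≥0∞)) z := by
    intro z
    by_cases h : ⟪f, z⟫ ∈ S
    · rw [indicator_of_mem (show mix W x z ∈ {y : E | ⟪f, y⟫ ∈ S} by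
        show ⟪f, mix W x z⟫ ∈ S
        rw [inner_mix_perp hf]; exact h), indicator_of_mem (show z ∈ {z : E | ⟪f, z⟫ ∈ S} from h)]
      rfl
    · rw [indicator_of_notMem (show mix W x z ∉ {y : E | ⟪f, y⟫ ∈ S} by
        show ¬ ⟪f, mix W x z⟫ ∈ S
        rw [inner_mix_perp hf]; exact h), indicator_of_notMem (show z ∉ {z : E | ⟪f, z⟫ ∈ S} from h)]
  simp_rw [e1]
  have hm : MeasurableSet {z : E | ⟪f, z⟫ ∈ S} := by
    have : Measurable fun z : E => ⟪f, z⟫ := by fun_prop
    exact this hS
  rw [lintegral_indicator_one hm]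
  have h2 := Vale.Agent.P262.H912.map_inner_stdGaussian f
  rw [hn] at h2
  have h3 : ((1 : ℝ) ^ 2).toNNReal = 1 := by norm_num
  rw [h3] at h2
  rw [← h2, Measure.map_apply (by fun_prop) hS]
  rfl

lemma fib_tail {W : Submodule ℝ E} {f : E} (hf : f ∈ Wᗮ) (hn : ‖f‖ = 1) (m : ℕ) (x : E) :
    fib W ({y : E | (m : ℝ) < |⟪f, y⟫|}.indicator 1) x = pg m := by
  have hS : MeasurableSet {y : ℝ | (m : ℝ) < |y|} := measurableSet_lt measurable_const
    (by fun_prop)
  exact fib_inner hf hn hS x

lemma abs_le_tsum (y : ℝ) :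
    ENNReal.ofReal |y| ≤ ∑' m : ℕ, if (m : ℝ) < |y| then (1 : ℝ≥0∞) else 0 := by
  have h1 : (∑ m ∈ Finset.range ⌈|y|⌉₊, if (m : ℝ) < |y| then (1 : ℝ≥0∞) else 0)
      = (⌈|y|⌉₊ : ℝ≥0∞) := by
    rw [Finset.sum_congr rfl (g := fun _ => (1 : ℝ≥0∞))]
    · simp
    · intro m hm
      rw [Finset.mem_range, Nat.lt_ceil] at hm
      rw [if_pos hm]
  calc ENNReal.ofReal |y| ≤ ENNReal.ofReal (⌈|y|⌉₊ : ℝ) := ENNReal.ofReal_le_ofReal (Nat.le_ceil _)
    _ = (⌈|y|⌉₊ : ℝ≥0∞) := ENNReal.ofReal_natCast _
    _ = _ := h1.symm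
    _ ≤ _ := ENNReal.sum_le_tsum _

/-- **fibre direction**: moving by `a f`, `f` in the fibre, kills at most `5 a Psi 1 D`. -/
theorem fibre_dir {W : Submodule ℝ E} {f : E} (hf : f ∈ Wᗮ) (hn : ‖f‖ = 1) {K : Set E}
    (hKc : IsCompact K) (hK : Convex ℝ K) {R : ℝ} (hR : 0 ≤ R) (hKR : ∀ x ∈ K, ‖x‖ ≤ R) {a : ℝ}
    (ha : 0 ≤ a) (haR : a * (R + 2) ≤ 1) (x : E) :
    fib W ({y | y ∈ K ∧ y + a • f ∉ K}.indicator 1) x
      ≤ ENNReal.ofReal (5 * a) * Psi 1 (fib W (Kᶜ.indicator 1) x) := by
  have ha1 : a ≤ 1 := by nlinarith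
  set D := fib W (Kᶜ.indicator 1) x with hD
  set S := shd K f with hS
  have hSm : MeasurableSet S := measurableSet_shd hKc f
  have hfm : Measurable fun z : E => ⟪f, z⟫ := by fun_prop
  set L : Set E := {y | y ∈ K ∧ y + a • f ∉ K} with hL
  have hLm : MeasurableSet L := hKc.measurableSet.inter
    ((measurable_id.add_const _) hKc.measurableSet.compl)
  set T : Set E := S ∩ {y | ⟪f, y⟫ ≤ R + 1} with hT
  have hTm : MeasurableSet T := hSm.inter (measurableSet_le hfm measurable_const)
  set T' : Set E := S ∩ {y | ⟪f, y⟫ ≤ R + 1 + a} with hT'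
  have hTm' : MeasurableSet T' := hSm.inter (measurableSet_le hfm measurable_const)
  set V : Set E := {y | ⟪f, y⟫ ∈ Ioc (R + 1) (R + 1 + a)} with hV
  have hVm : MeasurableSet V := hfm measurableSet_Ioc
  have hff : ⟪f, f⟫ = (1 : ℝ) := by rw [real_inner_self_eq_norm_sq, hn]; norm_num
  have hin : ∀ y, ⟪f, y + a • f⟫ = ⟪f, y⟫ + a := by
    intro y
    rw [inner_add_right, inner_smul_right, hff, mul_one]
  -- the pointwise inequality
  have hpt : ∀ y, L.indicator (1 : E → ℝ≥0∞) y + T.indicator 1 y ≤ T'.indicator 1 (y + a • f) := by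
    intro y
    by_cases h1 : y ∈ T
    · have h2 : y ∉ L := fun h => shd_subset K f h1.1 h.1
      have h3 : y + a • f ∈ T' := by
        refine ⟨shd_add h1.1 ha, ?_⟩
        show ⟪f, y + a • f⟫ ≤ R + 1 + a
        rw [hin]
        have : ⟪f, y⟫ ≤ R + 1 := h1.2
        linarith
      rw [indicator_of_mem h1, indicator_of_notMem h2, indicator_of_mem h3, zero_add]
      simp
    · rw [indicator_of_notMem h1, add_zero]
      by_cases h2 : y ∈ L
      · have h3 : y + a • f ∈ T' := by
          refine ⟨mem_shd_of_leave hK ha h2.1 h2.2, ?_⟩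
          show ⟪f, y + a • f⟫ ≤ R + 1 + a
          rw [hin]
          have h4 : ⟪f, y⟫ ≤ ‖f‖ * ‖y‖ := real_inner_le_norm f y
          rw [hn, one_mul] at h4
          have := hKR y h2.1
          linarith
        rw [indicator_of_mem h2, indicator_of_mem h3]
        simp
      · rw [indicator_of_notMem h2]; exact zero_le
  -- integrate
  have hi : fib W (L.indicator 1) x + fib W (T.indicator 1) x
      ≤ fib W (fun y => T'.indicator 1 y * dens (a • f) y) x := by
    rw [← fib_shift (F := T'.indicator 1) (measurable_one.indicator hTm') (Wᗮ.smul_mem a hf),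
      ← fib_add (measurable_one.indicator hLm)]
    exact fib_mono hpt x
  -- density bound
  have hdens : ∀ y, T'.indicator (1 : E → ℝ≥0∞) y * dens (a • f) y
      ≤ T.indicator 1 y + V.indicator 1 y
        + ENNReal.ofReal (3 * a) * (S.indicator 1 y * ENNReal.ofReal |⟪f, y⟫|) := by
    intro y
    by_cases h1 : y ∈ T'
    · rw [indicator_of_mem h1, indicator_of_mem (show y ∈ S from h1.1)]
      simp only [Pi.one_apply, one_mul]
      have h2 : (1 : ℝ≥0∞) ≤ T.indicator 1 y + V.indicator 1 y := by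
        by_cases h3 : ⟪f, y⟫ ≤ R + 1
        · rw [indicator_of_mem (show y ∈ T from ⟨h1.1, h3⟩)]
          simp
        · rw [indicator_of_mem (show y ∈ V from ⟨not_le.mp h3, h1.2⟩)]
          simp
      have h3 : dens (a • f) y ≤ 1 + ENNReal.ofReal (3 * a) * ENNReal.ofReal |⟪f, y⟫| := by
        unfold dens
        rw [← ENNReal.ofReal_mul (by positivity), ← ENNReal.ofReal_one,
          ← ENNReal.ofReal_add zero_le_one (by positivity)]
        apply ENNReal.ofReal_le_ofReal
        rw [real_inner_smul_left, norm_smul, hn, Real.norm_eq_abs, abs_of_nonneg ha, mul_one]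
        set t := ⟪f, y⟫ with ht
        have h4 : t ≤ R + 1 + a := h1.2
        have h5 : a * t ≤ 1 := by nlinarith
        have h6 : a * t ≤ a * |t| := mul_le_mul_of_nonneg_left (le_abs_self t) ha
        rcases le_total (a * t) 0 with h7 | h7
        · have : Real.exp (a * t - a ^ 2 / 2) ≤ 1 := by
            rw [Real.exp_le_one_iff]
            nlinarith [sq_nonneg a]
          have h8 : 0 ≤ 3 * a * |t| := by positivity
          linarith
        · have h8 : Real.exp (a * t - a ^ 2 / 2) ≤ Real.exp (a * t) :=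
            Real.exp_le_exp.mpr (by nlinarith [sq_nonneg a])
          have h9 : Real.exp (a * t) ≤ 1 + 3 * (a * t) := by
            have h10 : (1 - a * t) * Real.exp (a * t) ≤ 1 := by
              have h11 : 1 - a * t ≤ Real.exp (-(a * t)) := by
                have := Real.add_one_le_exp (-(a * t)); linarith
              calc (1 - a * t) * Real.exp (a * t)
                  ≤ Real.exp (-(a * t)) * Real.exp (a * t) :=
                    mul_le_mul_of_nonneg_right h11 (Real.exp_pos _).le
                _ = 1 := by rw [← Real.exp_add]; simp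
            have h12 : Real.exp (a * t) ≤ 3 := by
              have := Real.exp_le_exp.mpr h5
              have := Real.exp_one_lt_d9
              linarith
            nlinarith
          nlinarith
      calc dens (a • f) y ≤ 1 + ENNReal.ofReal (3 * a) * ENNReal.ofReal |⟪f, y⟫| := h3
        _ ≤ _ := add_le_add_left h2 _
    · rw [indicator_of_notMem h1, zero_mul]
      exact zero_le
  have hSD : fib W (S.indicator 1) x ≤ D := by
    apply fib_mono
    intro y
    exact indicator_le_indicator_of_subset (shd_subset K f) (fun _ => zero_le) y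
  have hVle : fib W (V.indicator 1) x ≤ ENNReal.ofReal a * D := by
    have h1 : fib W (V.indicator 1) x = gaussianReal 0 1 (Ioc (R + 1) (R + 1 + a)) :=
      fib_inner hf hn measurableSet_Ioc x
    rw [h1]
    refine (gauss_slab hR ha).trans (mul_le_mul_right ?_ _)
    rw [← fib_inner (W := W) hf hn measurableSet_Ioc x]
    apply fib_mono
    intro y
    apply indicator_le_indicator_of_subset _ (fun _ => zero_le) y
    intro z hz hzK
    have h4 : ⟪f, z⟫ ≤ ‖f‖ * ‖z‖ := real_inner_le_norm f z
    rw [hn, one_mul] at h4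
    have := hKR z hzK
    have h5 : R < ⟪f, z⟫ := hz.1
    linarith
  have hSf : fib W (fun y => S.indicator 1 y * ENNReal.ofReal |⟪f, y⟫|) x ≤ Psi 1 D := by
    have h1 : ∀ y, S.indicator (1 : E → ℝ≥0∞) y * ENNReal.ofReal |⟪f, y⟫|
        ≤ ∑' m : ℕ, (S ∩ {y | (m : ℝ) < |⟪f, y⟫|}).indicator (1 : E → ℝ≥0∞) y := by
      intro y
      by_cases hy : y ∈ S
      · rw [indicator_of_mem hy]
        simp only [Pi.one_apply, one_mul]
        refine (abs_le_tsum _).trans (ENNReal.tsum_le_tsum fun m => ?_)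
        by_cases hm : (m : ℝ) < |⟪f, y⟫|
        · rw [if_pos hm, indicator_of_mem (show y ∈ S ∩ {y | (m : ℝ) < |⟪f, y⟫|} from ⟨hy, hm⟩)]
          simp
        · rw [if_neg hm]; exact zero_le
      · rw [indicator_of_notMem hy, zero_mul]; exact zero_le
    have hmm : ∀ m : ℕ, MeasurableSet (S ∩ {y : E | (m : ℝ) < |⟪f, y⟫|}) := fun m =>
      hSm.inter (measurableSet_lt measurable_const (by fun_prop))
    refine (fib_mono h1 x).trans ?_
    have h2 : fib W (fun y => ∑' m : ℕ,
        (S ∩ {y | (m : ℝ) < |⟪f, y⟫|}).indicator (1 : E → ℝ≥0∞) y) x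
        = ∑' m : ℕ, fib W ((S ∩ {y | (m : ℝ) < |⟪f, y⟫|}).indicator (1 : E → ℝ≥0∞)) x := by
      unfold fib
      exact lintegral_tsum (fun m => ((measurable_one.indicator (hmm m)).comp
        (measurable_mix_right W x)).aemeasurable)
    rw [h2]
    unfold Psi
    apply ENNReal.tsum_le_tsum
    intro m
    rw [ENNReal.rpow_one]
    apply le_min
    · refine le_trans ?_ hSD
      exact fib_mono (fun y => indicator_le_indicator_of_subset inter_subset_left
        (fun _ => zero_le) y) x
    · rw [← fib_tail (W := W) hf hn m x]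
      exact fib_mono (fun y => indicator_le_indicator_of_subset inter_subset_right
        (fun _ => zero_le) y) x
  have hmS : Measurable fun y : E => S.indicator (1 : E → ℝ≥0∞) y * ENNReal.ofReal |⟪f, y⟫| :=
    (measurable_one.indicator hSm).mul (by fun_prop)
  have hfin : fib W (T.indicator 1) x ≠ ⊤ := by
    have : fib W (T.indicator 1) x ≤ 1 := fib_le_one (fun y => by
      by_cases h : y ∈ T
      · rw [indicator_of_mem h]; simp
      · rw [indicator_of_notMem h]; exact zero_le) x
    exact ne_top_of_le_ne_top ENNReal.one_ne_top this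
  have hsum : fib W (fun y => T'.indicator 1 y * dens (a • f) y) x
      ≤ fib W (T.indicator 1) x + fib W (V.indicator 1) x
        + ENNReal.ofReal (3 * a) * Psi 1 D := by
    refine (fib_mono hdens x).trans ?_
    rw [fib_add (f := fun y => T.indicator 1 y + V.indicator 1 y)
      ((measurable_one.indicator hTm).add (measurable_one.indicator hVm)),
      fib_add (measurable_one.indicator hTm)]
    refine add_le_add_right ?_ _
    rw [fib_mul (inv_const W _) hmS]
    exact mul_le_mul_right hSf _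
  have h5 : fib W (L.indicator 1) x + fib W (T.indicator 1) x
      ≤ (ENNReal.ofReal a * D + ENNReal.ofReal (3 * a) * Psi 1 D) + fib W (T.indicator 1) x := by
    refine (hi.trans hsum).trans ?_
    calc fib W (T.indicator 1) x + fib W (V.indicator 1) x + ENNReal.ofReal (3 * a) * Psi 1 D
        ≤ fib W (T.indicator 1) x + ENNReal.ofReal a * D + ENNReal.ofReal (3 * a) * Psi 1 D :=
          add_le_add_left (add_le_add_right hVle _) _
      _ = _ := by ring
  have h6 := (ENNReal.add_le_add_iff_right hfin).mp h5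
  refine h6.trans ?_
  have h7 : D ≤ Psi 1 D := by
    have hD1 : D ≤ 1 := fib_le_one (fun y => by
      by_cases h : y ∈ Kᶜ
      · rw [indicator_of_mem h]; simp
      · rw [indicator_of_notMem h]; exact zero_le) x
    have h8 : D = min D (pg 0) ^ (1 : ℝ) := by
      rw [pg_zero, ENNReal.rpow_one, min_eq_left hD1]
    calc D = min D (pg 0) ^ (1 : ℝ) := h8
      _ ≤ Psi 1 D := ENNReal.le_tsum 0
  calc ENNReal.ofReal a * D + ENNReal.ofReal (3 * a) * Psi 1 D
      ≤ ENNReal.ofReal a * Psi 1 D + ENNReal.ofReal (3 * a) * Psi 1 D :=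
        add_le_add_left (mul_le_mul_right h7 _) _
    _ = ENNReal.ofReal (a + 3 * a) * Psi 1 D := by
        rw [ENNReal.ofReal_add ha (by positivity), add_mul]
    _ ≤ ENNReal.ofReal (5 * a) * Psi 1 D := by
        apply mul_le_mul_left
        apply ENNReal.ofReal_le_ofReal
        linarith

end Vale.Agent.P262.H837
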