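import Vale.Agent.P262.H837.AsmA
import Vale.Agent.P262.H837.ThrD
import Vale.Agent.P262.H998.LaySum2
import Vale.Agent.P262.H711.Inst

/-!
# P262, milestone 2, THR: the direction `θ` of a rotation
-/

set_option linter.all false

open MeasureTheory ProbabilityTheory Set
open scoped ENNReal RealInnerProductSpace
open Vale.Agent.P262.H118 (ly0 lyd ly1 nv sg la la_add measurableSet_la measurableSet_lyd nv_mem
  mem_sg)
open Vale.Agent.P262.H395 (fib mix Inv inv_fib measurable_fib fib_mono fib_tower)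
open Vale.Agent.P262.H711 (tau measurable_tau)

namespace Vale.Agent.P262.M2.Sys

variable {E : Type*} [NormedAddCommGroup E] [InnerProductSpace ℝ E] [FiniteDimensional ℝ E]
  [MeasurableSpace E] [BorelSpace E] {S : Sys E}
variable {m : ℕ} {q : List ℕ} {θ : E} {b : List ℕ → E} {c : ℕ} {p : List ℕ}

lemma RotB.not_leaf (H : S.RotB m (c :: p) θ b) : ¬ S.Leaf p m := by
  intro hl
  have h1 : S.W (c :: p) m = S.W p m := W_leaf hl c
  have h2 : θ ∈ S.W p m := by rw [← h1]; exact H.mem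
  have h3 : ⟪θ, θ⟫ = (0 : ℝ) := Submodule.inner_right_of_mem_orthogonal h2 H.perp
  rw [real_inner_self_eq_norm_sq, (H.on _ (List.suffix_refl _)).hp] at h3
  norm_num at h3

/-- mass of a layer at the parent -/
theorem RotB.layer_mass (H : S.RotB m (c :: p) θ b) (a : ℕ) (x : E) :
    fib (S.W p m) (S.mu (c :: p) (la (b (c :: p)) a) (c :: p) m) x ≤ H998.pp a := by
  have hl := measurableSet_la (b (c :: p)) a
  have h1 : fib (S.W p m) (S.mu (c :: p) (la (b (c :: p)) a) (c :: p) m) x =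
      fib (S.W p m) ((la (b (c :: p)) a).indicator 1) x := by
    unfold mu
    rw [fib_tower (S.W_le c p m) (measurable_one.indicator (measurableSet_tr hl))]
    congr 2
    ext y
    rw [mem_preimage, tr_self]
  have hM : MeasurableSet {t : ℝ | (2:ℝ) ^ a ≤ 1 + |t|} :=
    measurableSet_le measurable_const (by fun_prop)
  rw [h1]
  have hb : b (c :: p) ∈ (S.W p m)ᗮ :=
    Submodule.orthogonal_le (S.W_le c p m) (H.bperp _ (List.suffix_refl _))
  rw [H998.pp, ← H837.fib_inner hb (H.norm_b (List.suffix_refl _)) hM x]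
  refine fib_mono (fun y => ?_) x
  exact indicator_le_indicator_of_subset (fun z hz => hz.1) (fun _ => zero_le) y

/-- the payoffs of 711 and of the split -/
lemma gTa_eq_gq (hm : S.mv.IsRot m) (hq : S.mv.jj m = q) (hθ : θ ∈ S.W q m) (bq : E) (o : Bool)
    (ε : ℝ) (a : ℕ) {r : List ℕ} (hr : q <:+ r) (y : E) : S.gTa m q θ bq o ε a r y =
      S.gq m o q (la bq a) (ε • θ) (4 * S.mv.ph m * 2 ^ a) r y := by
  unfold gTa gq gB mu
  rw [tr_lyd_bd hm (hq ▸ List.suffix_refl _) hr ((S.W q m).smul_mem _ hθ)]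
  cases o <;> rfl

lemma norm_sg {ε : ℝ} (h : ε ∈ sg) {e : E} (he : ‖e‖ = 1) : ‖ε • e‖ = 1 := by
  rcases mem_sg.1 h with rfl | rfl
  · rw [one_smul, he]
  · rw [norm_smul, he]; norm_num

/-- one layer of the direction `θ` -/
theorem theta_one (H : S.RotB m (c :: p) θ b) (hmT : S.mv.tm m < S.T) (hm : S.mv.IsRot m)
    (hth : S.th = 1 / 2) (hk : S.kq ≤ 1) (hq : S.mv.jj m = c :: p) (n : ℕ) {x : E}
    (hc : S.kl p m x = c) (o : Bool) {ε : ℝ} (hε : ε ∈ sg) (a : ℕ) :
    fib (S.W p m) (fun y => S.cw (c :: p) m y *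
      tau (S.fam m) (S.gTa m (c :: p) θ (b (c :: p)) o ε a) n (c :: p) y) x ≤
    ENNReal.ofReal (320 * S.mv.ph m) * ((12 * ENNReal.ofReal S.kq) ^ n *
      ENNReal.ofReal (S.kq ^ (Module.finrank ℝ (S.W (c :: p) m) - Module.finrank ℝ (S.W p m)))) *
      (2 ^ a * min (S.Dk c p m x ^ (1 / 2 : ℝ))
        (S.Dk c p m x ^ (1 / 4 : ℝ) * H998.pp a ^ (1 / 4 : ℝ))) := by
  set q := c :: p with hqdef
  have hph := S.mv.ph_nonneg m
  set d := Module.finrank ℝ (S.W (c :: p) m) - Module.finrank ℝ (S.W p m) with hd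
  have e0 : ∀ y, tau (S.fam m) (S.gTa m q θ (b q) o ε a) n q y =
      tau (S.fam m) (S.gq m o q (la (b q) a) (ε • θ) (4 * S.mv.ph m * 2 ^ a)) n q y := fun y =>
    H837.tau_congr_of (F := S.fam m) (Q := fun _ r => q <:+ r)
      (fun k r x hr _ => hr.trans (List.suffix_cons _ _))
      (fun r hr x => gTa_eq_gq hm hq H.mem _ o ε a hr x) n q (List.suffix_refl _) y
  simp only [e0]
  rcases hph.eq_or_lt with h0 | hpos
  · -- no rotation
    have hz : ∀ y, tau (S.fam m) (S.gq m o q (la (b q) a) (ε • θ) (4 * S.mv.ph m * 2 ^ a)) n q y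
        ≤ tau (S.fam m) (fun _ _ => 0) n q y := fun y => by
      refine H837.tau_mono (F := S.fam m) (fun r z => ?_) n q y
      have h1 : ∀ (K K1 L : Set E) (e : E), H716.gone K K1 L e 0 = ∅ := by
        intro K K1 L e
        ext w
        simp only [H716.gone, mem_setOf_eq, zero_smul, add_zero, mem_empty_iff_false, iff_false]
        rintro ⟨-, h1, -, h2⟩
        exact h2 h1
      unfold gq gB
      rw [← h0]
      simp only [mul_zero, zero_mul, h1, ite_self, indicator_empty]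
      have h2 : fib (S.W r m) (0 : E → ℝ≥0∞) z = 0 := H395.fib_const _ 0 z
      have h3 : (fun _ => 0 : E → ℝ≥0∞) = 0 := rfl
      rw [h3, h2, ENNReal.zero_div]
    have hz2 : ∀ y, tau (S.fam m) (fun _ _ => (0 : ℝ≥0∞)) n q y = 0 := fun y => by
      have := H837.tau_mul (S.fam_str hmT q) 0 (g := fun _ _ => 0)
        (fun _ => measurable_const) n q y
      simpa using this
    have h4 : fib (S.W p m) (fun y => S.cw q m y *
        tau (S.fam m) (S.gq m o q (la (b q) a) (ε • θ) (4 * S.mv.ph m * 2 ^ a)) n q y) x ≤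
        fib (S.W p m) (fun _ => 0) x := by
      refine fib_mono (fun y => ?_) x
      have h5 := (hz y).trans (hz2 y).le
      rw [le_zero_iff.1 h5, mul_zero]
    refine h4.trans ?_
    rw [H395.fib_const]
    exact zero_le
  have hLe : ∀ y ∈ la (b q) a, ∀ t : ℝ, y + t • (ε • θ) ∈ la (b q) a := by
    refine la_add ?_
    rw [inner_smul_right, real_inner_comm, H.inner_θ_b (List.suffix_refl _), mul_zero]
  have key : ∀ al be : ℝ, Pair al be → fib (S.W p m) (fun y => S.cw q m y *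
        tau (S.fam m) (S.gq m o q (la (b q) a) (ε • θ) (4 * S.mv.ph m * 2 ^ a)) n q y) x ≤
      ENNReal.ofReal (320 * S.mv.ph m) * ((12 * ENNReal.ofReal S.kq) ^ n *
      ENNReal.ofReal (S.kq ^ d)) *
      (2 ^ a * (S.Dk c p m x ^ al * H998.pp a ^ be)) := by
    intro al be hab
    have hbe : 0 ≤ be := by rcases hab with ⟨-, rfl⟩ | ⟨-, rfl⟩ <;> norm_num
    have h1 := dir_sys hmT hm hth hk o hc H.not_leaf (e := ε • θ)
      ((S.W q m).smul_mem _ H.mem) (Submodule.smul_mem _ _ H.perp)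
      (norm_sg hε (H.on _ (List.suffix_refl _)).hp) (measurableSet_la (b q) a) hLe hab
      (h := 4 * S.mv.ph m * 2 ^ a) (by positivity) n
    refine h1.trans ?_
    have h2 : ENNReal.ofReal (40 * (4 * S.mv.ph m * 2 ^ a)) =
        ENNReal.ofReal (160 * S.mv.ph m) * 2 ^ a := by
      rw [show 40 * (4 * S.mv.ph m * 2 ^ a) = (160 * S.mv.ph m) * 2 ^ a by ring,
        ENNReal.ofReal_mul (by positivity), ENNReal.ofReal_pow (by norm_num)]
      norm_num
    have h3 : ENNReal.ofReal (320 * S.mv.ph m) = 2 * ENNReal.ofReal (160 * S.mv.ph m) := by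
      rw [show 320 * S.mv.ph m = 2 * (160 * S.mv.ph m) by ring, ENNReal.ofReal_mul (by norm_num)]
      norm_num
    rw [h2, h3]
    calc ENNReal.ofReal (160 * S.mv.ph m) * 2 ^ a *
          (2 * (12 * ENNReal.ofReal S.kq) ^ n * S.Dk c p m x ^ al) *
          (ENNReal.ofReal (S.kq ^ d) * fib (S.W p m) (S.mu q (la (b q) a) q m) x ^ be)
        ≤ ENNReal.ofReal (160 * S.mv.ph m) * 2 ^ a *
          (2 * (12 * ENNReal.ofReal S.kq) ^ n * S.Dk c p m x ^ al) *
          (ENNReal.ofReal (S.kq ^ d) * H998.pp a ^ be) := by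
          gcongr
          exact H.layer_mass a x
      _ = _ := by ring
  have k1 := key (1 / 2) 0 (Or.inl ⟨rfl, rfl⟩)
  have k2 := key (1 / 4) (1 / 4) (Or.inr ⟨rfl, rfl⟩)
  rw [ENNReal.rpow_zero, mul_one] at k1
  rcases le_total (S.Dk c p m x ^ (1 / 2 : ℝ))
    (S.Dk c p m x ^ (1 / 4 : ℝ) * H998.pp a ^ (1 / 4 : ℝ)) with h | h
  · rw [min_eq_left h]; exact k1
  · rw [min_eq_right h]; exact k2

/-- **the direction `θ`** -/
theorem theta_line (H : S.RotB m (c :: p) θ b) (hmT : S.mv.tm m < S.T) (hm : S.mv.IsRot m)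
    (hth : S.th = 1 / 2) (hk : S.kq ≤ 1) (hq : S.mv.jj m = c :: p) (n : ℕ) {x : E}
    (hc : S.kl p m x = c) (o : Bool) {ε : ℝ} (hε : ε ∈ sg) :
    ∑' a : ℕ, fib (S.W p m) (fun y => S.cw (c :: p) m y *
      tau (S.fam m) (S.gTa m (c :: p) θ (b (c :: p)) o ε a) n (c :: p) y) x ≤
    ENNReal.ofReal (44800 * S.mv.ph m) * ((12 * ENNReal.ofReal S.kq) ^ n *
      ENNReal.ofReal (S.kq ^ (Module.finrank ℝ (S.W (c :: p) m) - Module.finrank ℝ (S.W p m)))) *
      (2 ^ c * S.Dk c p m x ^ (1 / 2 : ℝ)) := by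
  have hph := S.mv.ph_nonneg m
  refine (ENNReal.tsum_le_tsum fun a => theta_one H hmT hm hth hk hq n hc o hε a).trans ?_
  rw [ENNReal.tsum_mul_left]
  have h1 : ENNReal.ofReal (H941.thr c) ≤ S.Dk c p m x := by
    have h2 := S.thr_le_Dk p m x
    rw [hc, S.hthr] at h2
    exact h2
  refine (mul_le_mul_right (H998.layer_sum_quarter h1 (S.Dk_ne_top c p m x)) _).trans
    (le_of_eq ?_)
  have e1 : ENNReal.ofReal (140 * 2 ^ c) = 140 * 2 ^ c := by
    rw [ENNReal.ofReal_mul (by norm_num), ENNReal.ofReal_pow (by norm_num)]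
    norm_num
  have e2 : ENNReal.ofReal (44800 * S.mv.ph m) = ENNReal.ofReal (320 * S.mv.ph m) * 140 := by
    rw [show 44800 * S.mv.ph m = (320 * S.mv.ph m) * 140 by ring,
      ENNReal.ofReal_mul (by positivity)]
    norm_num
  rw [e1, e2]
  ring

end Vale.Agent.P262.M2.Sys
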