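import Vale.Agent.P262.H837.ThrG

/-!
# P262, block THR (sharp throughput), classes, part 1: the abstract tree induction

`Stp`: masses `D j` killed after `j` steps and masses `N j` of the shadows, functions of the label.
`Claim`: the price of all steps at the labels of one node, for arbitrary outer weights `w`.
`leaf_claim`, `node_claim`: the induction over the levels, through the class boundaries.
-/

set_option linter.all false

open MeasureTheory ProbabilityTheory Set
open scoped ENNReal RealInnerProductSpace Pointwise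

namespace Vale.Agent.P262.H837

open Vale.Agent.P262.H395

variable {E : Type*} [NormedAddCommGroup E] [InnerProductSpace ℝ E] [FiniteDimensional ℝ E]
  [MeasurableSpace E] [BorelSpace E]

/-- sets of labels -/
def InvSet (W : Submodule ℝ E) (S : Set E) : Prop := ∀ x, ∀ w ∈ Wᗮ, (x + w ∈ S ↔ x ∈ S)

lemma InvSet.indicator {W : Submodule ℝ E} {S : Set E} (h : InvSet W S) :
    Inv W (S.indicator (1 : E → ℝ≥0∞)) := by
  intro x w hw
  by_cases hx : x ∈ S
  · rw [indicator_of_mem hx, indicator_of_mem ((h x w hw).2 hx)]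
    rfl
  · rw [indicator_of_notMem hx, indicator_of_notMem (fun h' => hx ((h x w hw).1 h'))]

lemma InvSet.inter {W : Submodule ℝ E} {S T : Set E} (h : InvSet W S) (h' : InvSet W T) :
    InvSet W (S ∩ T) := fun x w hw => by
  rw [mem_inter_iff, mem_inter_iff, h x w hw, h' x w hw]

lemma InvSet.diff {W : Submodule ℝ E} {S T : Set E} (h : InvSet W S) (h' : InvSet W T) :
    InvSet W (S \ T) := fun x w hw => by
  rw [mem_diff, mem_diff, h x w hw, h' x w hw]

lemma InvSet.mono {W W' : Submodule ℝ E} (hW : W ≤ W') {S : Set E} (h : InvSet W S) :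
    InvSet W' S := fun x w hw => h x w (Submodule.orthogonal_le hW hw)

/-- general push lemma -/
theorem push {W0 : Submodule ℝ E} {h : E} (hh : h ∈ W0ᗮ) {w P Q Θ Θp ω : E → ℝ≥0∞}
    (mw : Measurable w) (mP : Measurable P) (mQ : Measurable Q) (mΘ : Measurable Θ)
    (mΘp : Measurable Θp) (mω : Measurable ω)
    (H : ∀ x, w x * Q x + w x * Θ x ≤ w x * P x + w x * Θp x)
    (hS : ∀ x, Θp (x - h) * dens h x ≤ Θ x + ω x * Θ x) {x0 : E}
    (hfin : fib W0 (fun x => w x * Θ x) x0 ≠ ⊤) :
    fib W0 (fun x => w x * Q x) x0 ≤ fib W0 (fun x => w x * P x) x0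
      + (fib W0 (fun x => w x * (ω x * Θ x)) x0
        + fib W0 (fun x => (w x - w (x + h)) * Θp x) x0) := by
  have mwh : Measurable fun x => w (x + h) := mw.comp (measurable_id.add_const h)
  have mwm : Measurable fun x => w (x - h) := mw.comp (measurable_id.sub_const h)
  have mΘm : Measurable fun x => Θp (x - h) := mΘp.comp (measurable_id.sub_const h)
  have h1 : fib W0 (fun x => w x * Q x) x0 + fib W0 (fun x => w x * Θ x) x0
      ≤ fib W0 (fun x => w x * P x) x0 + fib W0 (fun x => w x * Θp x) x0 := by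
    rw [← fib_add (f := fun x => w x * Q x) (mw.mul mQ),
      ← fib_add (f := fun x => w x * P x) (mw.mul mP)]
    exact fib_mono H x0
  have h2 : fib W0 (fun x => w x * Θp x) x0
      ≤ fib W0 (fun x => (w x - w (x + h)) * Θp x) x0
        + fib W0 (fun x => min (w x) (w (x + h)) * Θp x) x0 := by
    rw [← fib_add (f := fun x => (w x - w (x + h)) * Θp x) ((mw.sub mwh).mul mΘp)]
    apply fib_mono
    intro x
    rw [← add_mul]
    apply mul_le_mul_left
    rcases le_total (w x) (w (x + h)) with hx | hx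
    · rw [min_eq_left hx]; exact le_add_self
    · rw [min_eq_right hx]; exact le_tsub_add
  have h3 : fib W0 (fun x => min (w x) (w (x + h)) * Θp x) x0
      = fib W0 (fun x => (min (w (x - h)) (w x) * Θp (x - h)) * dens h x) x0 := by
    rw [← fib_shift (F := fun x => min (w (x - h)) (w x) * Θp (x - h))
      ((mwm.min mw).mul mΘm) hh]
    simp only [add_sub_cancel_right]
  have h4 : fib W0 (fun x => (min (w (x - h)) (w x) * Θp (x - h)) * dens h x) x0
      ≤ fib W0 (fun x => w x * Θ x) x0 + fib W0 (fun x => w x * (ω x * Θ x)) x0 := by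
    rw [← fib_add (f := fun x => w x * Θ x) (mw.mul mΘ)]
    apply fib_mono
    intro x
    calc (min (w (x - h)) (w x) * Θp (x - h)) * dens h x
        = min (w (x - h)) (w x) * (Θp (x - h) * dens h x) := mul_assoc _ _ _
      _ ≤ w x * (Θ x + ω x * Θ x) := mul_le_mul' (min_le_right _ _) (hS x)
      _ = _ := mul_add _ _ _
  rw [h3] at h2
  set A := fib W0 (fun x => w x * Q x) x0
  set B := fib W0 (fun x => w x * Θ x) x0
  set C := fib W0 (fun x => w x * P x) x0
  set D := fib W0 (fun x => (w x - w (x + h)) * Θp x) x0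
  set F := fib W0 (fun x => w x * (ω x * Θ x)) x0
  have h5 : A + B ≤ (C + (F + D)) + B := by
    calc A + B ≤ C + (D + (B + F)) := h1.trans (add_le_add_right (h2.trans
          (add_le_add_right h4 _)) _)
      _ = _ := by ring
  exact (ENNReal.add_le_add_iff_right hfin).mp h5

/-- masses after `j` steps `h` and masses of the shadows, at the labels of `W` -/
structure Stp (W : Submodule ℝ E) (h : E) (M : ℕ) (D N : ℕ → E → ℝ≥0∞) : Prop where
  mD : ∀ j, Measurable (D j)
  mN : ∀ j, Measurable (N j)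
  iD : ∀ j, Inv W (D j)
  iN : ∀ j, Inv W (N j)
  D1 : ∀ j x, D j x ≤ 1
  mono : ∀ j x, D j x ≤ D (j + 1) x
  ND : ∀ j x, N j x ≤ D j x
  NM : ∀ j, j < M → ∀ x, N j (x + h) ≤ D M x
  step : ∀ j x, D (j + 1) x + N j x ≤ D j x + N j (x + h)

namespace Stp

variable {W : Submodule ℝ E} {h : E} {M : ℕ} {D N : ℕ → E → ℝ≥0∞} (S : Stp W h M D N)

include S

lemma D_le {j k : ℕ} (hjk : j ≤ k) (x : E) : D j x ≤ D k x := by
  induction k, hjk using Nat.le_induction with
  | base => exact le_rfl
  | succ k _ ih => exact ih.trans (S.mono k x)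

lemma Dt (j : ℕ) (x : E) : D j x ≠ ⊤ := ne_top_of_le_ne_top ENNReal.one_ne_top (S.D1 j x)

lemma N1 (j : ℕ) (x : E) : N j x ≤ 1 := (S.ND j x).trans (S.D1 j x)

lemma NMl {j : ℕ} (hj : j ≤ M) (x : E) : N j x ≤ D M x := (S.ND j x).trans (S.D_le hj x)

lemma Nstep (j : ℕ) (x : E) : N j x ≤ N j (x + h) := by
  have h1 := S.step j x
  have h2 : D j x + N j x ≤ D j x + N j (x + h) := (add_le_add_left (S.mono j x) _).trans h1
  exact (ENNReal.add_le_add_iff_left (S.Dt j x)).mp h2

lemma mNh (j : ℕ) : Measurable fun x => N j (x + h) := (S.mN j).comp (measurable_id.add_const h)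

end Stp

/-- growth under the shift by `h` -/
def Shf (h : E) (ω : E → ℝ≥0∞) (F : E → ℝ≥0∞ → ℝ≥0∞) : Prop :=
  ∀ x y, F (x - h) y * dens h x ≤ F x y + ω x * F x y

/-- monotone in the mass -/
def MonF (F : E → ℝ≥0∞ → ℝ≥0∞) : Prop := ∀ x, Monotone (F x)

/-- the four point inequality -/
def Fpt (F : E → ℝ≥0∞ → ℝ≥0∞) : Prop :=
  ∀ x D N δ, N ≤ D → D + δ ≤ 1 → F x (D + δ) + F x N ≤ F x D + F x (N + δ)

/-- the halving property -/
def Hlv (Ch : ℝ≥0∞) (F : E → ℝ≥0∞ → ℝ≥0∞) : Prop :=
  ∀ x y y', 2 * y ≤ y' → y' ≤ 1 → F x y' + Ch * F x y ≤ Ch * F x y'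

/-- joint measurability -/
def MeasF (F : E → ℝ≥0∞ → ℝ≥0∞) : Prop := Measurable fun p : E × ℝ≥0∞ => F p.1 p.2

lemma MeasF.comp {F : E → ℝ≥0∞ → ℝ≥0∞} (hF : MeasF F) {Y : E → ℝ≥0∞} (hY : Measurable Y) :
    Measurable fun x => F x (Y x) := Measurable.comp hF (measurable_id.prodMk hY)

lemma MeasF.comp' {F : E → ℝ≥0∞ → ℝ≥0∞} (hF : MeasF F) {Z : E → E} (hZ : Measurable Z)
    {Y : E → ℝ≥0∞} (hY : Measurable Y) :
    Measurable fun x => F (Z x) (Y x) := Measurable.comp hF (hZ.prodMk hY)

/-- **price of the steps at the labels of one node**, arbitrary outer weights -/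
def Claim (W0 : Submodule ℝ E) (h : E) (M : ℕ) (ω : E → ℝ≥0∞) (x0 : E) (W : Submodule ℝ E)
    (R : Set E) (vU vK : E → ℝ≥0∞) (N : ℕ → E → ℝ≥0∞) (F : E → ℝ≥0∞ → ℝ≥0∞) : Prop :=
  ∀ w : E → ℝ≥0∞, Measurable w → Inv W w → (∀ x, w x ≤ 1) → (∀ x, x ∉ R → w x = 0) →
    fib W0 (fun x => w x * vU x) x0 ≤ fib W0 (fun x => w x * vK x) x0
      + ∑ j ∈ Finset.range M, (fib W0 (fun x => w x * (ω x * F x (N j x))) x0
        + fib W0 (fun x => (w x - w (x + h)) * F x (N j (x + h))) x0)

/-- steps for one functional, no classes -/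
theorem free_claim {W0 W : Submodule ℝ E} {h : E} (hh : h ∈ W0ᗮ) {M : ℕ} {D N : ℕ → E → ℝ≥0∞}
    (S : Stp W h M D N) {ω : E → ℝ≥0∞} (mω : Measurable ω) {I : E → ℝ≥0∞ → ℝ≥0∞}
    (hm : MeasF I) (hI : MonF I) (h4 : Fpt I) (hS : Shf h ω I) {x0 : E}
    (hfin : fib W0 (fun x => I x 1) x0 ≠ ⊤) {w : E → ℝ≥0∞} (mw : Measurable w)
    (w1 : ∀ x, w x ≤ 1) {m : ℕ} (hmM : m ≤ M) :
    fib W0 (fun x => w x * I x (D m x)) x0 ≤ fib W0 (fun x => w x * I x (D 0 x)) x0
      + ∑ j ∈ Finset.range m, (fib W0 (fun x => w x * (ω x * I x (N j x))) x0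
        + fib W0 (fun x => (w x - w (x + h)) * I x (N j (x + h))) x0) := by
  induction m with
  | zero => simp
  | succ m ih =>
    rw [Finset.sum_range_succ, ← add_assoc]
    refine le_trans ?_ (add_le_add_left (ih (by omega)) _)
    refine push hh mw (hm.comp (S.mD m)) (hm.comp (S.mD (m + 1))) (hm.comp (S.mN m))
      (Θp := fun x => I x (N m (x + h))) (hm.comp (S.mNh m)) mω ?_ ?_ ?_
    · intro x
      rw [← mul_add, ← mul_add]
      apply mul_le_mul_right
      have e1 : D m x + (D (m + 1) x - D m x) = D (m + 1) x := add_tsub_cancel_of_le (S.mono m x)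
      have e2 : N m x + (D (m + 1) x - D m x) ≤ N m (x + h) := by
        have h1 := S.step m x
        rw [← e1, add_assoc] at h1
        have h2 := (ENNReal.add_le_add_iff_left (S.Dt m x)).mp h1
        rwa [add_comm] at h2
      have h5 := h4 x (D m x) (N m x) (D (m + 1) x - D m x) (S.ND m x) (by
        rw [e1]; exact S.D1 (m + 1) x)
      rw [e1] at h5
      exact h5.trans (add_le_add_right (hI x e2) _)
    · intro x
      show I (x - h) (N m (x - h + h)) * dens h x ≤ _
      rw [sub_add_cancel]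
      exact hS x _
    · refine ne_top_of_le_ne_top hfin (fib_mono (fun x => ?_) x0)
      calc w x * I x (N m x) ≤ 1 * I x 1 := mul_le_mul' (w1 x) (hI x (S.N1 m x))
        _ = _ := one_mul _

/-- **leaf step** -/
theorem leaf_claim {W0 W : Submodule ℝ E} {h : E} (hh : h ∈ W0ᗮ) {M : ℕ} {D N : ℕ → E → ℝ≥0∞}
    (S : Stp W h M D N) {ω : E → ℝ≥0∞} (mω : Measurable ω) {I : E → ℝ≥0∞ → ℝ≥0∞}
    (hm : MeasF I) (hI : MonF I) (h4 : Fpt I) (hS : Shf h ω I) {x0 : E}
    (hfin : fib W0 (fun x => I x 1) x0 ≠ ⊤) (R : Set E) :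
    Claim W0 h M ω x0 W R (fun x => I x (D M x)) (fun x => I x (D 0 x)) N I := by
  intro w mw _ w1 _
  exact free_claim hh S mω hm hI h4 hS hfin mw w1 le_rfl

/-- the part of the grid line `x + k h` after the set -/
def shN (S : Set E) (h : E) : Set E := {x | ∀ k : ℕ, x + (k : ℝ) • h ∉ S}

/-- the points behind which there is a point of the set -/
def suN (S : Set E) (h : E) : Set E := {x | ∃ k : ℕ, x - (k : ℝ) • h ∈ S}

/-- intervals on all grid lines -/
def GCvx (h : E) (S : Set E) : Prop :=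
  ∀ x (a b : ℕ), a ≤ b → x ∈ S → x + (b : ℝ) • h ∈ S → x + (a : ℝ) • h ∈ S

lemma GCvx.inter {h : E} {S T : Set E} (hS : GCvx h S) (hT : GCvx h T) : GCvx h (S ∩ T) :=
  fun x a b hab h1 h2 => ⟨hS x a b hab h1.1 h2.1, hT x a b hab h1.2 h2.2⟩

lemma _root_.Convex.gcvx {h : E} {S : Set E} (hS : Convex ℝ S) : GCvx h S := by
  intro x a b hab h1 h2
  rcases Nat.eq_zero_or_pos b with hb | hb
  · subst hb
    have : a = 0 := by omega
    subst this
    exact h2
  · have hb' : (0 : ℝ) < b := by exact_mod_cast hb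
    have hab' : (a : ℝ) ≤ b := by exact_mod_cast hab
    have key : x + (a : ℝ) • h = (1 - (a : ℝ) / b) • x + ((a : ℝ) / b) • (x + (b : ℝ) • h) := by
      rw [smul_add, smul_smul, div_mul_cancel₀ _ hb'.ne', ← add_assoc, ← add_smul]
      simp
    rw [key]
    refine hS h1 h2 ?_ (by positivity) (by ring)
    have : (a : ℝ) / b ≤ 1 := (div_le_one hb').2 hab'
    linarith

lemma measurableSet_shN {S : Set E} (hS : MeasurableSet S) (h : E) : MeasurableSet (shN S h) := by
  have : shN S h = ⋂ k : ℕ, (fun x => x + (k : ℝ) • h) ⁻¹' Sᶜ := by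
    ext x
    simp only [shN, mem_setOf_eq, mem_iInter, mem_preimage, mem_compl_iff]
  rw [this]
  exact MeasurableSet.iInter fun k => (measurable_id.add_const _) hS.compl

lemma measurableSet_suN {S : Set E} (hS : MeasurableSet S) (h : E) : MeasurableSet (suN S h) := by
  have : suN S h = ⋃ k : ℕ, (fun x => x - (k : ℝ) • h) ⁻¹' S := by
    ext x
    simp only [suN, mem_setOf_eq, mem_iUnion, mem_preimage]
  rw [this]
  exact MeasurableSet.iUnion fun k => (measurable_id.sub_const _) hS

lemma shN_step {S : Set E} {h x : E} (hx : x ∈ shN S h) : x + h ∈ shN S h := by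
  intro k hk
  apply hx (k + 1)
  have e : x + ((k + 1 : ℕ) : ℝ) • h = x + h + (k : ℝ) • h := by
    push_cast
    rw [add_smul, one_smul]
    abel
  rw [e]; exact hk

lemma suN_step {S : Set E} {h x : E} (hx : x ∈ suN S h) : x + h ∈ suN S h := by
  obtain ⟨k, hk⟩ := hx
  refine ⟨k + 1, ?_⟩
  have e : x + h - ((k + 1 : ℕ) : ℝ) • h = x - (k : ℝ) • h := by
    push_cast
    rw [add_smul, one_smul]
    abel
  rw [e]; exact hk

/-- leaving a grid convex set leads into its shadow -/
lemma shN_leave {S : Set E} {h x : E} (hS : GCvx h S) (hx : x ∈ S) (hxh : x + h ∉ S) :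
    x ∉ shN S h ∧ x + h ∈ shN S h := by
  constructor
  · intro h1
    apply h1 0
    simpa using hx
  · intro k hk
    apply hxh
    have e1 : x + ((k + 1 : ℕ) : ℝ) • h = x + h + (k : ℝ) • h := by
      push_cast
      rw [add_smul, one_smul]
      abel
    have h2 := hS x 1 (k + 1) (by omega) hx (by rw [e1]; exact hk)
    simpa using h2

/-- entering a grid convex set for the first time -/
lemma suN_enter {S : Set E} {h x : E} (hS : GCvx h S) (hx : x ∉ S) (hxh : x + h ∈ S) :
    x ∉ suN S h ∧ x + h ∈ suN S h := by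
  constructor
  · rintro ⟨k, hk⟩
    apply hx
    have h2 := hS (x - (k : ℝ) • h) k (k + 1) (by omega) hk (by
      have e : x - (k : ℝ) • h + ((k + 1 : ℕ) : ℝ) • h = x + h := by
        push_cast
        rw [add_smul, one_smul]
        abel
      rw [e]; exact hxh)
    rwa [sub_add_cancel] at h2
  · exact ⟨0, by simpa using hxh⟩

/-- the jump function of a class region -/
noncomputable def Lc (S T : Set E) (h : E) (x : E) : ℝ≥0∞ :=
  (shN S h).indicator 1 x + (suN T h).indicator 1 x

lemma measurable_Lc {S T : Set E} (hS : MeasurableSet S) (hT : MeasurableSet T) (h : E) :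
    Measurable (Lc S T h) :=
  (measurable_one.indicator (measurableSet_shN hS h)).add
    (measurable_one.indicator (measurableSet_suN hT h))

lemma ind_le_one (S : Set E) (x : E) : S.indicator (1 : E → ℝ≥0∞) x ≤ 1 := by
  by_cases h : x ∈ S
  · rw [indicator_of_mem h]; exact le_rfl
  · rw [indicator_of_notMem h]; exact zero_le

lemma Lc_le_two (S T : Set E) (h x : E) : Lc S T h x ≤ 2 := by
  unfold Lc
  calc (shN S h).indicator (1 : E → ℝ≥0∞) x + (suN T h).indicator 1 x ≤ 1 + 1 :=
        add_le_add (ind_le_one _ x) (ind_le_one _ x)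
    _ = 2 := by norm_num

lemma ind_step {S : Set E} {h : E} (hS : ∀ x ∈ S, x + h ∈ S) (x : E) :
    S.indicator (1 : E → ℝ≥0∞) x ≤ S.indicator 1 (x + h) := by
  by_cases hx : x ∈ S
  · rw [indicator_of_mem hx, indicator_of_mem (hS x hx)]; exact le_rfl
  · rw [indicator_of_notMem hx]; exact zero_le

lemma Lc_mono (S T : Set E) (h x : E) : Lc S T h x ≤ Lc S T h (x + h) :=
  add_le_add (ind_step (fun y hy => shN_step hy) x) (ind_step (fun y hy => suN_step hy) x)

/-- crossing the boundary of the region `S minus T` raises the jump function by one -/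
lemma Lc_cross {S T : Set E} {h : E} (hS : GCvx h S) (hT : GCvx h T) {x : E}
    (hx : x ∈ S \ T) (hxh : x + h ∉ S \ T) : 1 + Lc S T h x ≤ Lc S T h (x + h) := by
  unfold Lc
  by_cases h1 : x + h ∈ S
  · have h2 : x + h ∈ T := by
      by_contra h2
      exact hxh ⟨h1, h2⟩
    obtain ⟨h3, h4⟩ := suN_enter hT hx.2 h2
    rw [indicator_of_notMem h3, indicator_of_mem h4, add_zero, add_comm]
    exact add_le_add (ind_step (fun y hy => shN_step hy) x) le_rfl
  · obtain ⟨h3, h4⟩ := shN_leave hS hx.1 h1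
    rw [indicator_of_notMem h3, indicator_of_mem h4, zero_add]
    exact add_le_add le_rfl (ind_step (fun y hy => suN_step hy) x)

end Vale.Agent.P262.H837
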