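import Vale.Agent.P262.H837.Cls1

/-!
# P262, block THR (sharp throughput), classes, part 2: the node step
-/

set_option linter.all false

open MeasureTheory ProbabilityTheory Set
open scoped ENNReal RealInnerProductSpace Pointwise

namespace Vale.Agent.P262.H837

open Vale.Agent.P262.H395

variable {E : Type*} [NormedAddCommGroup E] [InnerProductSpace ℝ E] [FiniteDimensional ℝ E]
  [MeasurableSpace E] [BorelSpace E]

lemma tow {W0 W : Submodule ℝ E} (hW : W0 ≤ W) {g f : E → ℝ≥0∞} (hg : Inv W g)
    (mg : Measurable g) (mf : Measurable f) (x0 : E) :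
    fib W0 (fun x => g x * fib W f x) x0 = fib W0 (fun x => g x * f x) x0 := by
  have h1 : (fun x => g x * fib W f x) = fib W (fun x => g x * f x) := by
    funext x
    exact (fib_mul hg mf x).symm
  rw [h1]
  exact fib_tower hW (f := fun x => g x * f x) (mg.mul mf) x0

lemma fib_cmul_le {W : Submodule ℝ E} {c : ℝ≥0∞} {f g : E → ℝ≥0∞} (hf : Measurable f)
    (H : ∀ x, g x ≤ c * f x) (x0 : E) : fib W g x0 ≤ c * fib W f x0 := by
  rw [← fib_mul (g := fun _ => c) (inv_const W _) hf]
  exact fib_mono H x0

lemma Inv.shift {W : Submodule ℝ E} {w : E → ℝ≥0∞} (hw : Inv W w) (h : E) :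
    Inv W fun x => w (x + h) := fun x v hv => by
  show w (x + v + h) = w (x + h)
  rw [add_right_comm]
  exact hw (x + h) v hv

lemma Inv.sub {W : Submodule ℝ E} {f g : E → ℝ≥0∞} (hf : Inv W f) (hg : Inv W g) :
    Inv W fun x => f x - g x := fun x w hw => by simp only [hf x w hw, hg x w hw]

/-- the lump of one class boundary -/
theorem lump {W0 : Submodule ℝ E} {h : E} (hh : h ∈ W0ᗮ) {ω : E → ℝ≥0∞} (mω : Measurable ω)
    {S T : Set E} (mS : MeasurableSet S) (mT : MeasurableSet T) (gS : GCvx h S) (gT : GCvx h T)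
    {H : E → ℝ≥0∞ → ℝ≥0∞} (mH : MeasF H) (nH : MonF H) (sH : Shf h ω H) {Nj : E → ℝ≥0∞}
    (mN : Measurable Nj) (hN : ∀ x, Nj x ≤ Nj (x + h)) {t : ℝ≥0∞} {w : E → ℝ≥0∞}
    (mw : Measurable w) {x0 : E}
    (hfin : fib W0 (fun x => w x * H x (min (Nj x) t)) x0 ≠ ⊤) :
    fib W0 (fun x => w x * (({x | x ∈ S \ T ∧ x + h ∉ S \ T}).indicator 1 x
        * H x (min (Nj (x + h)) t))) x0
      ≤ 2 * (fib W0 (fun x => w x * (ω x * H x (min (Nj x) t))) x0
        + fib W0 (fun x => (w x - w (x + h)) * H x (min (Nj (x + h)) t)) x0) := by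
  set cr : E → ℝ≥0∞ := ({x | x ∈ S \ T ∧ x + h ∉ S \ T}).indicator 1 with hcr
  have mcr : Measurable cr := measurable_one.indicator
    ((mS.diff mT).inter ((measurable_id.add_const h) (mS.diff mT).compl))
  have mNh : Measurable fun x => Nj (x + h) := mN.comp (measurable_id.add_const h)
  have mL := measurable_Lc mS mT h
  have mLh : Measurable fun x => Lc S T h (x + h) := mL.comp (measurable_id.add_const h)
  have mH1 : Measurable fun x => H x (min (Nj x) t) := mH.comp (mN.min measurable_const)
  have mH2 : Measurable fun x => H x (min (Nj (x + h)) t) := mH.comp (mNh.min measurable_const)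
  have mwh : Measurable fun x => w (x + h) := mw.comp (measurable_id.add_const h)
  have key := push hh (P := fun _ => 0) (Q := fun x => cr x * H x (min (Nj (x + h)) t))
    (Θ := fun x => Lc S T h x * H x (min (Nj x) t))
    (Θp := fun x => Lc S T h (x + h) * H x (min (Nj (x + h)) t)) (ω := ω) mw measurable_const
    (mcr.mul mH2) (mL.mul mH1) (mLh.mul mH2) mω ?_ ?_ (x0 := x0) ?_
  · refine key.trans ?_
    have e0 : fib W0 (fun x => w x * 0) x0 = 0 := by
      simp only [mul_zero]
      exact fib_const W0 0 x0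
    rw [e0, zero_add, mul_add]
    refine add_le_add ?_ ?_
    · refine fib_cmul_le (f := fun x => w x * (ω x * H x (min (Nj x) t)))
        (mw.mul (mω.mul mH1)) (fun x => ?_) x0
      calc w x * (ω x * (Lc S T h x * H x (min (Nj x) t)))
          ≤ w x * (ω x * (2 * H x (min (Nj x) t))) :=
            mul_le_mul_right (mul_le_mul_right (mul_le_mul_left (Lc_le_two S T h x) _) _) _
        _ = _ := by ring
    · refine fib_cmul_le (f := fun x => (w x - w (x + h)) * H x (min (Nj (x + h)) t))
        ((mw.sub mwh).mul mH2) (fun x => ?_) x0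
      calc (w x - w (x + h)) * (Lc S T h (x + h) * H x (min (Nj (x + h)) t))
          ≤ (w x - w (x + h)) * (2 * H x (min (Nj (x + h)) t)) :=
            mul_le_mul_right (mul_le_mul_left (Lc_le_two S T h _) _) _
        _ = _ := by ring
  · intro x
    rw [mul_zero, zero_add, ← mul_add]
    apply mul_le_mul_right
    have h1 : H x (min (Nj x) t) ≤ H x (min (Nj (x + h)) t) := nH x (min_le_min_right _ (hN x))
    by_cases hx : x ∈ {x | x ∈ S \ T ∧ x + h ∉ S \ T}
    · have h2 := Lc_cross gS gT hx.1 hx.2
      rw [hcr, indicator_of_mem hx]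
      calc (1 : E → ℝ≥0∞) x * H x (min (Nj (x + h)) t) + Lc S T h x * H x (min (Nj x) t)
          ≤ 1 * H x (min (Nj (x + h)) t) + Lc S T h x * H x (min (Nj (x + h)) t) :=
            add_le_add_right (mul_le_mul_right h1 _) _
        _ = (1 + Lc S T h x) * H x (min (Nj (x + h)) t) := by rw [add_mul]
        _ ≤ _ := mul_le_mul_left h2 _
    · rw [hcr, indicator_of_notMem hx, zero_mul, zero_add]
      exact mul_le_mul' (Lc_mono S T h x) h1
  · intro x
    show Lc S T h (x - h + h) * H (x - h) (min (Nj (x - h + h)) t) * dens h x ≤ _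
    rw [sub_add_cancel, mul_assoc]
    calc Lc S T h x * (H (x - h) (min (Nj x) t) * dens h x)
        ≤ Lc S T h x * (H x (min (Nj x) t) + ω x * H x (min (Nj x) t)) :=
          mul_le_mul_right (sH x _) _
      _ = _ := by ring
  · have h2 : fib W0 (fun x => w x * (Lc S T h x * H x (min (Nj x) t))) x0
        ≤ 2 * fib W0 (fun x => w x * H x (min (Nj x) t)) x0 := by
      refine fib_cmul_le (f := fun x => w x * H x (min (Nj x) t)) (mw.mul mH1) (fun x => ?_) x0
      calc w x * (Lc S T h x * H x (min (Nj x) t)) ≤ w x * (2 * H x (min (Nj x) t)) :=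
            mul_le_mul_right (mul_le_mul_left (Lc_le_two S T h x) _) _
        _ = _ := by ring
    exact ne_top_of_le_ne_top (ENNReal.mul_ne_top (by norm_num) hfin) h2

/-- the value at a node: classes `c < n`, regions `Sc c minus Sc (c+1)` -/
noncomputable def nval (W : Submodule ℝ E) (n : ℕ) (Sc : ℕ → Set E) (v : ℕ → E → ℝ≥0∞) (x : E) :
    ℝ≥0∞ := ∑ c ∈ Finset.range n, (Sc c \ Sc (c + 1)).indicator 1 x * fib W (v c) x

/-- **node step** -/
theorem node_claim {W0 W : Submodule ℝ E} {h : E} (hh : h ∈ W0ᗮ) (hhW : h ∈ W) (hW0 : W0 ≤ W)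
    {ω : E → ℝ≥0∞} (mω : Measurable ω) (iω : Inv W ω) {M : ℕ} {D N : ℕ → E → ℝ≥0∞}
    (S : Stp W h M D N) {n : ℕ} {Sc : ℕ → Set E} (mS : ∀ c, MeasurableSet (Sc c))
    (iS : ∀ c, InvSet W (Sc c)) (gS : ∀ c, GCvx h (Sc c)) (aS : ∀ c, Sc (c + 1) ⊆ Sc c)
    {R : Set E} {t : ℕ → ℝ≥0∞} (ht : ∀ c < n, ∀ x ∈ R, x ∈ Sc c → D 0 x ≤ t c)
    (gU : ∀ c, GCvx h {x | D M x ≤ 2 * t c}) {Wc : ℕ → Submodule ℝ E} (hWc : ∀ c, W ≤ Wc c)
    {vU vK : ℕ → E → ℝ≥0∞} (mvU : ∀ c, Measurable (vU c)) (mvK : ∀ c, Measurable (vK c))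
    {Nc : ℕ → ℕ → E → ℝ≥0∞} (mNc : ∀ c j, Measurable (Nc c j)) (Nc1 : ∀ c j x, Nc c j x ≤ 1)
    (hNc : ∀ c j x, fib W (Nc c j) x = N j x) {Fc : ℕ → E → ℝ≥0∞ → ℝ≥0∞}
    (mFc : ∀ c, MeasF (Fc c)) {x0 : E}
    (cl : ∀ c < n, Claim W0 h M ω x0 (Wc c) (R ∩ (Sc c \ Sc (c + 1))) (vU c) (vK c) (Nc c) (Fc c))
    {H : ℕ → E → ℝ≥0∞ → ℝ≥0∞} {I F : E → ℝ≥0∞ → ℝ≥0∞}
    (AV : ∀ c < n, ∀ Y : E → ℝ≥0∞, Measurable Y → (∀ y, Y y ≤ 1) → ∀ x ∈ R,
      x ∈ Sc c \ Sc (c + 1) → fib W (fun y => Fc c y (Y y)) x ≤ H c x (fib W Y x))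
    (hval : ∀ c < n, ∀ x ∈ R, x ∈ Sc c \ Sc (c + 1) → fib W (vU c) x ≤ I x (D M x))
    (mH : ∀ c, MeasF (H c)) (nH : ∀ c, MonF (H c)) (sH : ∀ c, Shf h ω (H c))
    (mI : MeasF I) (nI : MonF I) (fI : Fpt I) (sI : Shf h ω I) {Ch : ℝ≥0∞} (hI : Hlv Ch I)
    (hCh : 1 ≤ Ch) (hCht : Ch ≠ ⊤) (mF : MeasF F)
    (hF : ∀ x y, y ≤ 1 → 3 * ∑ c ∈ Finset.range n, H c x (min y (2 * t c)) + Ch * I x y ≤ F x y)
    (hfin : fib W0 (fun x => F x 1) x0 ≠ ⊤) :
    Claim W0 h M ω x0 W R (nval W n Sc vU) (nval W n Sc vK) N F := by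
  classical
  intro w mw iw w1 wR
  have mwh : Measurable fun x => w (x + h) := mw.comp (measurable_id.add_const h)
  set Gd : ℕ → Set E := fun c => {x | D M x ≤ 2 * t c} with hGd
  have mGd : ∀ c, MeasurableSet (Gd c) := fun c => measurableSet_le (S.mD M) measurable_const
  have iGd : ∀ c, InvSet W (Gd c) := fun c x v hv => by
    show D M (x + v) ≤ _ ↔ D M x ≤ _
    rw [S.iD M x v hv]
  set B : ℕ → Set E := fun c => Sc c \ Sc (c + 1) with hB
  set B1 : ℕ → Set E := fun c => (Sc c ∩ Gd c) \ Sc (c + 1) with hB1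
  set B2 : ℕ → Set E := fun c => B c \ Gd c with hB2
  have mB1 : ∀ c, MeasurableSet (B1 c) := fun c => ((mS c).inter (mGd c)).diff (mS (c + 1))
  have mB2 : ∀ c, MeasurableSet (B2 c) := fun c => ((mS c).diff (mS (c + 1))).diff (mGd c)
  have mB : ∀ c, MeasurableSet (B c) := fun c => (mS c).diff (mS (c + 1))
  have iB1 : ∀ c, InvSet W (B1 c) := fun c => ((iS c).inter (iGd c)).diff (iS (c + 1))
  have hsplit : ∀ c x, (B c).indicator (1 : E → ℝ≥0∞) x
      = (B1 c).indicator 1 x + (B2 c).indicator 1 x := by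
    intro c x
    by_cases h1 : x ∈ B c
    · by_cases h2 : x ∈ Gd c
      · rw [indicator_of_mem h1, indicator_of_mem (show x ∈ B1 c from ⟨⟨h1.1, h2⟩, h1.2⟩),
          indicator_of_notMem (show x ∉ B2 c from fun h3 => h3.2 h2), add_zero]
      · rw [indicator_of_mem h1, indicator_of_notMem (show x ∉ B1 c from fun h3 => h2 h3.1.2),
          indicator_of_mem (show x ∈ B2 c from ⟨h1, h2⟩), zero_add]
    · rw [indicator_of_notMem h1, indicator_of_notMem (show x ∉ B1 c from
        fun h3 => h1 ⟨h3.1.1, h3.2⟩), indicator_of_notMem (show x ∉ B2 c from fun h3 => h1 h3.1),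
        add_zero]
  set wc : ℕ → E → ℝ≥0∞ := fun c x => w x * (B1 c).indicator 1 x with hwc
  have mwc : ∀ c, Measurable (wc c) := fun c => mw.mul (measurable_one.indicator (mB1 c))
  have iwc : ∀ c, Inv W (wc c) := fun c => iw.mul (iB1 c).indicator
  have wc1 : ∀ c x, wc c x ≤ 1 := fun c x => by
    calc w x * (B1 c).indicator 1 x ≤ 1 * 1 := mul_le_mul' (w1 x) (ind_le_one _ x)
      _ = 1 := one_mul 1
  have mvU' : ∀ c, Measurable (fib W (vU c)) := fun c => measurable_fib (mvU c)
  have mvK' : ∀ c, Measurable (fib W (vK c)) := fun c => measurable_fib (mvK c)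
  -- the functions of the bound
  have mH1 : ∀ c j, Measurable fun x => H c x (min (N j x) (2 * t c)) := fun c j =>
    (mH c).comp ((S.mN j).min measurable_const)
  have mH2 : ∀ c j, Measurable fun x => H c x (min (N j (x + h)) (2 * t c)) := fun c j =>
    (mH c).comp ((S.mNh j).min measurable_const)
  have hFI : ∀ x y, y ≤ 1 → I x y ≤ F x y := fun x y hy => by
    refine le_trans ?_ (hF x y hy)
    calc I x y = 1 * I x y := (one_mul _).symm
      _ ≤ Ch * I x y := mul_le_mul_left hCh _
      _ ≤ _ := le_add_self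
  have hFH : ∀ c < n, ∀ x y, y ≤ 1 → H c x (min y (2 * t c)) ≤ F x y := fun c hc x y hy => by
    refine le_trans ?_ (hF x y hy)
    calc H c x (min y (2 * t c)) = 1 * H c x (min y (2 * t c)) := (one_mul _).symm
      _ ≤ 3 * ∑ c ∈ Finset.range n, H c x (min y (2 * t c)) :=
          mul_le_mul' (by norm_num) (Finset.single_le_sum
            (f := fun c => H c x (min y (2 * t c))) (fun _ _ => zero_le) (Finset.mem_range.2 hc))
      _ ≤ _ := le_self_add
  have hfinI : fib W0 (fun x => I x 1) x0 ≠ ⊤ :=
    ne_top_of_le_ne_top hfin (fib_mono (fun x => hFI x 1 le_rfl) x0)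
  -- children
  set a : ℕ → ℕ → ℝ≥0∞ := fun c j =>
    fib W0 (fun x => w x * (ω x * H c x (min (N j x) (2 * t c)))) x0 with ha
  set b : ℕ → ℕ → ℝ≥0∞ := fun c j =>
    fib W0 (fun x => (w x - w (x + h)) * H c x (min (N j (x + h)) (2 * t c))) x0 with hb
  have hchild : ∀ c < n, fib W0 (fun x => wc c x * fib W (vU c) x) x0
      ≤ fib W0 (fun x => wc c x * fib W (vK c) x) x0
        + ∑ j ∈ Finset.range M, 3 * (a c j + b c j) := by
    intro c hc
    rw [tow hW0 (iwc c) (mwc c) (mvU c), tow hW0 (iwc c) (mwc c) (mvK c)]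
    refine (cl c hc (wc c) (mwc c) ((iwc c).mono (hWc c)) (wc1 c) ?_).trans ?_
    · intro x hx
      show w x * (B1 c).indicator 1 x = 0
      by_cases h1 : x ∈ R
      · have h2 : x ∉ B1 c := fun h3 => hx ⟨h1, h3.1.1, h3.2⟩
        rw [indicator_of_notMem h2, mul_zero]
      · rw [wR x h1, zero_mul]
    · refine add_le_add_right (Finset.sum_le_sum fun j hj => ?_) _
      rw [Finset.mem_range] at hj
      -- first term
      have t1 : fib W0 (fun x => wc c x * (ω x * Fc c x (Nc c j x))) x0 ≤ a c j := by
        have e1 : fib W0 (fun x => wc c x * (ω x * Fc c x (Nc c j x))) x0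
            = fib W0 (fun x => (wc c x * ω x) * fib W (fun y => Fc c y (Nc c j y)) x) x0 := by
          rw [tow hW0 ((iwc c).mul iω) ((mwc c).mul mω) ((mFc c).comp (mNc c j))]
          congr 1
          funext x
          ring
        rw [e1]
        apply fib_mono
        intro x
        by_cases hx : x ∈ B1 c
        · by_cases hxR : x ∈ R
          · have h1 := AV c hc (Nc c j) (mNc c j) (Nc1 c j) x hxR ⟨hx.1.1, hx.2⟩
            rw [hNc] at h1
            have h2 : N j x ≤ 2 * t c := (S.NMl hj.le x).trans hx.1.2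
            calc wc c x * ω x * fib W (fun y => Fc c y (Nc c j y)) x
                ≤ (w x * 1) * ω x * H c x (N j x) :=
                  mul_le_mul' (mul_le_mul_left (mul_le_mul_right (ind_le_one _ x) _) _) h1
              _ = w x * (ω x * H c x (min (N j x) (2 * t c))) := by
                  rw [min_eq_left h2]; ring
          · have : wc c x = 0 := by
              show w x * _ = 0
              rw [wR x hxR, zero_mul]
            rw [this, zero_mul, zero_mul]
            exact zero_le
        · have : wc c x = 0 := by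
            show w x * (B1 c).indicator 1 x = 0
            rw [indicator_of_notMem hx, mul_zero]
          rw [this, zero_mul, zero_mul]
          exact zero_le
      -- second term
      have t2 : fib W0 (fun x => (wc c x - wc c (x + h)) * Fc c x (Nc c j (x + h))) x0
          ≤ b c j + 2 * (a c j + b c j) := by
        have mNch : Measurable fun x => Nc c j (x + h) :=
          (mNc c j).comp (measurable_id.add_const h)
        have mwch : Measurable fun x => wc c (x + h) := (mwc c).comp (measurable_id.add_const h)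
        have e1 : fib W0 (fun x => (wc c x - wc c (x + h)) * Fc c x (Nc c j (x + h))) x0
            = fib W0 (fun x => (wc c x - wc c (x + h))
              * fib W (fun y => Fc c y (Nc c j (y + h))) x) x0 := by
          rw [tow hW0 (Inv.sub (iwc c) (Inv.shift (iwc c) h)) ((mwc c).sub mwch)
            ((mFc c).comp mNch)]
        rw [e1]
        have hpt : ∀ x, (wc c x - wc c (x + h)) * fib W (fun y => Fc c y (Nc c j (y + h))) x
            ≤ (w x - w (x + h)) * H c x (min (N j (x + h)) (2 * t c))
              + w x * (({x | x ∈ (Sc c ∩ Gd c) \ Sc (c + 1) ∧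
                  x + h ∉ (Sc c ∩ Gd c) \ Sc (c + 1)}).indicator 1 x
                * H c x (min (N j (x + h)) (2 * t c))) := by
          intro x
          by_cases hx : x ∈ B1 c
          · by_cases hxR : x ∈ R
            · have h1 := AV c hc (fun y => Nc c j (y + h)) mNch (fun y => Nc1 c j _) x hxR
                ⟨hx.1.1, hx.2⟩
              have h0 : fib W (fun y => Nc c j (y + h)) x = N j (x + h) := by
                rw [← hNc c j (x + h), fib_add_label _ hhW]
              rw [h0] at h1
              have h2 : N j (x + h) ≤ 2 * t c := (S.NM j hj x).trans hx.1.2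
              have e2 : wc c x = w x := by
                show w x * (B1 c).indicator 1 x = w x
                rw [indicator_of_mem hx]
                simp
              rw [min_eq_left h2, e2]
              by_cases hxh : x + h ∈ B1 c
              · have e3 : wc c (x + h) = w (x + h) := by
                  show w (x + h) * (B1 c).indicator 1 (x + h) = w (x + h)
                  rw [indicator_of_mem hxh]
                  simp
                rw [e3]
                exact (mul_le_mul_right h1 _).trans le_self_add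
              · rw [indicator_of_mem (show x ∈ {x | x ∈ (Sc c ∩ Gd c) \ Sc (c + 1) ∧
                  x + h ∉ (Sc c ∩ Gd c) \ Sc (c + 1)} from ⟨hx, hxh⟩)]
                calc (w x - wc c (x + h)) * fib W (fun y => Fc c y (Nc c j (y + h))) x
                    ≤ w x * H c x (N j (x + h)) := mul_le_mul' tsub_le_self h1
                  _ = w x * ((1 : E → ℝ≥0∞) x * H c x (N j (x + h))) := by simp
                  _ ≤ _ := le_add_self
            · have : wc c x = 0 := by
                show w x * _ = 0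
                rw [wR x hxR, zero_mul]
              rw [this, zero_tsub, zero_mul]
              exact zero_le
          · have : wc c x = 0 := by
              show w x * (B1 c).indicator 1 x = 0
              rw [indicator_of_notMem hx, mul_zero]
            rw [this, zero_tsub, zero_mul]
            exact zero_le
        refine (fib_mono hpt x0).trans ?_
        rw [fib_add (f := fun x => (w x - w (x + h)) * H c x (min (N j (x + h)) (2 * t c)))
          ((mw.sub mwh).mul (mH2 c j))]
        refine add_le_add_right ?_ _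
        apply lump hh mω ((mS c).inter (mGd c)) (mS (c + 1)) ((gS c).inter (gU c)) (gS (c + 1))
          (mH c) (nH c) (sH c) (S.mN j) (S.Nstep j) mw
        refine ne_top_of_le_ne_top hfin (fib_mono (fun x => ?_) x0)
        calc w x * H c x (min (N j x) (2 * t c)) ≤ 1 * H c x (min 1 (2 * t c)) :=
              mul_le_mul' (w1 x) (nH c x (min_le_min_right _ (S.N1 j x)))
          _ = H c x (min 1 (2 * t c)) := one_mul _
          _ ≤ F x 1 := hFH c hc x 1 le_rfl
      calc fib W0 (fun x => wc c x * (ω x * Fc c x (Nc c j x))) x0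
            + fib W0 (fun x => (wc c x - wc c (x + h)) * Fc c x (Nc c j (x + h))) x0
          ≤ a c j + (b c j + 2 * (a c j + b c j)) := add_le_add t1 t2
        _ = 3 * (a c j + b c j) := by ring
  -- exceptional labels
  set α : ℕ → ℝ≥0∞ := fun j => fib W0 (fun x => w x * (ω x * I x (N j x))) x0 with hα
  set β : ℕ → ℝ≥0∞ := fun j => fib W0 (fun x => (w x - w (x + h)) * I x (N j (x + h))) x0 with hβ
  set ex : E → ℝ≥0∞ := fun x => ∑ c ∈ Finset.range n, (B2 c).indicator 1 x * fib W (vU c) x
    with hex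
  have mex : Measurable ex := Finset.measurable_sum _ fun c _ =>
    (measurable_one.indicator (mB2 c)).mul (mvU' c)
  have mIM : ∀ j, Measurable fun x => I x (D j x) := fun j => mI.comp (S.mD j)
  have hexc : fib W0 (fun x => w x * ex x) x0 ≤ ∑ j ∈ Finset.range M, Ch * (α j + β j) := by
    have hfree := free_claim hh S mω mI nI fI sI hfinI mw w1 (m := M) le_rfl
    have hfin0 : fib W0 (fun x => w x * I x (D 0 x)) x0 ≠ ⊤ := by
      refine ne_top_of_le_ne_top hfinI (fib_mono (fun x => ?_) x0)
      calc w x * I x (D 0 x) ≤ 1 * I x 1 := mul_le_mul' (w1 x) (nI x (S.D1 0 x))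
        _ = _ := one_mul _
    have hpt : ∀ x, w x * ex x + Ch * (w x * I x (D 0 x)) ≤ Ch * (w x * I x (D M x)) := by
      intro x
      have hmon : Ch * (w x * I x (D 0 x)) ≤ Ch * (w x * I x (D M x)) :=
        mul_le_mul_right (mul_le_mul_right (nI x (S.D_le (Nat.zero_le M) x)) _) _
      by_cases hxR : x ∈ R
      · by_cases hx : ∃ c ∈ Finset.range n, x ∈ B2 c
        · obtain ⟨c, hc, hxc⟩ := hx
          have hc' := Finset.mem_range.1 hc
          have hdis : ∀ c' ∈ Finset.range n, c' ≠ c → x ∉ B2 c' := by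
            intro c' _ hne h3
            have hanti : Antitone Sc := antitone_nat_of_succ_le aS
            rcases lt_or_gt_of_ne hne with hlt | hlt
            · exact h3.1.2 (hanti (Nat.succ_le_of_lt hlt) hxc.1.1)
            · exact hxc.1.2 (hanti (Nat.succ_le_of_lt hlt) h3.1.1)
          have e1 : ex x = fib W (vU c) x := by
            show ∑ c ∈ Finset.range n, (B2 c).indicator 1 x * fib W (vU c) x = _
            rw [Finset.sum_eq_single_of_mem c hc]
            · rw [indicator_of_mem hxc]
              simp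
            · intro c' h1 h2
              rw [indicator_of_notMem (hdis c' h1 h2), zero_mul]
          have h1 : ex x ≤ I x (D M x) := by
            rw [e1]; exact hval c hc' x hxR hxc.1
          have h2 : 2 * D 0 x ≤ D M x := by
            have h3 : D 0 x ≤ t c := ht c hc' x hxR hxc.1.1
            have h4 : 2 * t c < D M x := not_le.1 hxc.2
            exact (mul_le_mul_right h3 2).trans h4.le
          have h5 := hI x (D 0 x) (D M x) h2 (S.D1 M x)
          calc w x * ex x + Ch * (w x * I x (D 0 x))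
              = w x * (ex x + Ch * I x (D 0 x)) := by ring
            _ ≤ w x * (I x (D M x) + Ch * I x (D 0 x)) :=
                mul_le_mul_right (add_le_add_left h1 _) _
            _ ≤ w x * (Ch * I x (D M x)) := mul_le_mul_right h5 _
            _ = _ := by ring
        · have e1 : ex x = 0 := by
            show ∑ c ∈ Finset.range n, (B2 c).indicator 1 x * fib W (vU c) x = 0
            apply Finset.sum_eq_zero
            intro c hc
            rw [indicator_of_notMem (fun h1 => hx ⟨c, hc, h1⟩), zero_mul]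
          rw [e1, mul_zero, zero_add]
          exact hmon
      · rw [wR x hxR, zero_mul, zero_add]
        simp
    have h1 := fib_mono hpt x0 (W := W0)
    rw [fib_add (f := fun x => w x * ex x) (mw.mul mex),
      fib_mul (g := fun _ => Ch) (f := fun x => w x * I x (D 0 x)) (inv_const W0 _)
        (mw.mul (mIM 0)),
      fib_mul (g := fun _ => Ch) (f := fun x => w x * I x (D M x)) (inv_const W0 _)
        (mw.mul (mIM M))] at h1
    have h2 := h1.trans (mul_le_mul_right hfree Ch)
    rw [mul_add, add_comm] at h2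
    have h3 := (ENNReal.add_le_add_iff_left (ENNReal.mul_ne_top hCht hfin0)).mp h2
    rwa [Finset.mul_sum] at h3
  -- assembly
  have eU : ∀ x, w x * nval W n Sc vU x
      = (∑ c ∈ Finset.range n, wc c x * fib W (vU c) x) + w x * ex x := by
    intro x
    show w x * ∑ c ∈ Finset.range n, (B c).indicator 1 x * fib W (vU c) x = _
    have : w x * ex x = ∑ c ∈ Finset.range n, w x * ((B2 c).indicator 1 x * fib W (vU c) x) := by
      rw [hex, Finset.mul_sum]
    rw [this, Finset.mul_sum, ← Finset.sum_add_distrib]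
    refine Finset.sum_congr rfl fun c _ => ?_
    rw [hsplit c x, hwc]
    ring
  have eK : ∀ x, (∑ c ∈ Finset.range n, wc c x * fib W (vK c) x) ≤ w x * nval W n Sc vK x := by
    intro x
    show _ ≤ w x * ∑ c ∈ Finset.range n, (B c).indicator 1 x * fib W (vK c) x
    rw [Finset.mul_sum]
    refine Finset.sum_le_sum fun c _ => ?_
    rw [hsplit c x]
    calc wc c x * fib W (vK c) x = w x * ((B1 c).indicator 1 x * fib W (vK c) x) := by
          rw [hwc]; ring
      _ ≤ _ := by
          apply mul_le_mul_right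
          apply mul_le_mul_left
          exact le_self_add
  have mwU : ∀ c, Measurable fun x => wc c x * fib W (vU c) x := fun c => (mwc c).mul (mvU' c)
  have mwK : ∀ c, Measurable fun x => wc c x * fib W (vK c) x := fun c => (mwc c).mul (mvK' c)
  have h1 : fib W0 (fun x => w x * nval W n Sc vU x) x0
      = ∑ c ∈ Finset.range n, fib W0 (fun x => wc c x * fib W (vU c) x) x0
        + fib W0 (fun x => w x * ex x) x0 := by
    simp_rw [eU]
    rw [fib_add (f := fun x => ∑ c ∈ Finset.range n, wc c x * fib W (vU c) x)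
      (Finset.measurable_sum _ fun c _ => mwU c), fib_finset_sum _ mwU]
  have h2 : ∑ c ∈ Finset.range n, fib W0 (fun x => wc c x * fib W (vK c) x) x0
      ≤ fib W0 (fun x => w x * nval W n Sc vK x) x0 := by
    rw [← fib_finset_sum _ mwK]
    exact fib_mono eK x0
  rw [h1]
  have h3 : ∑ c ∈ Finset.range n, fib W0 (fun x => wc c x * fib W (vU c) x) x0
      ≤ fib W0 (fun x => w x * nval W n Sc vK x) x0
        + ∑ c ∈ Finset.range n, ∑ j ∈ Finset.range M, 3 * (a c j + b c j) := by
    refine (Finset.sum_le_sum fun c hc => hchild c (Finset.mem_range.1 hc)).trans ?_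
    rw [Finset.sum_add_distrib]
    exact add_le_add_left h2 _
  refine (add_le_add h3 hexc).trans ?_
  rw [add_assoc]
  refine add_le_add_right ?_ _
  rw [Finset.sum_comm, ← Finset.sum_add_distrib]
  refine Finset.sum_le_sum fun j hj => ?_
  rw [Finset.mem_range] at hj
  have g1 : 3 * ∑ c ∈ Finset.range n, a c j + Ch * α j
      ≤ fib W0 (fun x => w x * (ω x * F x (N j x))) x0 := by
    have m1 : ∀ c, Measurable fun x => w x * (ω x * H c x (min (N j x) (2 * t c))) := fun c =>
      mw.mul (mω.mul (mH1 c j))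
    have m2 : Measurable fun x => w x * (ω x * I x (N j x)) := mw.mul (mω.mul (mI.comp (S.mN j)))
    rw [ha, hα]
    simp only
    rw [← fib_finset_sum _ m1, ← fib_mul (g := fun _ => (3 : ℝ≥0∞))
      (f := fun x => ∑ c ∈ Finset.range n, w x * (ω x * H c x (min (N j x) (2 * t c))))
      (inv_const W0 _) (Finset.measurable_sum _ fun c _ => m1 c),
      ← fib_mul (g := fun _ => Ch) (inv_const W0 _) m2,
      ← fib_add_right (g := fun x => Ch * (w x * (ω x * I x (N j x)))) (m2.const_mul Ch)]
    apply fib_mono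
    intro x
    rw [← Finset.mul_sum, ← Finset.mul_sum]
    calc 3 * (w x * (ω x * ∑ c ∈ Finset.range n, H c x (min (N j x) (2 * t c))))
          + Ch * (w x * (ω x * I x (N j x)))
        = w x * (ω x * (3 * ∑ c ∈ Finset.range n, H c x (min (N j x) (2 * t c))
          + Ch * I x (N j x))) := by ring
      _ ≤ _ := mul_le_mul_right (mul_le_mul_right (hF x _ (S.N1 j x)) _) _
  have g2 : 3 * ∑ c ∈ Finset.range n, b c j + Ch * β j
      ≤ fib W0 (fun x => (w x - w (x + h)) * F x (N j (x + h))) x0 := by
    have m1 : ∀ c, Measurable fun x => (w x - w (x + h)) * H c x (min (N j (x + h)) (2 * t c)) :=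
      fun c => (mw.sub mwh).mul (mH2 c j)
    have m2 : Measurable fun x => (w x - w (x + h)) * I x (N j (x + h)) :=
      (mw.sub mwh).mul (mI.comp (S.mNh j))
    rw [hb, hβ]
    simp only
    rw [← fib_finset_sum _ m1, ← fib_mul (g := fun _ => (3 : ℝ≥0∞))
      (f := fun x => ∑ c ∈ Finset.range n,
        (w x - w (x + h)) * H c x (min (N j (x + h)) (2 * t c)))
      (inv_const W0 _) (Finset.measurable_sum _ fun c _ => m1 c),
      ← fib_mul (g := fun _ => Ch) (inv_const W0 _) m2,
      ← fib_add_right (g := fun x => Ch * ((w x - w (x + h)) * I x (N j (x + h))))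
        (m2.const_mul Ch)]
    apply fib_mono
    intro x
    rw [← Finset.mul_sum]
    calc 3 * ((w x - w (x + h)) * ∑ c ∈ Finset.range n, H c x (min (N j (x + h)) (2 * t c)))
          + Ch * ((w x - w (x + h)) * I x (N j (x + h)))
        = (w x - w (x + h)) * (3 * ∑ c ∈ Finset.range n, H c x (min (N j (x + h)) (2 * t c))
          + Ch * I x (N j (x + h))) := by ring
      _ ≤ _ := mul_le_mul_right (hF x _ (S.N1 j _)) _
  calc ∑ c ∈ Finset.range n, 3 * (a c j + b c j) + Ch * (α j + β j)
      = (3 * ∑ c ∈ Finset.range n, a c j + Ch * α j)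
        + (3 * ∑ c ∈ Finset.range n, b c j + Ch * β j) := by
        rw [← Finset.mul_sum, Finset.sum_add_distrib]
        ring
    _ ≤ _ := add_le_add g1 g2

end Vale.Agent.P262.H837
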