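import Vale.Agent.P262.H395.Fib
import Vale.Agent.P262.H912.Shift

/-!
# P262, block THR (sharp throughput), part A: four points, shadows, one direction

`fib_shift` is the Cameron-Martin formula on the fibres, `four_pt` the concavity inequality and
`dir_bound` the line lemma in one label direction: all increments of `fib W (indicator) ^ s` caused
by pushing a convex body along `e` are paid by the shadow masses.
-/

set_option linter.all false

open MeasureTheory ProbabilityTheory Set
open scoped ENNReal RealInnerProductSpace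

namespace Vale.Agent.P262.H837

open Vale.Agent.P262.H395

lemma four_pt_real {s : ℝ} (h0 : 0 ≤ s) (h1 : s ≤ 1) {D M δ : ℝ} (hM : 0 ≤ M) (hMD : M ≤ D)
    (hδ : 0 ≤ δ) : (D + δ) ^ s + M ^ s ≤ D ^ s + (M + δ) ^ s := by
  rcases eq_or_lt_of_le (show 0 ≤ D + δ - M by linarith) with hL | hL
  · have h2 : D = M := by linarith
    have h3 : δ = 0 := by linarith
    subst h2; subst h3
    simp
  · have hc := Real.concaveOn_rpow h0 h1
    have hx : M ∈ Ici (0 : ℝ) := hM
    have hy : D + δ ∈ Ici (0 : ℝ) := by
      show 0 ≤ D + δ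
      linarith
    set L := D + δ - M with hLdef
    have a1 : 0 ≤ (D - M) / L := div_nonneg (by linarith) hL.le
    have a2 : 0 ≤ δ / L := div_nonneg hδ hL.le
    have a3 : (D - M) / L + δ / L = 1 := by
      rw [← add_div, div_eq_one_iff_eq hL.ne']
      rw [hLdef]; ring
    have a4 : δ / L + (D - M) / L = 1 := by rw [add_comm]; exact a3
    have e1 := hc.2 hx hy a1 a2 a3
    have e2 := hc.2 hx hy a2 a1 a4
    simp only [smul_eq_mul] at e1 e2
    have p1 : (D - M) / L * M + δ / L * (D + δ) = M + δ := by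
      field_simp
      rw [hLdef]; ring
    have p2 : δ / L * M + (D - M) / L * (D + δ) = D := by
      field_simp
      rw [hLdef]; ring
    rw [p1] at e1
    rw [p2] at e2
    have p3 : (D - M) / L * M ^ s + δ / L * (D + δ) ^ s + (δ / L * M ^ s + (D - M) / L * (D + δ) ^ s)
        = ((D - M) / L + δ / L) * (M ^ s + (D + δ) ^ s) := by ring
    rw [a3, one_mul] at p3
    linarith

lemma four_pt {s : ℝ} (h0 : 0 ≤ s) (h1 : s ≤ 1) {D M δ : ℝ≥0∞} (hMD : M ≤ D) (hD : D ≠ ⊤)
    (hδ : δ ≠ ⊤) : (D + δ) ^ s + M ^ s ≤ D ^ s + (M + δ) ^ s := by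
  have hM : M ≠ ⊤ := ne_top_of_le_ne_top hD hMD
  lift D to NNReal using hD
  lift M to NNReal using hM
  lift δ to NNReal using hδ
  have hMD' : (M : ℝ) ≤ (D : ℝ) := by exact_mod_cast hMD
  have key := four_pt_real h0 h1 (D := (D : ℝ)) (M := (M : ℝ)) (δ := (δ : ℝ)) M.2 hMD' δ.2
  have e : ∀ a : NNReal, ((a : ℝ≥0∞)) ^ s = ((a ^ s : NNReal) : ℝ≥0∞) := fun a =>
    (ENNReal.coe_rpow_of_nonneg a h0).symm
  rw [← ENNReal.coe_add, ← ENNReal.coe_add, e, e, e, e, ← ENNReal.coe_add, ← ENNReal.coe_add,
    ENNReal.coe_le_coe, ← NNReal.coe_le_coe]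
  push_cast
  exact key

variable {E : Type*} [NormedAddCommGroup E] [InnerProductSpace ℝ E] [FiniteDimensional ℝ E]
  [MeasurableSpace E] [BorelSpace E]

/-- the density of the standard Gaussian law shifted by `h` -/
noncomputable def dens (h x : E) : ℝ≥0∞ := ENNReal.ofReal (Real.exp (⟪h, x⟫ - ‖h‖ ^ 2 / 2))

lemma measurable_dens (h : E) : Measurable (dens h) := by
  unfold dens
  fun_prop

lemma lintegral_shift {F : E → ℝ≥0∞} (hF : Measurable F) (h : E) :
    ∫⁻ x, F (x + h) ∂stdGaussian E = ∫⁻ x, F x * dens h x ∂stdGaussian E := by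
  have h1 : ∫⁻ x, F (x + h) ∂stdGaussian E = ∫⁻ x, F x ∂((stdGaussian E).map fun x => x + h) := by
    rw [lintegral_map hF (by fun_prop)]
  rw [h1, Vale.Agent.P262.H912.map_add_stdGaussian h]
  show ∫⁻ x, F x ∂((stdGaussian E).withDensity (dens h)) = _
  rw [lintegral_withDensity_eq_lintegral_mul _ (measurable_dens h) hF]
  apply lintegral_congr
  intro x
  simp only [Pi.mul_apply]
  rw [mul_comm]

/-- Cameron-Martin on the fibre -/
lemma fib_shift {W : Submodule ℝ E} {F : E → ℝ≥0∞} (hF : Measurable F) {h : E} (hh : h ∈ Wᗮ)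
    (x0 : E) : fib W (fun x => F (x + h)) x0 = fib W (fun x => F x * dens h x) x0 := by
  unfold fib
  have hp : W.starProjection h = 0 := proj_eq_zero hh
  have e1 : ∀ z, mix W x0 z + h = mix W x0 (z + h) := by
    intro z
    unfold mix
    rw [map_add, hp, add_zero]
    abel
  simp_rw [e1]
  rw [lintegral_shift (F := fun z => F (mix W x0 z)) (hF.comp (measurable_mix_right W x0)) h]
  apply lintegral_congr
  intro z
  congr 1
  unfold dens
  congr 3
  unfold mix
  rw [inner_add_right, inner_sub_right]
  have h2 : ∀ y, ⟪h, W.starProjection y⟫ = 0 := fun y => by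
    rw [← Submodule.inner_starProjection_left_eq_right, hp, inner_zero_left]
  rw [h2, h2]
  ring

/-- shifts inside the label space commute with the fibre average -/
lemma fib_add_label {W : Submodule ℝ E} (F : E → ℝ≥0∞) {h : E} (hh : h ∈ W) (x : E) :
    fib W F (x + h) = fib W (fun y => F (y + h)) x := by
  unfold fib
  apply lintegral_congr
  intro z
  have hp : W.starProjection h = h := Submodule.starProjection_eq_self_iff.mpr hh
  congr 1
  unfold mix
  rw [map_add, hp]
  abel

/-- **core of the line lemma** -/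
theorem core {W0 : Submodule ℝ E} {h : E} (hh : h ∈ W0ᗮ) {g P Q N : E → ℝ≥0∞}
    (hg : Measurable g) (hP : Measurable P) (hQ : Measurable Q) (hN : Measurable N)
    (H : ∀ x, Q x + N x ≤ P x + N (x + h)) {x0 : E}
    (hfin : fib W0 (fun x => g x * N x) x0 ≠ ⊤) :
    fib W0 (fun x => g x * Q x) x0 ≤ fib W0 (fun x => g x * P x) x0
      + fib W0 (fun x => (g (x - h) * dens h x - g x) * N x) x0 := by
  have m1 : Measurable fun x => g (x - h) := hg.comp (measurable_id.sub_const h)
  have h1 : fib W0 (fun x => g x * Q x) x0 + fib W0 (fun x => g x * N x) x0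
      ≤ fib W0 (fun x => g x * P x) x0 + fib W0 (fun x => g x * N (x + h)) x0 := by
    rw [← fib_add (f := fun x => g x * Q x) (hg.mul hQ),
      ← fib_add (f := fun x => g x * P x) (hg.mul hP)]
    apply fib_mono
    intro x
    rw [← mul_add, ← mul_add]
    exact mul_le_mul_right (H x) _
  have h2 : fib W0 (fun x => g x * N (x + h)) x0
      = fib W0 (fun x => g (x - h) * N x * dens h x) x0 := by
    rw [← fib_shift (F := fun x => g (x - h) * N x) (m1.mul hN) hh]
    simp only [add_sub_cancel_right]
  have h3 : fib W0 (fun x => g (x - h) * N x * dens h x) x0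
      ≤ fib W0 (fun x => (g (x - h) * dens h x - g x) * N x) x0
        + fib W0 (fun x => g x * N x) x0 := by
    rw [← fib_add_right (g := fun x => g x * N x) (hg.mul hN)]
    apply fib_mono
    intro x
    rw [← add_mul, mul_right_comm]
    exact mul_le_mul_left le_tsub_add _
  rw [h2] at h1
  have h4 := h1.trans (add_le_add_right h3 _)
  rw [← add_assoc] at h4
  exact (ENNReal.add_le_add_iff_right hfin).mp h4

end Vale.Agent.P262.H837
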