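import Vale.Agent.P262.H837.ThrD

/-!
# P262, block THR (sharp throughput), part E: assembly of finitely many directions
-/

set_option linter.all false

open MeasureTheory ProbabilityTheory Set
open scoped ENNReal RealInnerProductSpace Pointwise

namespace Vale.Agent.P262.H837

open Vale.Agent.P262.H395

/-- increments of the `s`-th power are subadditive -/
lemma pow_sum {ι : Type*} (J : Finset ι) {s : ℝ} (h0 : 0 ≤ s) (h1 : s ≤ 1) {D : ℝ≥0∞}
    (hD : D ≠ ⊤) {δ : ι → ℝ≥0∞} (hδ : ∀ i ∈ J, δ i ≠ ⊤) :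
    (D + ∑ i ∈ J, δ i) ^ s + (J.card : ℝ≥0∞) * D ^ s ≤ D ^ s + ∑ i ∈ J, (D + δ i) ^ s := by
  classical
  induction J using Finset.induction_on with
  | empty => simp
  | insert i J hi ih =>
    have ih' := ih (fun j hj => hδ j (Finset.mem_insert_of_mem hj))
    rw [Finset.sum_insert hi, Finset.sum_insert hi, Finset.card_insert_of_notMem hi]
    have hS : ∑ j ∈ J, δ j ≠ ⊤ := ENNReal.sum_ne_top.mpr
      (fun j hj => hδ j (Finset.mem_insert_of_mem hj))
    have h2 := four_pt h0 h1 (D := D + ∑ j ∈ J, δ j) (M := D) (δ := δ i) le_self_add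
      (ENNReal.add_ne_top.mpr ⟨hD, hS⟩) (hδ i (Finset.mem_insert_self i J))
    have e1 : D + (δ i + ∑ j ∈ J, δ j) = D + ∑ j ∈ J, δ j + δ i := by ring
    rw [e1]
    push_cast
    calc (D + ∑ j ∈ J, δ j + δ i) ^ s + ((J.card : ℝ≥0∞) + 1) * D ^ s
        = ((D + ∑ j ∈ J, δ j + δ i) ^ s + D ^ s) + (J.card : ℝ≥0∞) * D ^ s := by ring
      _ ≤ ((D + ∑ j ∈ J, δ j) ^ s + (D + δ i) ^ s) + (J.card : ℝ≥0∞) * D ^ s :=
        add_le_add_left h2 _
      _ = ((D + ∑ j ∈ J, δ j) ^ s + (J.card : ℝ≥0∞) * D ^ s) + (D + δ i) ^ s := by ring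
      _ ≤ (D ^ s + ∑ j ∈ J, (D + δ j) ^ s) + (D + δ i) ^ s := add_le_add_left ih' _
      _ = D ^ s + ((D + δ i) ^ s + ∑ j ∈ J, (D + δ j) ^ s) := by ring

/-- `x (D)^(-th)` for `x ≤ D` -/
lemma mul_rpow_neg_le {th s : ℝ} (hth : 0 < th) (hs : 0 < s) (hsum : th + s = 1) {x D : ℝ≥0∞}
    (hx : x ≤ D) (hxt : x ≠ ⊤) : x * (D ^ th)⁻¹ ≤ x ^ s := by
  rcases eq_or_ne x 0 with h0 | h0
  · rw [h0, zero_mul]; exact zero_le
  · have h1 : x ^ th ≤ D ^ th := ENNReal.rpow_le_rpow hx hth.le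
    calc x * (D ^ th)⁻¹ ≤ x * (x ^ th)⁻¹ := mul_le_mul_right (ENNReal.inv_le_inv.mpr h1) _
      _ = x ^ (1 : ℝ) * x ^ (-th) := by rw [ENNReal.rpow_one, ENNReal.rpow_neg]
      _ = x ^ s := by
        rw [← ENNReal.rpow_add _ _ h0 hxt]
        congr 1
        linarith

lemma Psi_one_mul {th s : ℝ} (hth : 0 < th) (hs : 0 < s) (hsum : th + s = 1) {D : ℝ≥0∞}
    (hD : D ≠ ⊤) : Psi 1 D * (D ^ th)⁻¹ ≤ Psi s D := by
  unfold Psi
  rw [← ENNReal.tsum_mul_right]
  apply ENNReal.tsum_le_tsum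
  intro m
  rw [ENNReal.rpow_one]
  exact mul_rpow_neg_le hth hs hsum (min_le_left _ _) (ne_top_of_le_ne_top hD (min_le_left _ _))

/-- `(D + δ)^s ≤ D^s + δ D^(-th)` -/
lemma add_rpow_le {th s : ℝ} (hth : 0 < th) (hs : 0 < s) (hsum : th + s = 1) {D δ : ℝ≥0∞}
    (hD : D ≠ ⊤) (hδ : δ ≠ ⊤) : (D + δ) ^ s ≤ D ^ s + δ * (D ^ th)⁻¹ := by
  rcases eq_or_ne (D + δ) 0 with h0 | h0
  · rw [h0, ENNReal.zero_rpow_of_pos hs]; exact zero_le
  · rcases eq_or_ne D 0 with hD0 | hD0
    · have hδ0 : δ ≠ 0 := by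
        intro h; rw [hD0, h, add_zero] at h0; exact h0 rfl
      rw [hD0, ENNReal.zero_rpow_of_pos hth, ENNReal.inv_zero, ENNReal.mul_top hδ0]
      exact le_add_left le_top
    have hDδ : D + δ ≠ ⊤ := ENNReal.add_ne_top.mpr ⟨hD, hδ⟩
    have h1 : D ^ th ≤ (D + δ) ^ th := ENNReal.rpow_le_rpow le_self_add hth.le
    have e1 : ∀ y : ℝ≥0∞, y ≠ 0 → y ≠ ⊤ → y ^ s = y * (y ^ th)⁻¹ := by
      intro y hy hyt
      rw [← ENNReal.rpow_neg]
      nth_rewrite 2 [← ENNReal.rpow_one y]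
      rw [← ENNReal.rpow_add _ _ hy hyt]
      congr 1
      linarith
    rw [e1 _ h0 hDδ, e1 _ hD0 hD, ← add_mul]
    exact mul_le_mul_right (ENNReal.inv_le_inv.mpr h1) _

variable {E : Type*} [NormedAddCommGroup E] [InnerProductSpace ℝ E] [FiniteDimensional ℝ E]
  [MeasurableSpace E] [BorelSpace E]

lemma fib_ind_ne_top (W : Submodule ℝ E) (S : Set E) (x : E) :
    fib W (S.indicator 1) x ≠ ⊤ := by
  have : fib W (S.indicator 1) x ≤ 1 := fib_le_one (fun y => by
    by_cases h : y ∈ S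
    · rw [indicator_of_mem h]; simp
    · rw [indicator_of_notMem h]; exact zero_le) x
  exact ne_top_of_le_ne_top ENNReal.one_ne_top this

lemma fib_finset_sum {W : Submodule ℝ E} {ι : Type*} (J : Finset ι) {F : ι → E → ℝ≥0∞}
    (hF : ∀ i, Measurable (F i)) (x : E) :
    fib W (fun y => ∑ i ∈ J, F i y) x = ∑ i ∈ J, fib W (F i) x := by
  unfold fib
  exact lintegral_finsetSum _ (fun i _ => (hF i).comp (measurable_mix_right W x))

/-- the bound for one label direction with the caps inserted -/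
theorem dir_cap {W0 W : Submodule ℝ E} (hW : W0 ≤ W) {K : Set E} (hKc : IsCompact K)
    (hK : Convex ℝ K) {e : E} (he : e ∈ W) (he0 : e ∈ W0ᗮ) {η : ℝ} (hη : 0 ≤ η) {n : E → ℕ}
    (hnm : Measurable n) (hn : ∀ x, n (x + η • e) = n x) {th s : ℝ} (hth : 0 < th) (hs : 0 < s)
    (hsum : th + s = 1) {A ω : E → ℝ≥0∞} (hA : Measurable A) (hω : Measurable ω)
    (hdef : ∀ x, A (x - η • e) ^ th * dens (η • e) x ≤ A x ^ th + ω x * A x ^ th) {x0 : E}
    (hfin : fib W0 (fun x => A x ^ th) x0 ≠ ⊤) (m : ℕ) :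
    fib W0 (fun x => A x ^ th * Dm W K e η n m x ^ s) x0
      ≤ fib W0 (fun x => A x ^ th * fib W (Kᶜ.indicator 1) x ^ s) x0
        + ∑ j ∈ Finset.range m, fib W0 (fun x => ω x ^ (1 / th) * A x) x0 ^ th
          * fib W0 ((Tset K e η n j).indicator 1) x0 ^ s := by
  refine (dir_bound hKc hK he he0 hη hnm hn hs.le (by linarith) (hA.pow_const th) hfin m).trans ?_
  refine add_le_add_right (Finset.sum_le_sum fun j _ => ?_) _
  have h1 : ∀ x, (A (x - η • e) ^ th * dens (η • e) x - A x ^ th) * Nm W K e η n j x ^ s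
      ≤ (ω x * A x ^ th) * Nm W K e η n j x ^ s := by
    intro x
    apply mul_le_mul_left
    rw [tsub_le_iff_left]
    exact hdef x
  refine (fib_mono h1 x0).trans ?_
  refine (fib_holder hth hs hsum (X := fun x => ω x * A x ^ th) (hω.mul (hA.pow_const th))
    (measurable_Nm W hKc e η hnm j) x0).trans ?_
  apply mul_le_mul' _ (le_of_eq _)
  · apply ENNReal.rpow_le_rpow _ hth.le
    apply fib_mono
    intro x
    rw [ENNReal.mul_rpow_of_nonneg _ _ (by positivity), ← ENNReal.rpow_mul,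
      mul_one_div_cancel hth.ne', ENNReal.rpow_one]
  · congr 1
    unfold Nm
    exact fib_tower hW (measurable_one.indicator (measurableSet_Tset hKc e η hnm j)) x0

/-- the bound for one fibre direction -/
theorem fibre_cap {W0 W : Submodule ℝ E} (hW : W0 ≤ W) {K : Set E} (hKc : IsCompact K)
    (hK : Convex ℝ K) {R : ℝ} (hR : 0 ≤ R) (hKR : ∀ x ∈ K, ‖x‖ ≤ R) {f : E} (hf : f ∈ Wᗮ)
    (hfn : ‖f‖ = 1) {a : E → ℝ} (ham : Measurable a) (ha : ∀ x, 0 ≤ a x)
    (haR : ∀ x, a x * (R + 2) ≤ 1) (hainv : ∀ x, ∀ w ∈ Wᗮ, a (x + w) = a x) {th s : ℝ}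
    (hth : 0 < th) (hs : 0 < s) (hsum : th + s = 1) {A : E → ℝ≥0∞} (hA : Measurable A) (x0 : E) :
    fib W0 (fun x => A x ^ th * (fib W (Kᶜ.indicator 1) x
        + fib W ({y | y ∈ K ∧ y + a y • f ∉ K}.indicator 1) x) ^ s) x0
      ≤ fib W0 (fun x => A x ^ th * fib W (Kᶜ.indicator 1) x ^ s) x0
        + fib W0 (fun x => ENNReal.ofReal (5 * a x) ^ (1 / th) * A x) x0 ^ th
          * Psi s (fib W0 (Kᶜ.indicator 1) x0) := by
  have hKm := hKc.measurableSet
  have hDm : Measurable (fib W (Kᶜ.indicator (1 : E → ℝ≥0∞))) :=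
    measurable_fib (measurable_one.indicator hKm.compl)
  have ha5 : Measurable fun x => ENNReal.ofReal (5 * a x) := (ham.const_mul 5).ennreal_ofReal
  -- pointwise
  have hamix : ∀ x z, a (mix W x z) = a x := by
    intro x z
    have h1 : mix W x z = x + (mix W x z - x) := by abel
    have h2 : mix W x z - x ∈ Wᗮ := by
      rw [← Submodule.starProjection_apply_eq_zero_iff, map_sub, starProjection_mix, sub_self]
    rw [h1]
    exact hainv x _ h2
  have hδ : ∀ x, fib W ({y | y ∈ K ∧ y + a y • f ∉ K}.indicator 1) x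
      = fib W ({y | y ∈ K ∧ y + a x • f ∉ K}.indicator 1) x := by
    intro x
    unfold fib
    apply lintegral_congr
    intro z
    have : (mix W x z ∈ {y | y ∈ K ∧ y + a y • f ∉ K}) ↔ (mix W x z ∈ {y | y ∈ K ∧ y + a x • f ∉ K}) := by
      simp only [mem_setOf_eq, hamix]
    by_cases h : mix W x z ∈ {y | y ∈ K ∧ y + a y • f ∉ K}
    · rw [indicator_of_mem h, indicator_of_mem (this.mp h)]
    · rw [indicator_of_notMem h, indicator_of_notMem (fun hc => h (this.mpr hc))]
  have hpt : ∀ x, A x ^ th * (fib W (Kᶜ.indicator 1) x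
        + fib W ({y | y ∈ K ∧ y + a y • f ∉ K}.indicator 1) x) ^ s
      ≤ A x ^ th * fib W (Kᶜ.indicator 1) x ^ s
        + A x ^ th * (ENNReal.ofReal (5 * a x) * Psi s (fib W (Kᶜ.indicator 1) x)) := by
    intro x
    rw [← mul_add]
    apply mul_le_mul_right
    refine (add_rpow_le hth hs hsum (fib_ind_ne_top W _ x) (fib_ind_ne_top W _ x)).trans ?_
    refine add_le_add_right ?_ _
    rw [hδ x]
    have h1 := fibre_dir hf hfn hKc hK hR hKR (ha x) (haR x) x
    calc fib W ({y | y ∈ K ∧ y + a x • f ∉ K}.indicator 1) x * (fib W (Kᶜ.indicator 1) x ^ th)⁻¹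
        ≤ ENNReal.ofReal (5 * a x) * Psi 1 (fib W (Kᶜ.indicator 1) x)
            * (fib W (Kᶜ.indicator 1) x ^ th)⁻¹ := mul_le_mul_left h1 _
      _ = ENNReal.ofReal (5 * a x) * (Psi 1 (fib W (Kᶜ.indicator 1) x)
            * (fib W (Kᶜ.indicator 1) x ^ th)⁻¹) := mul_assoc _ _ _
      _ ≤ _ := mul_le_mul_right (Psi_one_mul hth hs hsum (fib_ind_ne_top W _ x)) _
  refine (fib_mono hpt x0).trans ?_
  rw [fib_add (f := fun x => A x ^ th * fib W (Kᶜ.indicator 1) x ^ s)
    ((hA.pow_const th).mul (hDm.pow_const s))]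
  refine add_le_add_right ?_ _
  -- the sum over the layers
  have e1 : ∀ x, A x ^ th * (ENNReal.ofReal (5 * a x) * Psi s (fib W (Kᶜ.indicator 1) x))
      = ∑' m : ℕ, (ENNReal.ofReal (5 * a x) * A x ^ th)
          * min (fib W (Kᶜ.indicator 1) x) (pg m) ^ s := by
    intro x
    unfold Psi
    rw [← mul_assoc, mul_comm (A x ^ th), ENNReal.tsum_mul_left]
  simp_rw [e1]
  have e2 : fib W0 (fun x => ∑' m : ℕ, (ENNReal.ofReal (5 * a x) * A x ^ th)
          * min (fib W (Kᶜ.indicator 1) x) (pg m) ^ s) x0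
      = ∑' m : ℕ, fib W0 (fun x => (ENNReal.ofReal (5 * a x) * A x ^ th)
          * min (fib W (Kᶜ.indicator 1) x) (pg m) ^ s) x0 := by
    have hmm : ∀ m : ℕ, Measurable fun x => (ENNReal.ofReal (5 * a x) * A x ^ th)
          * min (fib W (Kᶜ.indicator 1) x) (pg m) ^ s := fun m =>
      (ha5.mul (hA.pow_const th)).mul ((hDm.min measurable_const).pow_const s)
    exact lintegral_tsum (fun m => ((hmm m).comp (measurable_mix_right W0 x0)).aemeasurable)
  rw [e2]
  unfold Psi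
  rw [← ENNReal.tsum_mul_left]
  apply ENNReal.tsum_le_tsum
  intro m
  refine (fib_holder hth hs hsum (X := fun x => ENNReal.ofReal (5 * a x) * A x ^ th)
    (Y := fun x => min (fib W (Kᶜ.indicator 1) x) (pg m)) (ha5.mul (hA.pow_const th))
    (hDm.min measurable_const) x0).trans ?_
  apply mul_le_mul'
  · apply ENNReal.rpow_le_rpow _ hth.le
    apply fib_mono
    intro x
    rw [ENNReal.mul_rpow_of_nonneg _ _ (by positivity), ← ENNReal.rpow_mul,
      mul_one_div_cancel hth.ne', ENNReal.rpow_one]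
  · apply ENNReal.rpow_le_rpow _ hs.le
    apply le_min
    · refine (fib_mono (fun x => min_le_left _ _) x0).trans ?_
      rw [fib_tower hW (measurable_one.indicator hKm.compl)]
    · refine (fib_mono (fun x => min_le_right _ _) x0).trans ?_
      rw [fib_const]

/-- **the general throughput theorem**: the points of `G ⊆ K` leave `K` along one of finitely
many label directions `d i` (at most `M` steps `η`) or fibre directions `f l`. -/
theorem thr_abs {W0 W : Submodule ℝ E} (hW : W0 ≤ W) {K : Set E} (hKc : IsCompact K)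
    (hK : Convex ℝ K) {R : ℝ} (hR : 0 ≤ R) (hKR : ∀ x ∈ K, ‖x‖ ≤ R) {ι κ : Type*} [Fintype ι]
    [Fintype κ] {d : ι → E} (hd : ∀ i, d i ∈ W) (hd0 : ∀ i, d i ∈ W0ᗮ) {η : ℝ} (hη : 0 ≤ η)
    {n : ι → E → ℕ} (hnm : ∀ i, Measurable (n i)) (hn : ∀ i x, n i (x + η • d i) = n i x)
    {f : κ → E} (hf : ∀ l, f l ∈ Wᗮ) (hfn : ∀ l, ‖f l‖ = 1) {a : κ → E → ℝ}
    (ham : ∀ l, Measurable (a l)) (ha : ∀ l x, 0 ≤ a l x) (haR : ∀ l x, a l x * (R + 2) ≤ 1)
    (hainv : ∀ l x, ∀ w ∈ Wᗮ, a l (x + w) = a l x) {th s : ℝ}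
    (hth : 0 < th) (hs : 0 < s) (hsum : th + s = 1) {A : E → ℝ≥0∞} (hA : Measurable A)
    {ω : ι → E → ℝ≥0∞} (hω : ∀ i, Measurable (ω i))
    (hdef : ∀ i x, A (x - η • d i) ^ th * dens (η • d i) x ≤ A x ^ th + ω i x * A x ^ th)
    {G : Set E} (hG : MeasurableSet G) {M : ℕ}
    (hleave : ∀ x ∈ G, x ∉ K ∨ (∃ i, ∃ j : ℕ, j ≤ M ∧ j ≤ n i x ∧ x + ((j : ℝ) * η) • d i ∉ K)
      ∨ ∃ l, x ∈ K ∧ x + a l x • f l ∉ K)
    {x0 : E} (hfin : fib W0 (fun x => A x ^ th) x0 ≠ ⊤) :
    fib W0 (fun x => A x ^ th * fib W ((Kᶜ ∪ G).indicator 1) x ^ s) x0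
      ≤ fib W0 (fun x => A x ^ th * fib W (Kᶜ.indicator 1) x ^ s) x0
        + ((∑ i, ∑ j ∈ Finset.range M, fib W0 (fun x => ω i x ^ (1 / th) * A x) x0 ^ th
          * fib W0 ((Tset K (d i) η (n i) j).indicator 1) x0 ^ s)
        + ∑ l, fib W0 (fun x => ENNReal.ofReal (5 * a l x) ^ (1 / th) * A x) x0 ^ th
          * Psi s (fib W0 (Kᶜ.indicator 1) x0)) := by
  classical
  have hKm := hKc.measurableSet
  set D : E → ℝ≥0∞ := fib W (Kᶜ.indicator 1) with hD
  have hDm : Measurable D := measurable_fib (measurable_one.indicator hKm.compl)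
  have hDt : ∀ x, D x ≠ ⊤ := fun x => fib_ind_ne_top W _ x
  set V : ι → Set E := fun i => Uset K (d i) η (n i) M \ Kᶜ with hV
  have hUm : ∀ i, MeasurableSet (Uset K (d i) η (n i) M) := fun i =>
    measurableSet_Uset hKm (d i) η (hnm i) M
  have hVm : ∀ i, MeasurableSet (V i) := fun i => (hUm i).diff hKm.compl
  set F : κ → Set E := fun l => {y | y ∈ K ∧ y + a l y • f l ∉ K} with hF
  have hFm : ∀ l, MeasurableSet (F l) := fun l =>
    hKm.inter ((measurable_id.add ((ham l).smul_const (f l))) hKm.compl)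
  have hs1 : s ≤ 1 := by linarith
  set X : ℝ≥0∞ := fib W0 (fun x => A x ^ th * D x ^ s) x0 with hX
  have hXt : X ≠ ⊤ := by
    refine ne_top_of_le_ne_top hfin (fib_mono (fun x => ?_) x0)
    calc A x ^ th * D x ^ s ≤ A x ^ th * 1 := by
          apply mul_le_mul_right
          apply ENNReal.rpow_le_one _ hs.le
          have := Dm_le_one W K (0 : E) 0 (fun _ => 0) 0 x
          unfold Dm at this
          rwa [Uset_zero] at this
      _ = A x ^ th := mul_one _
  -- the label directions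
  have hUD : ∀ i x, D x + fib W ((V i).indicator 1) x = Dm W K (d i) η (n i) M x := by
    intro i x
    unfold Dm
    rw [hD, ← fib_add (measurable_one.indicator hKm.compl)]
    congr 1
    funext y
    have hsub : Kᶜ ⊆ Uset K (d i) η (n i) M := by
      rw [← Uset_zero K (d i) η (n i)]
      exact Uset_mono _ _ _ _ (Nat.zero_le _)
    by_cases hy : y ∈ Kᶜ
    · rw [indicator_of_mem hy, indicator_of_mem (hsub hy),
        indicator_of_notMem (fun h : y ∈ V i => h.2 hy), add_zero]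
    · by_cases hy' : y ∈ Uset K (d i) η (n i) M
      · rw [indicator_of_notMem hy, indicator_of_mem hy',
          indicator_of_mem (show y ∈ V i from ⟨hy', hy⟩), zero_add]
      · rw [indicator_of_notMem hy, indicator_of_notMem hy',
          indicator_of_notMem (fun h : y ∈ V i => hy' h.1), zero_add]
  -- pointwise domination
  have hdom : ∀ x, fib W ((Kᶜ ∪ G).indicator 1) x
      ≤ D x + ∑ q : ι ⊕ κ, Sum.elim (fun i => fib W ((V i).indicator 1) x)
        (fun l => fib W ((F l).indicator 1) x) q := by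
    intro x
    rw [Fintype.sum_sum_type]
    simp only [Sum.elim_inl, Sum.elim_inr]
    have h1 : ∀ y, (Kᶜ ∪ G).indicator (1 : E → ℝ≥0∞) y
        ≤ Kᶜ.indicator 1 y + ((∑ i, (V i).indicator 1 y) + ∑ l, (F l).indicator 1 y) := by
      intro y
      by_cases hy : y ∈ Kᶜ
      · rw [indicator_of_mem (show y ∈ Kᶜ ∪ G from Or.inl hy), indicator_of_mem hy]
        exact le_self_add
      · by_cases hy2 : y ∈ G
        · rw [indicator_of_mem (show y ∈ Kᶜ ∪ G from Or.inr hy2), indicator_of_notMem hy, zero_add]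
          rcases hleave y hy2 with h | ⟨i, hi⟩ | ⟨l, hl⟩
          · exact absurd h hy
          · have h3 : y ∈ V i := by
              obtain ⟨j, hj1, hj2, hj3⟩ := hi
              exact ⟨⟨j, hj1, hj2, hj3⟩, hy⟩
            have h4 : (V i).indicator (1 : E → ℝ≥0∞) y ≤ ∑ i, (V i).indicator 1 y :=
              Finset.single_le_sum (f := fun i => (V i).indicator (1 : E → ℝ≥0∞) y)
                (fun _ _ => zero_le) (Finset.mem_univ i)
            rw [indicator_of_mem h3] at h4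
            exact h4.trans le_self_add
          · have h3 : y ∈ F l := hl
            have h4 : (F l).indicator (1 : E → ℝ≥0∞) y ≤ ∑ l, (F l).indicator 1 y :=
              Finset.single_le_sum (f := fun l => (F l).indicator (1 : E → ℝ≥0∞) y)
                (fun _ _ => zero_le) (Finset.mem_univ l)
            rw [indicator_of_mem h3] at h4
            exact h4.trans le_add_self
        · rw [indicator_of_notMem (fun h => h.elim hy hy2)]
          exact zero_le
    have hsV : Measurable fun y => ∑ i, (V i).indicator (1 : E → ℝ≥0∞) y :=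
      Finset.measurable_sum _ (fun i _ => measurable_one.indicator (hVm i))
    have e2 : fib W (fun y => Kᶜ.indicator (1 : E → ℝ≥0∞) y
        + ((∑ i, (V i).indicator 1 y) + ∑ l, (F l).indicator 1 y)) x
        = D x + ((∑ i, fib W ((V i).indicator 1) x) + ∑ l, fib W ((F l).indicator 1) x) := by
      rw [fib_add (f := fun y => Kᶜ.indicator (1 : E → ℝ≥0∞) y)
        (measurable_one.indicator hKm.compl), fib_add hsV,
        fib_finset_sum _ (fun i => measurable_one.indicator (hVm i)),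
        fib_finset_sum _ (fun l => measurable_one.indicator (hFm l))]
    rw [← e2]
    exact fib_mono h1 x
  have hpt : ∀ x, A x ^ th * fib W ((Kᶜ ∪ G).indicator 1) x ^ s
      + ((Fintype.card (ι ⊕ κ) : ℕ) : ℝ≥0∞) * (A x ^ th * D x ^ s)
      ≤ A x ^ th * D x ^ s + ((∑ i, A x ^ th * Dm W K (d i) η (n i) M x ^ s)
        + ∑ l, A x ^ th * (D x + fib W ((F l).indicator 1) x) ^ s) := by
    intro x
    have h1 := pow_sum (Finset.univ : Finset (ι ⊕ κ)) hs.le hs1 (hDt x)
      (δ := Sum.elim (fun i => fib W ((V i).indicator 1) x)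
        (fun l => fib W ((F l).indicator 1) x)) (by
        rintro (i | l) _
        · exact fib_ind_ne_top W _ x
        · exact fib_ind_ne_top W _ x)
    have h2 := (add_le_add_left (ENNReal.rpow_le_rpow (hdom x) hs.le) _).trans h1
    rw [Fintype.sum_sum_type (f := fun q => (D x + Sum.elim (fun i => fib W ((V i).indicator 1) x)
        (fun l => fib W ((F l).indicator 1) x) q) ^ s)] at h2
    simp only [Sum.elim_inl, Sum.elim_inr, hUD, Finset.card_univ] at h2
    have h3 := mul_le_mul_right h2 (A x ^ th)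
    rw [mul_add, mul_add, mul_add, Finset.mul_sum, Finset.mul_sum, mul_left_comm] at h3
    exact h3
  -- integrate
  have hG' : Measurable fun x => fib W ((Kᶜ ∪ G).indicator (1 : E → ℝ≥0∞)) x :=
    measurable_fib (measurable_one.indicator (hKm.compl.union hG))
  have hDm' : ∀ i, Measurable fun x => A x ^ th * Dm W K (d i) η (n i) M x ^ s := fun i =>
    (hA.pow_const th).mul ((measurable_Dm W hKm (d i) η (hnm i) M).pow_const s)
  have hFm' : ∀ l, Measurable fun x => A x ^ th * (D x + fib W ((F l).indicator 1) x) ^ s :=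
    fun l => (hA.pow_const th).mul
      ((hDm.add (measurable_fib (measurable_one.indicator (hFm l)))).pow_const s)
  have hint := fib_mono hpt x0 (W := W0)
  have hADm : Measurable fun x => A x ^ th * D x ^ s := (hA.pow_const th).mul (hDm.pow_const s)
  rw [fib_add (f := fun x => A x ^ th * fib W ((Kᶜ ∪ G).indicator 1) x ^ s)
      ((hA.pow_const th).mul (hG'.pow_const s)),
    fib_mul (g := fun _ => ((Fintype.card (ι ⊕ κ) : ℕ) : ℝ≥0∞)) (inv_const W0 _) hADm,
    fib_add (f := fun x => A x ^ th * D x ^ s) hADm,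
    fib_add (f := fun x => ∑ i, A x ^ th * Dm W K (d i) η (n i) M x ^ s)
      (Finset.measurable_sum _ (fun i _ => hDm' i))] at hint
  have es1 : fib W0 (fun x => ∑ i, A x ^ th * Dm W K (d i) η (n i) M x ^ s) x0
      = ∑ i, fib W0 (fun x => A x ^ th * Dm W K (d i) η (n i) M x ^ s) x0 := by
    exact fib_finset_sum _ hDm' x0
  have es2 : fib W0 (fun x => ∑ l, A x ^ th * (D x + fib W ((F l).indicator 1) x) ^ s) x0
      = ∑ l, fib W0 (fun x => A x ^ th * (D x + fib W ((F l).indicator 1) x) ^ s) x0 := by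
    exact fib_finset_sum _ hFm' x0
  rw [es1, es2] at hint
  set S1 : ℝ≥0∞ := ∑ i, ∑ j ∈ Finset.range M, fib W0 (fun x => ω i x ^ (1 / th) * A x) x0 ^ th
          * fib W0 ((Tset K (d i) η (n i) j).indicator 1) x0 ^ s with hS1
  set S2 : ℝ≥0∞ := ∑ l, fib W0 (fun x => ENNReal.ofReal (5 * a l x) ^ (1 / th) * A x) x0 ^ th
          * Psi s (fib W0 (Kᶜ.indicator 1) x0) with hS2
  have hb1 : ∑ i, fib W0 (fun x => A x ^ th * Dm W K (d i) η (n i) M x ^ s) x0
      ≤ (Fintype.card ι : ℝ≥0∞) * X + S1 := by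
    calc ∑ i, fib W0 (fun x => A x ^ th * Dm W K (d i) η (n i) M x ^ s) x0
        ≤ ∑ i, (X + ∑ j ∈ Finset.range M, fib W0 (fun x => ω i x ^ (1 / th) * A x) x0 ^ th
          * fib W0 ((Tset K (d i) η (n i) j).indicator 1) x0 ^ s) :=
          Finset.sum_le_sum fun i _ => dir_cap hW hKc hK (hd i) (hd0 i) hη (hnm i) (hn i) hth hs
            hsum hA (hω i) (hdef i) hfin M
      _ = (Fintype.card ι : ℝ≥0∞) * X + S1 := by
          rw [Finset.sum_add_distrib, Finset.sum_const, Finset.card_univ, nsmul_eq_mul]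
  have hb2 : ∑ l, fib W0 (fun x => A x ^ th * (D x + fib W ((F l).indicator 1) x) ^ s) x0
      ≤ (Fintype.card κ : ℝ≥0∞) * X + S2 := by
    calc ∑ l, fib W0 (fun x => A x ^ th * (D x + fib W ((F l).indicator 1) x) ^ s) x0
        ≤ ∑ l, (X + fib W0 (fun x => ENNReal.ofReal (5 * a l x) ^ (1 / th) * A x) x0 ^ th
          * Psi s (fib W0 (Kᶜ.indicator 1) x0)) :=
          Finset.sum_le_sum fun l _ => fibre_cap hW hKc hK hR hKR (hf l) (hfn l) (ham l) (ha l)
            (haR l) (hainv l) hth hs hsum hA x0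
      _ = (Fintype.card κ : ℝ≥0∞) * X + S2 := by
          rw [Finset.sum_add_distrib, Finset.sum_const, Finset.card_univ, nsmul_eq_mul]
  have hfinal : fib W0 (fun x => A x ^ th * fib W ((Kᶜ ∪ G).indicator 1) x ^ s) x0
      + ((Fintype.card (ι ⊕ κ) : ℕ) : ℝ≥0∞) * X
      ≤ (X + (S1 + S2)) + ((Fintype.card (ι ⊕ κ) : ℕ) : ℝ≥0∞) * X := by
    refine hint.trans ?_
    calc X + (∑ i, fib W0 (fun x => A x ^ th * Dm W K (d i) η (n i) M x ^ s) x0
          + ∑ l, fib W0 (fun x => A x ^ th * (D x + fib W ((F l).indicator 1) x) ^ s) x0)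
        ≤ X + (((Fintype.card ι : ℝ≥0∞) * X + S1) + ((Fintype.card κ : ℝ≥0∞) * X + S2)) :=
          add_le_add_right (add_le_add hb1 hb2) _
      _ = (X + (S1 + S2)) + ((Fintype.card (ι ⊕ κ) : ℕ) : ℝ≥0∞) * X := by
          rw [Fintype.card_sum]
          push_cast
          ring
  exact (ENNReal.add_le_add_iff_right (ENNReal.mul_ne_top (ENNReal.natCast_ne_top _) hXt)).mp hfinal

end Vale.Agent.P262.H837
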