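import Vale.Agent.P262.H837.ThrE
import Vale.Agent.P262.H118.Rot

/-!
# P262, block THR (sharp throughput), part F: plane rotations, one class
-/

set_option linter.all false

open MeasureTheory ProbabilityTheory Set
open scoped ENNReal RealInnerProductSpace Pointwise

namespace Vale.Agent.P262.H837

open Vale.Agent.P262.H395

/-! ### Gaussian tails -/

lemma pdf_shift {x : ℝ} (hx : 0 ≤ x) :
    gaussianPDF 0 1 (x + 1) ≤ ENNReal.ofReal (2 / 3) * gaussianPDF 0 1 x := by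
  unfold gaussianPDF
  rw [← ENNReal.ofReal_mul (by norm_num)]
  apply ENNReal.ofReal_le_ofReal
  unfold gaussianPDFReal
  have h1 : Real.exp (-(x + 1 - 0) ^ 2 / (2 * ((1 : NNReal) : ℝ)))
      ≤ 2 / 3 * Real.exp (-(x - 0) ^ 2 / (2 * ((1 : NNReal) : ℝ))) := by
    have h2 : -(x + 1 - 0) ^ 2 / (2 * ((1 : NNReal) : ℝ))
        = (-(x - 0) ^ 2 / (2 * ((1 : NNReal) : ℝ))) + (-(x + 1 / 2)) := by
      push_cast
      ring
    rw [h2, Real.exp_add, mul_comm]
    apply mul_le_mul_of_nonneg_right _ (Real.exp_pos _).le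
    have h3 : Real.exp (-(x + 1 / 2)) ≤ Real.exp (-(1 / 2)) := Real.exp_le_exp.mpr (by linarith)
    have h4 : Real.exp (-(1 / 2 : ℝ)) ≤ 2 / 3 := by
      have h5 : (3 / 2 : ℝ) ≤ Real.exp (1 / 2) := by
        have := Real.add_one_le_exp (1 / 2 : ℝ)
        linarith
      rw [Real.exp_neg]
      rw [inv_le_comm₀ (Real.exp_pos _) (by norm_num)]
      linarith
    linarith
  calc (Real.sqrt (2 * Real.pi * ((1 : NNReal) : ℝ)))⁻¹
        * Real.exp (-(x + 1 - 0) ^ 2 / (2 * ((1 : NNReal) : ℝ)))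
      ≤ (Real.sqrt (2 * Real.pi * ((1 : NNReal) : ℝ)))⁻¹
        * (2 / 3 * Real.exp (-(x - 0) ^ 2 / (2 * ((1 : NNReal) : ℝ)))) :=
        mul_le_mul_of_nonneg_left h1 (by positivity)
    _ = _ := by ring

lemma pdf_neg (x : ℝ) : gaussianPDF 0 1 (-x) = gaussianPDF 0 1 x := by
  unfold gaussianPDF gaussianPDFReal
  congr 3
  ring

lemma tail_right (m : ℕ) : gaussianReal 0 1 (Ioi ((m : ℝ) + 1))
    ≤ ENNReal.ofReal (2 / 3) * gaussianReal 0 1 (Ioi (m : ℝ)) := by
  rw [gaussianReal_apply 0 one_ne_zero, gaussianReal_apply 0 one_ne_zero,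
    ← lintegral_indicator measurableSet_Ioi, ← lintegral_indicator measurableSet_Ioi,
    ← lintegral_const_mul _ ((measurable_gaussianPDF 0 1).indicator measurableSet_Ioi),
    ← lintegral_add_right_eq_self _ (1 : ℝ)]
  apply lintegral_mono
  intro x
  by_cases h : (m : ℝ) < x
  · have h1 : x + 1 ∈ Ioi ((m : ℝ) + 1) := by
      show (m : ℝ) + 1 < x + 1
      linarith
    simp only [indicator_of_mem h1, indicator_of_mem (show x ∈ Ioi (m : ℝ) from h)]
    exact pdf_shift (le_trans (Nat.cast_nonneg m) h.le)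
  · have h1 : x + 1 ∉ Ioi ((m : ℝ) + 1) := by
      intro h2
      have : (m : ℝ) + 1 < x + 1 := h2
      exact h (by linarith)
    simp only [indicator_of_notMem h1]
    exact zero_le

lemma tail_left (m : ℕ) : gaussianReal 0 1 (Iio (-((m : ℝ) + 1)))
    ≤ ENNReal.ofReal (2 / 3) * gaussianReal 0 1 (Iio (-(m : ℝ))) := by
  rw [gaussianReal_apply 0 one_ne_zero, gaussianReal_apply 0 one_ne_zero,
    ← lintegral_indicator measurableSet_Iio, ← lintegral_indicator measurableSet_Iio,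
    ← lintegral_const_mul _ ((measurable_gaussianPDF 0 1).indicator measurableSet_Iio),
    ← lintegral_add_right_eq_self _ (-1 : ℝ)]
  apply lintegral_mono
  intro x
  by_cases h : x < -(m : ℝ)
  · have h1 : x + -1 ∈ Iio (-((m : ℝ) + 1)) := by
      show x + -1 < -((m : ℝ) + 1)
      linarith
    simp only [indicator_of_mem h1, indicator_of_mem (show x ∈ Iio (-(m : ℝ)) from h)]
    have h2 : x + -1 = -(-x + 1) := by ring
    rw [h2, pdf_neg]
    refine (pdf_shift (x := -x) ?_).trans ?_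
    · have := Nat.cast_nonneg (α := ℝ) m
      linarith
    · rw [pdf_neg]
  · have h1 : x + -1 ∉ Iio (-((m : ℝ) + 1)) := by
      intro h2
      have : x + -1 < -((m : ℝ) + 1) := h2
      exact h (by linarith)
    simp only [indicator_of_notMem h1]
    exact zero_le

lemma abs_set (m : ℕ) : {y : ℝ | (m : ℝ) < |y|} = Ioi (m : ℝ) ∪ Iio (-(m : ℝ)) := by
  ext y
  simp only [mem_setOf_eq, mem_union, mem_Ioi, mem_Iio, lt_abs]
  constructor
  · rintro (h | h)
    · exact Or.inl h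
    · exact Or.inr (by linarith)
  · rintro (h | h)
    · exact Or.inl h
    · exact Or.inr (by linarith)

lemma pg_eq (m : ℕ) : pg m = gaussianReal 0 1 (Ioi (m : ℝ)) + gaussianReal 0 1 (Iio (-(m : ℝ))) := by
  unfold pg
  rw [abs_set]
  apply measure_union _ measurableSet_Iio
  rw [Set.disjoint_left]
  intro y hy hy2
  have h1 : (m : ℝ) < y := hy
  have h2 : y < -(m : ℝ) := hy2
  have := Nat.cast_nonneg (α := ℝ) m
  linarith

lemma pg_succ (m : ℕ) : pg (m + 1) ≤ ENNReal.ofReal (2 / 3) * pg m := by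
  rw [pg_eq, pg_eq, mul_add]
  have e : ((m + 1 : ℕ) : ℝ) = (m : ℝ) + 1 := by push_cast; ring
  rw [e]
  exact add_le_add (tail_right m) (tail_left m)

lemma pg_le_geom (m k : ℕ) : pg (m + k) ≤ ENNReal.ofReal (2 / 3) ^ k * pg m := by
  induction k with
  | zero => simp
  | succ k ih =>
    calc pg (m + (k + 1)) ≤ ENNReal.ofReal (2 / 3) * pg (m + k) := pg_succ (m + k)
      _ ≤ ENNReal.ofReal (2 / 3) * (ENNReal.ofReal (2 / 3) ^ k * pg m) := mul_le_mul_right ih _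
      _ = _ := by rw [pow_succ]; ring

lemma pg_tail (m : ℕ) : ∑' k : ℕ, pg (m + k) ≤ 3 * pg m := by
  calc ∑' k : ℕ, pg (m + k) ≤ ∑' k : ℕ, ENNReal.ofReal (2 / 3) ^ k * pg m :=
        ENNReal.tsum_le_tsum fun k => pg_le_geom m k
    _ = (1 - ENNReal.ofReal (2 / 3))⁻¹ * pg m := by
        rw [ENNReal.tsum_mul_right, ENNReal.tsum_geometric]
    _ = 3 * pg m := by
        congr 1
        rw [← ENNReal.ofReal_one, ← ENNReal.ofReal_sub _ (by norm_num),
          ← ENNReal.ofReal_inv_of_pos (by norm_num)]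
        norm_num

lemma Psi_one_le {D : ℝ≥0∞} {m : ℕ} (h : pg m ≤ D) : Psi 1 D ≤ ((m : ℝ≥0∞) + 3) * D := by
  unfold Psi
  rw [← ENNReal.summable.sum_add_tsum_nat_add' (k := m)]
  have h1 : ∑ i ∈ Finset.range m, min D (pg i) ^ (1 : ℝ) ≤ (m : ℝ≥0∞) * D := by
    calc ∑ i ∈ Finset.range m, min D (pg i) ^ (1 : ℝ) ≤ ∑ i ∈ Finset.range m, D :=
          Finset.sum_le_sum fun i _ => by rw [ENNReal.rpow_one]; exact min_le_left _ _
      _ = (m : ℝ≥0∞) * D := by rw [Finset.sum_const, Finset.card_range, nsmul_eq_mul]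
  have h2 : ∑' i : ℕ, min D (pg (i + m)) ^ (1 : ℝ) ≤ 3 * D := by
    calc ∑' i : ℕ, min D (pg (i + m)) ^ (1 : ℝ) ≤ ∑' i : ℕ, pg (m + i) :=
          ENNReal.tsum_le_tsum fun i => by
            rw [ENNReal.rpow_one, add_comm]; exact min_le_right _ _
      _ ≤ 3 * pg m := pg_tail m
      _ ≤ 3 * D := mul_le_mul_right h _
  calc _ ≤ (m : ℝ≥0∞) * D + 3 * D := add_le_add h1 h2
    _ = _ := by ring

lemma Psi_mono {s : ℝ} (hs : 0 ≤ s) {D D' : ℝ≥0∞} (h : D ≤ D') : Psi s D ≤ Psi s D' :=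
  ENNReal.tsum_le_tsum fun m => ENNReal.rpow_le_rpow (min_le_min_right _ h) hs

variable {E : Type*} [NormedAddCommGroup E] [InnerProductSpace ℝ E] [FiniteDimensional ℝ E]
  [MeasurableSpace E] [BorelSpace E]

/-- the dead mass of a body in the ball of radius `R` -/
lemma pg_le_dead {W : Submodule ℝ E} {f : E} (hf : f ∈ Wᗮ) (hn : ‖f‖ = 1) {K : Set E} {R : ℝ}
    (hKR : ∀ x ∈ K, ‖x‖ ≤ R) {m : ℕ} (hm : R ≤ m) (x : E) :
    pg m ≤ fib W (Kᶜ.indicator 1) x := by
  rw [← fib_tail hf hn m x]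
  apply fib_mono
  intro y
  apply indicator_le_indicator_of_subset _ (fun _ => zero_le) y
  intro z hz hzK
  have h4 : |⟪f, z⟫| ≤ ‖f‖ * ‖z‖ := abs_real_inner_le_norm f z
  rw [hn, one_mul] at h4
  have := hKR z hzK
  have h5 : (m : ℝ) < |⟪f, z⟫| := hz
  linarith

/-- the mass of a shadow after `j` small steps is at most twice the dead mass -/
lemma tset_mass {W0 : Submodule ℝ E} {K : Set E} (hKc : IsCompact K) (hK : Convex ℝ K) {R : ℝ}
    (hR : 0 ≤ R) (hKR : ∀ x ∈ K, ‖x‖ ≤ R) {d : E} (hd : d ∈ W0ᗮ) {u : E} (hu : u ∈ W0ᗮ)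
    (hun : ‖u‖ = 1) {η : ℝ} (hη : 0 ≤ η) {n : E → ℕ} (hnm : Measurable n) (j : ℕ)
    (hj : 5 * (j * η * ‖d‖) * (R + 4) ≤ 1) (x0 : E) :
    fib W0 ((Tset K d η n j).indicator 1) x0 ≤ 2 * fib W0 (Kᶜ.indicator 1) x0 := by
  set D := fib W0 (Kᶜ.indicator (1 : E → ℝ≥0∞)) x0 with hD
  have hKm := hKc.measurableSet
  have hsub : ∀ y, (Tset K d η n j).indicator (1 : E → ℝ≥0∞) y
      ≤ Kᶜ.indicator 1 y + ({y | y ∈ K ∧ y + ((j : ℝ) * η) • d ∉ K}).indicator 1 y := by
    intro y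
    by_cases h : y ∈ Tset K d η n j
    · rw [indicator_of_mem h]
      by_cases hy : y ∈ K
      · rw [indicator_of_mem (show y ∈ {y | y ∈ K ∧ y + ((j : ℝ) * η) • d ∉ K} from
          ⟨hy, shd_subset K d h.2⟩)]
        exact le_add_self
      · rw [indicator_of_mem (show y ∈ Kᶜ from hy)]
        exact le_self_add
    · rw [indicator_of_notMem h]; exact zero_le
  refine (fib_mono hsub x0).trans ?_
  rw [fib_add (measurable_one.indicator hKm.compl), two_mul]
  refine add_le_add_right ?_ _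
  rcases eq_or_ne d 0 with hd0 | hd0
  · have : ∀ y, ({y | y ∈ K ∧ y + ((j : ℝ) * η) • d ∉ K}).indicator (1 : E → ℝ≥0∞) y ≤ 0 := by
      intro y
      rw [indicator_of_notMem]
      rintro ⟨h1, h2⟩
      rw [hd0, smul_zero, add_zero] at h2
      exact h2 h1
    refine (fib_mono this x0).trans ?_
    rw [fib_const]
    exact zero_le
  · have hdn : 0 < ‖d‖ := norm_pos_iff.mpr hd0
    set f : E := ‖d‖⁻¹ • d with hf
    have hfW : f ∈ W0ᗮ := W0ᗮ.smul_mem _ hd
    have hfn : ‖f‖ = 1 := by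
      rw [hf, norm_smul, norm_inv, norm_norm, inv_mul_cancel₀ hdn.ne']
    have hda : (((j : ℝ) * η * ‖d‖)) • f = ((j : ℝ) * η) • d := by
      rw [hf, smul_smul]
      congr 1
      field_simp
    have ha : 0 ≤ (j : ℝ) * η * ‖d‖ := by positivity
    have h1 := fibre_dir (W := W0) hfW hfn hKc hK hR hKR ha (by nlinarith) x0
    rw [hda] at h1
    refine h1.trans ?_
    obtain ⟨m, hm1, hm2⟩ : ∃ m : ℕ, R ≤ m ∧ (m : ℝ) ≤ R + 1 :=
      ⟨⌈R⌉₊, Nat.le_ceil R, (Nat.ceil_lt_add_one hR).le⟩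
    have h2 := Psi_one_le (pg_le_dead hu hun hKR hm1 x0)
    refine (mul_le_mul_right h2 _).trans ?_
    rw [← mul_assoc]
    have h3 : ENNReal.ofReal (5 * ((j : ℝ) * η * ‖d‖)) * ((m : ℝ≥0∞) + 3) ≤ 1 := by
      have e : ((m : ℝ≥0∞) + 3) = ENNReal.ofReal ((m : ℝ) + 3) := by
        rw [ENNReal.ofReal_add (Nat.cast_nonneg m) (by norm_num), ENNReal.ofReal_natCast]
        norm_num
      rw [e, ← ENNReal.ofReal_mul (by positivity), ← ENNReal.ofReal_one]
      apply ENNReal.ofReal_le_ofReal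
      have h4 : (m : ℝ) + 3 ≤ R + 4 := by linarith
      calc 5 * ((j : ℝ) * η * ‖d‖) * ((m : ℝ) + 3) ≤ 5 * ((j : ℝ) * η * ‖d‖) * (R + 4) :=
            mul_le_mul_of_nonneg_left h4 (by positivity)
        _ ≤ 1 := hj
    calc ENNReal.ofReal (5 * ((j : ℝ) * η * ‖d‖)) * ((m : ℝ≥0∞) + 3) * D ≤ 1 * D :=
          mul_le_mul_left h3 _
      _ = D := one_mul _

end Vale.Agent.P262.H837
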