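import Vale.Agent.P262.H837.ThrF

/-!
# P262, block THR (sharp throughput), part G: one plane rotation, one class
-/

set_option linter.all false

open MeasureTheory ProbabilityTheory Set
open scoped ENNReal RealInnerProductSpace Pointwise

namespace Vale.Agent.P262.H837

open Vale.Agent.P262.H395 Vale.Agent.P262.H118

variable {E : Type*} [NormedAddCommGroup E] [InnerProductSpace ℝ E] [FiniteDimensional ℝ E]
  [MeasurableSpace E] [BorelSpace E]

/-- growth of a cap when the label is shifted back by `h` -/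
def GrowV (A : E → ℝ≥0∞) (h : E) (p : ℝ) : Prop :=
  ∀ x, A (x - h) ≤ ENNReal.ofReal (Real.exp (p * max 0 (‖h‖ ^ 2 - 2 * ⟪h, x⟫))) * A x

/-- the weight lost in a shift by `h` -/
noncomputable def pv (h x : E) : ℝ≥0∞ := ENNReal.ofReal (|⟪h, x⟫| * Real.exp |⟪h, x⟫|)

lemma measurable_pv (h : E) : Measurable (pv h) := by
  unfold pv
  fun_prop

lemma defectV {A : E → ℝ≥0∞} {h : E} {p th : ℝ} (hp : 0 ≤ p) (hth : 0 ≤ th)
    (hpth : 2 * p * th ≤ 1) (hA : GrowV A h p) (x : E) :
    A (x - h) ^ th * dens h x ≤ A x ^ th + pv h x * A x ^ th := by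
  set y := ⟪h, x⟫ with hy
  set N := ‖h‖ ^ 2 with hN
  have hN0 : 0 ≤ N := by positivity
  have hd : dens h x = ENNReal.ofReal (Real.exp (y - N / 2)) := rfl
  have h1 : A (x - h) ^ th
      ≤ ENNReal.ofReal (Real.exp (th * (p * max 0 (N - 2 * y)))) * A x ^ th := by
    refine (ENNReal.rpow_le_rpow (hA x) hth).trans ?_
    rw [ENNReal.mul_rpow_of_nonneg _ _ hth, ENNReal.ofReal_rpow_of_nonneg (Real.exp_pos _).le hth,
      ← Real.exp_mul]
    rw [mul_comm (p * _) th]
  rw [hd]
  calc A (x - h) ^ th * ENNReal.ofReal (Real.exp (y - N / 2))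
      ≤ ENNReal.ofReal (Real.exp (th * (p * max 0 (N - 2 * y)))) * A x ^ th
          * ENNReal.ofReal (Real.exp (y - N / 2)) := mul_le_mul_left h1 _
    _ = ENNReal.ofReal (Real.exp (th * (p * max 0 (N - 2 * y)) + (y - N / 2)))
          * A x ^ th := by
        rw [Real.exp_add, ENNReal.ofReal_mul (Real.exp_pos _).le]
        ring
    _ ≤ ENNReal.ofReal (1 + |y| * Real.exp |y|) * A x ^ th := by
        apply mul_le_mul_left
        apply ENNReal.ofReal_le_ofReal
        have hya : y ≤ |y| := le_abs_self y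
        have hyn : 0 ≤ |y| := abs_nonneg y
        have key : th * (p * max 0 (N - 2 * y)) + (y - N / 2) ≤ |y| := by
          rcases le_total (N - 2 * y) 0 with h | h
          · rw [max_eq_left h]
            nlinarith
          · rw [max_eq_right h]
            have : th * (p * (N - 2 * y)) ≤ (N - 2 * y) / 2 := by
              nlinarith
            linarith
        have h2 : Real.exp (th * (p * max 0 (N - 2 * y)) + (y - N / 2))
            ≤ Real.exp |y| := Real.exp_le_exp.mpr key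
        have h3 : Real.exp |y| ≤ 1 + |y| * Real.exp |y| := by
          have h4 : 1 - |y| ≤ Real.exp (-|y|) := by
            have := Real.add_one_le_exp (-|y|)
            linarith
          have h5 : (1 - |y|) * Real.exp |y| ≤ 1 := by
            calc (1 - |y|) * Real.exp |y|
                ≤ Real.exp (-|y|) * Real.exp |y| :=
                  mul_le_mul_of_nonneg_right h4 (Real.exp_pos _).le
              _ = 1 := by rw [← Real.exp_add]; simp
          linarith
        exact h2.trans h3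
    _ = A x ^ th + pv h x * A x ^ th := by
        rw [ENNReal.ofReal_add zero_le_one (by positivity), ENNReal.ofReal_one, add_mul, one_mul]
        rfl

/-- exponential weight of a direction, used in the cap moments -/
noncomputable def ew (u x : E) : ℝ≥0∞ := ENNReal.ofReal ((1 + |⟪u, x⟫|) * Real.exp |⟪u, x⟫|)

lemma measurable_ew (u : E) : Measurable (ew u) := by
  unfold ew
  fun_prop

lemma pv_le_ew {u : E} {c η : ℝ} (hη : 0 ≤ η) (hη1 : η ≤ 1) (hc : |c| ≤ η) (x : E) :
    pv (c • u) x ≤ ENNReal.ofReal η * ew u x := by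
  unfold pv ew
  rw [← ENNReal.ofReal_mul hη]
  apply ENNReal.ofReal_le_ofReal
  rw [real_inner_smul_left, abs_mul]
  have h0 := abs_nonneg ⟪u, x⟫
  have h1 : |c| * |⟪u, x⟫| ≤ η * |⟪u, x⟫| := mul_le_mul_of_nonneg_right hc h0
  have h2 : |c| * |⟪u, x⟫| ≤ |⟪u, x⟫| := by nlinarith
  calc |c| * |⟪u, x⟫| * Real.exp (|c| * |⟪u, x⟫|)
      ≤ η * |⟪u, x⟫| * Real.exp |⟪u, x⟫| :=
        mul_le_mul h1 (Real.exp_le_exp.mpr h2) (Real.exp_pos _).le (by positivity)
    _ ≤ η * ((1 + |⟪u, x⟫|) * Real.exp |⟪u, x⟫|) := by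
        rw [mul_assoc]
        apply mul_le_mul_of_nonneg_left _ hη
        apply mul_le_mul_of_nonneg_right _ (Real.exp_pos _).le
        linarith

lemma mom_le {W0 : Submodule ℝ E} {th : ℝ} (hth : 0 < th) {A X : E → ℝ≥0∞} {u : E} {c : ℝ≥0∞}
    (hc : c ≠ ⊤) (hX : ∀ x, X x ≤ c * ew u x) (hA : Measurable A) {x0 : E} {Λ : ℝ≥0∞}
    (hΛ : fib W0 (fun x => ew u x ^ (1 / th) * A x) x0 ≤ Λ) :
    fib W0 (fun x => X x ^ (1 / th) * A x) x0 ^ th ≤ c * Λ ^ th := by
  have h1 : fib W0 (fun x => X x ^ (1 / th) * A x) x0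
      ≤ c ^ (1 / th) * Λ := by
    calc fib W0 (fun x => X x ^ (1 / th) * A x) x0
        ≤ fib W0 (fun x => c ^ (1 / th) * (ew u x ^ (1 / th) * A x)) x0 := by
          apply fib_mono
          intro x
          rw [← mul_assoc, ← ENNReal.mul_rpow_of_nonneg _ _ (by positivity)]
          exact mul_le_mul_left (ENNReal.rpow_le_rpow (hX x) (by positivity)) _
      _ = c ^ (1 / th) * fib W0 (fun x => ew u x ^ (1 / th) * A x) x0 :=
          fib_mul (g := fun _ => c ^ (1 / th)) (inv_const W0 _)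
            (((measurable_ew u).pow_const _).mul hA) x0
      _ ≤ _ := mul_le_mul_right hΛ _
  calc fib W0 (fun x => X x ^ (1 / th) * A x) x0 ^ th ≤ (c ^ (1 / th) * Λ) ^ th :=
        ENNReal.rpow_le_rpow h1 hth.le
    _ = c * Λ ^ th := by
        rw [ENNReal.mul_rpow_of_nonneg _ _ hth.le, ← ENNReal.rpow_mul, one_div_mul_cancel hth.ne',
          ENNReal.rpow_one]

/-- number of unit steps for a displacement proportional to `1 + |⟪u, x⟫|` -/
noncomputable def nc (u x : E) : ℕ := ⌈|⟪u, x⟫|⌉₊ + 1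

lemma measurable_nc (u : E) : Measurable (nc u) := by
  unfold nc
  have h1 : Measurable fun x : E => ⌈|⟪u, x⟫|⌉₊ := Nat.measurable_ceil.comp (by fun_prop)
  exact (measurable_from_top (f := fun k : ℕ => k + 1)).comp h1

lemma one_add_le_nc (u x : E) : |⟪u, x⟫| + 1 ≤ nc u x := by
  unfold nc
  push_cast
  have := Nat.le_ceil |⟪u, x⟫|
  linarith

lemma fib_nc {W : Submodule ℝ E} {u : E} (hu : u ∈ Wᗮ) (hn : ‖u‖ = 1) (j : ℕ) (x : E) :
    fib W ({y | j < nc u y}.indicator 1) x ≤ pg (j - 1) := by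
  rcases Nat.eq_zero_or_pos j with h0 | h0
  · subst h0
    rw [Nat.zero_sub, pg_zero]
    exact fib_le_one (fun y => by
      by_cases h : y ∈ {y | 0 < nc u y}
      · rw [indicator_of_mem h]; simp
      · rw [indicator_of_notMem h]; exact zero_le) x
  · rw [← fib_tail hu hn (j - 1) x]
    apply fib_mono
    intro y
    apply indicator_le_indicator_of_subset _ (fun _ => zero_le) y
    intro z hz
    have hz' : j < ⌈|⟪u, z⟫|⌉₊ + 1 := hz
    have h1 : j - 1 < ⌈|⟪u, z⟫|⌉₊ := by omega
    exact Nat.lt_ceil.mp h1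

lemma sum_pg_le {s : ℝ} (hs : 0 < s) {Y : ℝ≥0∞} (M : ℕ) {τ : ℕ → ℝ≥0∞} (h1 : ∀ j, τ j ≤ pg (j - 1))
    (h2 : ∀ j, j < M → τ j ≤ Y) : ∑ j ∈ Finset.range M, τ j ^ s ≤ 2 * Psi s Y := by
  rcases Nat.eq_zero_or_pos M with h0 | h0
  · subst h0; simp
  obtain ⟨k, rfl⟩ : ∃ k, M = k + 1 := ⟨M - 1, by omega⟩
  rw [Finset.sum_range_succ']
  have a1 : ∑ j ∈ Finset.range k, τ (j + 1) ^ s ≤ Psi s Y := by
    calc ∑ j ∈ Finset.range k, τ (j + 1) ^ s ≤ ∑ j ∈ Finset.range k, min Y (pg j) ^ s := by
          apply Finset.sum_le_sum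
          intro j hj
          apply ENNReal.rpow_le_rpow _ hs.le
          apply le_min
          · exact h2 _ (by have := Finset.mem_range.mp hj; omega)
          · have := h1 (j + 1)
            simpa using this
      _ ≤ Psi s Y := ENNReal.sum_le_tsum _
  have a2 : τ 0 ^ s ≤ Psi s Y := by
    calc τ 0 ^ s ≤ min Y (pg 0) ^ s := by
          apply ENNReal.rpow_le_rpow _ hs.le
          apply le_min (h2 0 h0)
          have := h1 0
          simpa using this
      _ ≤ Psi s Y := ENNReal.le_tsum 0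
  rw [two_mul]
  exact add_le_add a1 a2

/-- sign of a boolean -/
noncomputable def sg (b : Bool) : ℝ := if b then 1 else -1

lemma abs_sg (b : Bool) : |sg b| = 1 := by
  cases b <;> simp [sg]

lemma leave_push {K : Set E} (hK : Convex ℝ K) {x u : E} (hx : x ∈ K) {c t : ℝ} (hc : |c| ≤ t)
    (h : x + c • u ∉ K) : ∃ σ : Bool, x + t • (sg σ • u) ∉ K := by
  rcases le_total 0 c with h0 | h0
  · refine ⟨true, ?_⟩
    have h1 := mem_shd_of_leave hK h0 hx h
    rw [abs_of_nonneg h0] at hc
    have h2 := h1 (t - c) (by linarith)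
    rw [add_assoc, ← add_smul] at h2
    simpa [sg] using h2
  · refine ⟨false, ?_⟩
    have h1 : x + (-c) • (-u) ∉ K := by
      rw [smul_neg, neg_smul, neg_neg]; exact h
    have h2 := mem_shd_of_leave hK (neg_nonneg.mpr h0) hx h1
    rw [abs_of_nonpos h0] at hc
    have h3 := h2 (t + c) (by linarith)
    rw [add_assoc, ← add_smul] at h3
    have e : -c + (t + c) = t := by ring
    rw [e] at h3
    simpa [sg] using h3

end Vale.Agent.P262.H837
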